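import Vale.Agent.P088.TM.Main
import Vale.Agent.P088.TM.St2

/-!
# P088: two manifolds, from the abstract theorem to the elementary statement
-/

open Bundle Manifold MeasureTheory Set Filter
open scoped ContDiff Matrix Topology ENNReal

noncomputable section

set_option linter.all false

namespace Vale.Agent.P088.B2

open Vale.Agent.P088 Vale.Agent.P088.B

universe u

section Jac

variable {n : ℕ} [NeZero n] {N : ℕ} {M₁ M₂ : Type u}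
  [TopologicalSpace M₁] [ChartedSpace (EuclideanHalfSpace n) M₁] [IsManifold (𝓡∂ n) ∞ M₁]
  [TopologicalSpace M₂] [ChartedSpace (EuclideanHalfSpace n) M₂] [IsManifold (𝓡∂ n) ∞ M₂]

/-- the derivative of `Φ` on the model space -/
def D2 (Φ : M₂ → M₁) (x : M₂) : EuclideanSpace ℝ (Fin n) →L[ℝ] EuclideanSpace ℝ (Fin n) :=
  mfderiv (𝓡∂ n) (𝓡∂ n) Φ x

set_option backward.isDefEq.respectTransparency false in
theorem D2_mf {Φ : M₂ → M₁} {x : M₂} (hΦ : MDifferentiableAt (𝓡∂ n) (𝓡∂ n) Φ x) :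
    D2 Φ x = fderivWithin ℝ (writtenInExtChartAt (𝓡∂ n) (𝓡∂ n) x Φ) (range (𝓡∂ n))
      (extChartAt (𝓡∂ n) x x) := by
  unfold D2
  rw [mfderiv, if_pos hΦ]

theorem jac₂_eq {Φ : M₂ → M₁} {x : M₂} (hΦ : MDifferentiableAt (𝓡∂ n) (𝓡∂ n) Φ x) (i j : Fin n) :
    jac₂ (at_ n M₁) (at_ n M₂) Φ x i j = (D2 Φ x (es n j)) i := by
  have h0 := hΦ.differentiableWithinAt_writtenInExtChartAt.hasFDerivWithinAt
  rw [← D2_mf hΦ] at h0
  have h1 := ((EuclideanSpace.proj (𝕜 := ℝ) i : EuclideanSpace ℝ (Fin n) →L[ℝ] ℝ).hasFDerivAt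
    (x := writtenInExtChartAt (𝓡∂ n) (𝓡∂ n) x Φ (extChartAt (𝓡∂ n) x x))).comp_hasFDerivWithinAt
      (extChartAt (𝓡∂ n) x x) h0
  have h2 := S.germ_eq (mem_extChartAt_source x) (fun z => S.ch n (Φ x) (Φ z) i) h1 j
  unfold jac₂
  rw [dj_old _ (at_nonneg x x) j]
  exact h2

theorem met₂ {P : S.Pair n N M₁} {Q : S.Pair n N M₂} {Φ : M₂ → M₁} {x : M₂}
    (hΦ : MDifferentiableAt (𝓡∂ n) (𝓡∂ n) Φ x)
    (h : ∀ v w : EuclideanSpace ℝ (Fin n),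
      S.bil (Q.mat x) v w = S.bil (P.mat (Φ x)) (D2 Φ x v) (D2 Φ x w)) :
    Q.mat x = (jac₂ (at_ n M₁) (at_ n M₂) Φ x)ᵀ * P.mat (Φ x) *
      jac₂ (at_ n M₁) (at_ n M₂) Φ x := by
  ext i j
  have h1 := h (es n i) (es n j)
  have h2 : S.bil (Q.mat x) (es n i) (es n j) = Q.mat x i j := by
    rw [S.bil_apply]
    simp only [S.es_apply]
    simp
  rw [h2, S.bil_apply] at h1
  rw [h1]
  simp only [Matrix.mul_apply, Matrix.transpose_apply, Finset.sum_mul, jac₂_eq hΦ]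
  rw [Finset.sum_comm]
  refine Finset.sum_congr rfl fun k _ => Finset.sum_congr rfl fun l _ => ?_
  ring

theorem con₂ {P : S.Pair n N M₁} {Q : S.Pair n N M₂} {Φ : M₂ → M₁} {U : M₂ → EndF N}
    (hU : IsSmoothUnitary (𝓡∂ n) U) {x : M₂} (hΦ : MDifferentiableAt (𝓡∂ n) (𝓡∂ n) Φ x)
    (h : ∀ v : TangentSpace (𝓡∂ n) x, (S.connOf Q).form x v =
      TM.gf2 (S.connOf P) Φ U x v) (j : Fin n) :
    Q.co x j = (S.ofE (U x))ᴴ *
      (∑ i, jac₂ (at_ n M₁) (at_ n M₂) Φ x i j • P.co (Φ x) i) * S.ofE (U x) +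
      S.lgd n (fun x => S.ofE (U x)) x j := by
  apply S.toE_inj
  have h3 : S.toE (∑ i, jac₂ (at_ n M₁) (at_ n M₂) Φ x i j • P.co (Φ x) i) =
      (S.connOf P).form (Φ x) (D2 Φ x (es n j)) := by
    show _ = S.formOf (P.co (Φ x)) (D2 Φ x (es n j))
    rw [S.formOf_apply, S.toE_rsum]
    simp only [jac₂_eq hΦ]
  rw [S.toE_add, S.lgd_ofE hU, S.toE_mul, S.toE_mul, S.toE_star, S.toE_ofE, h3, ← S.connOf_es]
  have h1 := h (es n j)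
  unfold TM.gf2 at h1
  rw [mul_assoc]
  exact h1

theorem map₂ {Φ : M₂ → M₁} (hΦ : ContMDiff (𝓡∂ n) (𝓡∂ n) ∞ Φ) :
    SmMap₂ (at_ n M₁) (at_ n M₂) Φ := by
  refine ⟨hΦ.continuous, fun p i => ?_⟩
  have h1 : ContMDiffOn (𝓡∂ n) 𝓘(ℝ, EuclideanSpace ℝ (Fin n)) ∞ (extChartAt (𝓡∂ n) p)
      (chartAt (EuclideanHalfSpace n) p).source := contMDiffOn_extChartAt
  have h2 : ContMDiffOn (𝓡∂ n) 𝓘(ℝ, EuclideanSpace ℝ (Fin n)) ∞
      (fun x => extChartAt (𝓡∂ n) p (Φ x)) (Φ ⁻¹' (chartAt (EuclideanHalfSpace n) p).source) :=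
    h1.comp hΦ.contMDiffOn (fun x hx => hx)
  have h3 := (Complex.ofRealCLM.comp
    (EuclideanSpace.proj (𝕜 := ℝ) i : EuclideanSpace ℝ (Fin n) →L[ℝ] ℝ)).contMDiff.comp_contMDiffOn
      (n := ∞) h2
  exact h3

/-! ### data -/

theorem bdData {M : Type u} [TopologicalSpace M] [ChartedSpace (EuclideanHalfSpace n) M]
    [IsManifold (𝓡∂ n) ∞ M] {Γ : Set M} {f : M → Fin N → ℂ} (h : Data (at_ n M) Γ f) :
    IsBdryData (𝓡∂ n) Γ (S.toF f) := by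
  obtain ⟨h1, h2⟩ := data_iff'.1 h
  exact ⟨(S.sm_iff f).1 h1, by rw [S.supp_eq]; exact h2⟩

theorem bdData' {M : Type u} [TopologicalSpace M] [ChartedSpace (EuclideanHalfSpace n) M]
    [IsManifold (𝓡∂ n) ∞ M] {Γ : Set M} {f : M → Fib N} (h : IsBdryData (𝓡∂ n) Γ f) :
    Data (at_ n M) Γ (fun x a => f x a) :=
  data_iff'.2 ⟨(S.sm_iff _).2 h.smooth, by rw [← S.supp_eq]; exact h.supp⟩

/-- the abstract pair -/
def one {M : Type u} [TopologicalSpace M] [ChartedSpace (EuclideanHalfSpace n) M]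
    [IsManifold (𝓡∂ n) ∞ M] (P : Pair (at_ n M) N) : @EYM.One n N _ M _ _ _ (borel M) :=
  @EYM.One.mk n N _ M _ _ _ (borel M) (S.gOf (conv P)) (conv P).vol (S.connOf (conv P))
    (S.isVol_gOf (conv P))

theorem harm_one {M : Type u} [TopologicalSpace M] [ChartedSpace (EuclideanHalfSpace n) M]
    [IsManifold (𝓡∂ n) ∞ M] {P : Pair (at_ n M) N} {f u : M → Fin N → ℂ} (h : Harm P f u) :
    @EYM.One.Harm n N _ M _ _ _ (borel M) (one P) (S.toF f) (S.toF u) :=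
  (S.harm_iff (conv P) f u).1 (harm_conv h)

theorem energy_one {M : Type u} [TopologicalSpace M] [ChartedSpace (EuclideanHalfSpace n) M]
    [IsManifold (𝓡∂ n) ∞ M] {P : Pair (at_ n M) N} {f h u v : M → Fin N → ℂ} (hu : Harm P f u)
    (hv : Harm P h v) :
    B.energy P u v = @EYM.One.E n N _ M _ _ _ (borel M) (one P) (S.toF u) (S.toF v) := by
  rw [energy_conv]
  exact S.energy_toF (conv P) (harm_conv hu).1 (harm_conv hv).1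

end Jac

theorem final_of {n N : ℕ} [NeZero n] (hmain : TM.CMain_statement.{u}) (hn : 3 ≤ n) (hN : 1 ≤ N)
    {M₁ M₂ : Type u}
    [TopologicalSpace M₁] [ChartedSpace (EuclideanHalfSpace n) M₁] [IsManifold (𝓡∂ n) ∞ M₁]
    [T2Space M₁] [CompactSpace M₁] [ConnectedSpace M₁]
    [TopologicalSpace M₂] [ChartedSpace (EuclideanHalfSpace n) M₂] [IsManifold (𝓡∂ n) ∞ M₂]
    [T2Space M₂] [CompactSpace M₂] [ConnectedSpace M₂]
    (Z₁ : At n M₁) (hZ₁ : Z₁ = at_ n M₁) (Z₂ : At n M₂) (hZ₂ : Z₂ = at_ n M₂)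
    (Γ₁ O₁ : Set M₁) (hO₁ : IsOpen O₁) (hΓ₁ : Γ₁ = O₁ ∩ bd Z₁) (hne : Γ₁.Nonempty)
    (Γ₂ O₂ : Set M₂) (hO₂ : IsOpen O₂) (hΓ₂ : Γ₂ = O₂ ∩ bd Z₂) (ψ : M₂ → M₁)
    (hψ : Iden N Z₁ Z₂ Γ₁ Γ₂ ψ) (P : Pair Z₁ N) (Q : Pair Z₂ N) (κ₁ κ₂ α β : ℝ)
    (hP : EYM κ₁ α β P) (hQ : EYM κ₂ α β Q) (hdata : SameData₂ Γ₁ Γ₂ ψ P Q) :
    κ₁ = κ₂ ∧ Related₂ Γ₁ Γ₂ ψ P Q := by
  subst hZ₁ hZ₂
  rw [bd_at] at hΓ₁ hΓ₂
  obtain ⟨hbij, hext, hext'⟩ := hψ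
  have hne₂ : Γ₂.Nonempty := by
    obtain ⟨x, hx⟩ := hne
    obtain ⟨y, hy, -⟩ := hbij.surjOn hx
    exact ⟨y, hy⟩
  haveI : Nonempty M₂ := ⟨hne₂.some⟩
  set χ : M₁ → M₂ := Function.invFunOn ψ Γ₂ with hχ
  have hmaps' : MapsTo χ Γ₁ Γ₂ := hbij.surjOn.mapsTo_invFunOn
  have hinv : ∀ x ∈ Γ₂, χ (ψ x) = x := fun x hx => hbij.injOn.leftInvOn_invFunOn hx
  have hinv' : ∀ x ∈ Γ₁, ψ (χ x) = x := fun x hx => hbij.surjOn.rightInvOn_invFunOn hx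
  set G : TM.Gl M₁ M₂ := ⟨Γ₁, Γ₂, ψ, χ⟩ with hG
  let _ : MeasurableSpace M₁ := borel M₁
  have _ : BorelSpace M₁ := ⟨rfl⟩
  let _ : MeasurableSpace M₂ := borel M₂
  have _ : BorelSpace M₂ := ⟨rfl⟩
  have hOk : G.Ok n N := by
    refine ⟨⟨O₁, hO₁, hΓ₁⟩, ⟨O₂, hO₂, hΓ₂⟩, hne, hne₂, hbij.mapsTo, hmaps', hinv, hinv', ?_, ?_⟩
    · intro f₁ hf₁
      obtain ⟨f₂, -, h2, h3⟩ := hext _ (bdData' hf₁)
      refine ⟨S.toF f₂, bdData h2, fun x hx => ?_⟩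
      show WithLp.toLp 2 (f₂ x) = f₁ (ψ x)
      rw [h3 x hx]
    · intro f₂ hf₂
      obtain ⟨f₁, h1, -, h3⟩ := hext' _ (bdData' hf₂)
      refine ⟨S.toF f₁, bdData h1, fun x hx => ?_⟩
      show WithLp.toLp 2 (f₁ x) = f₂ (χ x)
      have h4 := h3 (χ x) (hmaps' hx)
      rw [hinv' x hx] at h4
      rw [← h4]
  have hcorr : ∀ {f₁ : M₁ → Fib N} {f₂ : M₂ → Fib N}, TM.MD n G f₁ f₂ →
      Corr (at_ n M₁) (at_ n M₂) Γ₁ Γ₂ ψ (fun x a => f₁ x a) (fun x a => f₂ x a) := by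
    intro f₁ f₂ h
    refine ⟨bdData' h.h₁, bdData' h.h₂, fun x hx => ?_⟩
    funext a
    show f₂ x a = f₁ (ψ x) a
    rw [h.eq x hx]
  have hS : TM.SameD (one P) (one Q) G := by
    intro f₁ h₁ f₂ h₂ hf hh
    obtain ⟨u, v, u', v', a1, a2, a3, a4, a5⟩ := hdata _ _ _ _ (hcorr hf) (hcorr hh)
    refine ⟨S.toF u, S.toF v, S.toF u', S.toF v', harm_one a1, harm_one a2, harm_one a3,
      harm_one a4, ?_⟩
    rw [energy_one a1 a2, energy_one a3 a4] at a5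
    exact a5
  obtain ⟨hκ, Φ, U, hU, hfix, hg, hA, hsol⟩ := hmain n N M₁ M₂ (one P) (one Q) G κ₁ κ₂ α β hn hN
    hOk hS (S.bridge_eqs (eym_conv hP)) (S.bridge_eqs (eym_conv hQ))
  refine ⟨hκ, Φ, Φ.symm, fun x => S.ofE (U x), map₂ Φ.contMDiff, map₂ Φ.symm.contMDiff,
    fun x => Φ.symm_apply_apply x, fun x => Φ.apply_symm_apply x, (S.uni_ofE hU).1,
    (S.uni_ofE hU).2, fun x hx => ⟨(hfix x hx).1, S.toE_inj ?_⟩, fun x => ?_, ?_⟩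
  · rw [S.toE_ofE, S.toE_one]
    exact (hfix x hx).2
  · have hd : MDifferentiableAt (𝓡∂ n) (𝓡∂ n) Φ x := Φ.contMDiff.mdifferentiableAt (by simp)
    refine ⟨met₂ (P := conv P) (Q := conv Q) hd (fun v w => hg x v w), fun j =>
      (con₂ (P := conv P) (Q := conv Q) hU hd (hA x) j).trans ?_⟩
    unfold Vale.Agent.P088.S.lgd
    rw [mul_add, mul_assoc]
    congr 2
    ext a b
    exact (dj_old (fun y => S.ofE (U (pt (at_ n M₂) x y)) a b) (at_nonneg x x) j).symm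
  · intro f₁ f₂ u₁ u₂ hc h1 h2 x
    obtain ⟨c1, c2, c3⟩ := hc
    have h3 := hsol (S.toF u₁, S.toF u₂) ⟨S.toF f₁, S.toF f₂, ⟨bdData c1, bdData c2, fun x hx => by
      show WithLp.toLp 2 (f₂ x) = WithLp.toLp 2 (f₁ (ψ x))
      rw [c3 x hx]⟩, harm_one h1, harm_one h2⟩ x
    have h4 : S.toE (S.ofE (U x)) (WithLp.toLp 2 (u₂ x)) = WithLp.toLp 2 (S.ofE (U x) *ᵥ u₂ x) :=
      S.toE_apply _ _
    rw [S.toE_ofE] at h4
    have h5 : WithLp.toLp 2 (u₁ (Φ x)) = U x (WithLp.toLp 2 (u₂ x)) := h3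
    rw [h4] at h5
    exact (WithLp.toLp_injective 2) h5

end Vale.Agent.P088.B2
end
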