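import Vale.Agent.P088.TM.St2

/-!
# P088: two manifolds, the unique diffeomorphism and gauge
-/

open Manifold MeasureTheory Set
open scoped ContDiff Matrix

noncomputable section

namespace Vale.Agent.P088.B2

open Vale.Agent.P088.B

universe u

variable {n N : ℕ} {M₁ M₂ : Type u} {Z₁ : At n M₁} {Z₂ : At n M₂}

/-- `Φ : M₂ → M₁` is a diffeomorphism with inverse `Ψ`, `U : M₂ → U(N)` is smooth, `Φ = ψ` and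
`U = I` on `Γ₂`, `g₂ = Φ^* g₁` and `A₂ = U⁻¹ (Φ^* A₁) U + U⁻¹ dU`. -/
def Rel₂ (Γ₂ : Set M₂) (ψ : M₂ → M₁) (P : Pair Z₁ N) (Q : Pair Z₂ N) (Φ : M₂ → M₁)
    (Ψ : M₁ → M₂) (U : M₂ → Matrix (Fin N) (Fin N) ℂ) : Prop :=
  SmMap₂ Z₁ Z₂ Φ ∧ SmMap₂ Z₂ Z₁ Ψ ∧ (∀ x, Ψ (Φ x) = x) ∧ (∀ x, Φ (Ψ x) = x) ∧
    (∀ a, Sm Z₂ (fun x => U x a)) ∧ (∀ x, (U x)ᴴ * U x = 1) ∧
    (∀ x ∈ Γ₂, Φ x = ψ x ∧ U x = 1) ∧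
    ∀ x, let J := jac₂ Z₁ Z₂ Φ x
      Q.g x = Jᵀ * P.g (Φ x) * J ∧ ∀ j, Q.A x j = (U x)ᴴ *
        ((∑ i, J i j • P.A (Φ x) i) * U x + dM (fun y => U (pt Z₂ x y)) (Z₂.ch x x) j)

/-- There is exactly one triple `(Φ, Ψ, U)` such that `Φ : M₂ → M₁` is a diffeomorphism with
inverse `Ψ`, `U : M₂ → U(N)` is smooth, `Φ = ψ` and `U = I` on `Γ₂`, `g₂ = Φ^* g₁` and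
`A₂ = U⁻¹ (Φ^* A₁) U + U⁻¹ dU`; and `u_f ∘ Φ = U u_{f ∘ ψ}` for all `f ∈ C_c^∞(Γ₁; ℂ^N)`. -/
def UniqueRel₂ (Γ₁ : Set M₁) (Γ₂ : Set M₂) (ψ : M₂ → M₁) (P : Pair Z₁ N) (Q : Pair Z₂ N) : Prop :=
  ∃ (Φ : M₂ → M₁) (Ψ : M₁ → M₂) (U : M₂ → Matrix (Fin N) (Fin N) ℂ),
    Rel₂ Γ₂ ψ P Q Φ Ψ U ∧
    (∀ f₁ f₂ u₁ u₂, Corr Z₁ Z₂ Γ₁ Γ₂ ψ f₁ f₂ → Harm P f₁ u₁ → Harm Q f₂ u₂ →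
      ∀ x, u₁ (Φ x) = U x *ᵥ u₂ x) ∧
    ∀ Φ' Ψ' U', Rel₂ Γ₂ ψ P Q Φ' Ψ' U' → Φ' = Φ ∧ Ψ' = Ψ ∧ U' = U

end Vale.Agent.P088.B2
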