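import Vale.Agent.P088.TM.Nat
import Vale.Agent.P088.TM.Br2
import Vale.Agent.P088.TM.StU

/-!
# P088: two manifolds, from the elementary relations to the abstract relations; uniqueness of the
diffeomorphism and the gauge, invariance of the data, in elementary form
-/

open Bundle Manifold MeasureTheory Set Filter
open scoped ContDiff Matrix Topology ENNReal

noncomputable section

set_option linter.all false

namespace Vale.Agent.P088.B2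

open Vale.Agent.P088 Vale.Agent.P088.B

universe u

section Rev

variable {n : ℕ} [NeZero n] {N : ℕ} {M₁ M₂ : Type u}
  [TopologicalSpace M₁] [ChartedSpace (EuclideanHalfSpace n) M₁] [IsManifold (𝓡∂ n) ∞ M₁]
  [TopologicalSpace M₂] [ChartedSpace (EuclideanHalfSpace n) M₂] [IsManifold (𝓡∂ n) ∞ M₂]

theorem exp_es (v : EuclideanSpace ℝ (Fin n)) : v = ∑ i, v i • (es n i : EuclideanSpace ℝ (Fin n)) :=
  EYM.en_expand v

/-- an elementary smooth map is smooth -/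
theorem unmap₂ {Φ : M₂ → M₁} (h : SmMap₂ (at_ n M₁) (at_ n M₂) Φ) :
    ContMDiff (𝓡∂ n) (𝓡∂ n) ∞ Φ := by
  obtain ⟨hc, hs⟩ := h
  have hc' : Continuous Φ := hc
  intro x
  rw [contMDiffAt_iff_target]
  refine ⟨hc'.continuousAt, ?_⟩
  have h1 : IsOpen (Φ ⁻¹' (chartAt (EuclideanHalfSpace n) (Φ x)).source) :=
    (chartAt (EuclideanHalfSpace n) (Φ x)).open_source.preimage hc'
  have h2 : (extChartAt (𝓡∂ n) (Φ x) ∘ Φ) = fun y =>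
      ∑ i, (((ContinuousLinearMap.smulRight (1 : ℝ →L[ℝ] ℝ)
        (es n i : EuclideanSpace ℝ (Fin n))).comp Complex.reCLM))
        (((at_ n M₁).ch (Φ x) (Φ y) i : ℝ) : ℂ) := by
    funext y
    rw [Function.comp_apply, exp_es (extChartAt (𝓡∂ n) (Φ x) (Φ y))]
    refine Finset.sum_congr rfl fun i _ => ?_
    show _ = ((((at_ n M₁).ch (Φ x) (Φ y) i : ℝ) : ℂ).re) • (es n i : EuclideanSpace ℝ (Fin n))
    rw [Complex.ofReal_re]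
    rfl
  rw [h2]
  have h3 : ContMDiffOn (𝓡∂ n) 𝓘(ℝ, EuclideanSpace ℝ (Fin n)) ∞ (fun y =>
      ∑ i, (((ContinuousLinearMap.smulRight (1 : ℝ →L[ℝ] ℝ)
        (es n i : EuclideanSpace ℝ (Fin n))).comp Complex.reCLM))
        (((at_ n M₁).ch (Φ x) (Φ y) i : ℝ) : ℂ))
      (Φ ⁻¹' (chartAt (EuclideanHalfSpace n) (Φ x)).source) := by
    refine contMDiffOn_finsetSum fun i _ => ?_
    exact (ContinuousLinearMap.contDiff _).contMDiff.comp_contMDiffOn (hs (Φ x) i)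
  exact h3.contMDiffAt (h1.mem_nhds (mem_chart_source _ _))

theorem unU {U : M₂ → Matrix (Fin N) (Fin N) ℂ} (h1 : ∀ a, Sm (at_ n M₂) (fun x => U x a))
    (h2 : ∀ x, (U x)ᴴ * U x = 1) : IsSmoothUnitary (𝓡∂ n) (fun x => S.toE (U x)) where
  smooth := contMDiffOn_univ.1 (S.contMDiffOn_toE fun a b => h1 a b)
  unitary := fun x => by
    rw [Unitary.mem_iff]
    constructor
    · show ContinuousLinearMap.adjoint (S.toE (U x)) * S.toE (U x) = 1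
      rw [← S.toE_star, ← S.toE_mul, h2 x, S.toE_one]
    · show S.toE (U x) * ContinuousLinearMap.adjoint (S.toE (U x)) = 1
      rw [← S.toE_star, ← S.toE_mul, mul_eq_one_comm.1 (h2 x), S.toE_one]

theorem D2_sum {Φ : M₂ → M₁} {x : M₂} (a : Fin n → ℝ) :
    D2 Φ x (∑ i, a i • (es n i : EuclideanSpace ℝ (Fin n))) = ∑ i, a i • D2 Φ x (es n i) := by
  rw [map_sum]
  exact Finset.sum_congr rfl fun i _ => map_smul _ _ _

theorem unmet₂ {P : S.Pair n N M₁} {Q : S.Pair n N M₂} {Φ : M₂ → M₁} {x : M₂}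
    (hΦ : MDifferentiableAt (𝓡∂ n) (𝓡∂ n) Φ x)
    (h : Q.mat x = (jac₂ (at_ n M₁) (at_ n M₂) Φ x)ᵀ * P.mat (Φ x) *
      jac₂ (at_ n M₁) (at_ n M₂) Φ x) (v w : EuclideanSpace ℝ (Fin n)) :
    S.bil (Q.mat x) v w = S.bil (P.mat (Φ x)) (D2 Φ x v) (D2 Φ x w) := by
  have hij : ∀ i j, S.bil (Q.mat x) (es n i) (es n j) =
      S.bil (P.mat (Φ x)) (D2 Φ x (es n i)) (D2 Φ x (es n j)) := by
    intro i j
    have h2 : S.bil (Q.mat x) (es n i) (es n j) = Q.mat x i j := by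
      rw [S.bil_apply]
      simp only [S.es_apply]
      simp
    rw [h2, S.bil_apply, h]
    simp only [Matrix.mul_apply, Matrix.transpose_apply, Finset.sum_mul, jac₂_eq hΦ]
    rw [Finset.sum_comm]
    refine Finset.sum_congr rfl fun k _ => Finset.sum_congr rfl fun l _ => ?_
    ring
  have key : ∀ a b : Fin n → ℝ, S.bil (Q.mat x) (∑ i, a i • (es n i : EuclideanSpace ℝ (Fin n)))
      (∑ j, b j • (es n j : EuclideanSpace ℝ (Fin n))) =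
      S.bil (P.mat (Φ x)) (∑ i, a i • D2 Φ x (es n i)) (∑ j, b j • D2 Φ x (es n j)) := by
    intro a b
    simp only [map_sum, map_smul, _root_.sum_apply, _root_.smul_apply, smul_eq_mul, hij]
  have h3 := key (fun i => v i) (fun j => w j)
  rw [← exp_es v, ← exp_es w, ← D2_sum, ← D2_sum, ← exp_es v, ← exp_es w] at h3
  exact h3

theorem uncon₂ {P : S.Pair n N M₁} {Q : S.Pair n N M₂} {Φ : M₂ → M₁}
    {U : M₂ → Matrix (Fin N) (Fin N) ℂ} (hU : IsSmoothUnitary (𝓡∂ n) (fun x => S.toE (U x)))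
    {x : M₂} (hΦ : MDifferentiableAt (𝓡∂ n) (𝓡∂ n) Φ x)
    (h : ∀ j, Q.co x j = (U x)ᴴ *
      ((∑ i, jac₂ (at_ n M₁) (at_ n M₂) Φ x i j • P.co (Φ x) i) * U x +
        dM (fun y => U (pt (at_ n M₂) x y)) ((at_ n M₂).ch x x) j))
    (v : TangentSpace (𝓡∂ n) x) :
    (S.connOf Q).form x v = TM.gf2 (S.connOf P) Φ (fun x => S.toE (U x)) x v := by
  have hj : ∀ j, (S.connOf Q).form x (es n j) =
      TM.gf2 (S.connOf P) Φ (fun x => S.toE (U x)) x (es n j) := by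
    intro j
    have h3 : S.toE (∑ i, jac₂ (at_ n M₁) (at_ n M₂) Φ x i j • P.co (Φ x) i) =
        (S.connOf P).form (Φ x) (D2 Φ x (es n j)) := by
      show _ = S.formOf (P.co (Φ x)) (D2 Φ x (es n j))
      rw [S.formOf_apply, S.toE_rsum]
      simp only [jac₂_eq hΦ]
    have h4 : S.toE (dM (fun y => U (pt (at_ n M₂) x y)) ((at_ n M₂).ch x x) j) =
        dI (𝓡∂ n) (fun x => S.toE (U x)) x (es n j) := by
      rw [← S.toE_ofE (dI (𝓡∂ n) (fun x => S.toE (U x)) x (es n j)), S.dI_ofE hU.smooth]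
      congr 1
      ext a b
      rw [Matrix.of_apply]
      simp only [S.ofE_toE]
      exact dj_old (fun y => U (pt (at_ n M₂) x y) a b) (at_nonneg x x) j
    rw [S.connOf_es, h j, S.toE_mul, S.toE_star, S.toE_add, S.toE_mul, h3, h4, mul_add]
    rfl
  let TQ : EuclideanSpace ℝ (Fin n) →L[ℝ] EndF N := (S.connOf Q).form x
  let TP : EuclideanSpace ℝ (Fin n) →L[ℝ] EndF N := (S.connOf P).form (Φ x)
  let TU : EuclideanSpace ℝ (Fin n) →L[ℝ] EndF N := dI (𝓡∂ n) (fun x => S.toE (U x)) x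
  let R : EuclideanSpace ℝ (Fin n) → EndF N := fun w =>
    ContinuousLinearMap.adjoint (S.toE (U x)) * (TP (D2 Φ x w) * S.toE (U x)) +
      ContinuousLinearMap.adjoint (S.toE (U x)) * TU w
  have hj' : ∀ j, TQ (es n j) = R (es n j) := hj
  have key : ∀ a : Fin n → ℝ, TQ (∑ i, a i • (es n i : EuclideanSpace ℝ (Fin n))) =
      R (∑ i, a i • (es n i : EuclideanSpace ℝ (Fin n))) := by
    intro a
    have e2 : TP (D2 Φ x (∑ i, a i • (es n i : EuclideanSpace ℝ (Fin n)))) =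
        ∑ i, a i • TP (D2 Φ x (es n i)) := by
      rw [D2_sum, map_sum]
      exact Finset.sum_congr rfl fun i _ => map_smul TP _ _
    have e3 : TU (∑ i, a i • (es n i : EuclideanSpace ℝ (Fin n))) =
        ∑ i, a i • TU (es n i) := by
      rw [map_sum]
      exact Finset.sum_congr rfl fun i _ => map_smul TU _ _
    have e1 : TQ (∑ i, a i • (es n i : EuclideanSpace ℝ (Fin n))) =
        ∑ i, a i • TQ (es n i) := by
      rw [map_sum]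
      exact Finset.sum_congr rfl fun i _ => map_smul TQ _ _
    rw [e1]
    show _ = ContinuousLinearMap.adjoint (S.toE (U x)) *
      (TP (D2 Φ x (∑ i, a i • (es n i : EuclideanSpace ℝ (Fin n)))) * S.toE (U x)) +
      ContinuousLinearMap.adjoint (S.toE (U x)) *
        TU (∑ i, a i • (es n i : EuclideanSpace ℝ (Fin n)))
    rw [e2, e3, Finset.sum_mul, Finset.mul_sum, Finset.mul_sum, ← Finset.sum_add_distrib]
    refine Finset.sum_congr rfl fun i _ => ?_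
    rw [hj' i]
    show a i • (ContinuousLinearMap.adjoint (S.toE (U x)) * (TP (D2 Φ x (es n i)) * S.toE (U x)) +
      ContinuousLinearMap.adjoint (S.toE (U x)) * TU (es n i)) = _
    rw [smul_mul_assoc, mul_smul_comm, mul_smul_comm, ← smul_add]
  have key' : ∀ w : EuclideanSpace ℝ (Fin n), TQ w = R w := by
    intro w
    have h3 := key (fun i => w i)
    rw [← exp_es w] at h3
    exact h3
  exact key' v

theorem harm_unconv {M : Type u} [TopologicalSpace M] [ChartedSpace (EuclideanHalfSpace n) M]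
    [IsManifold (𝓡∂ n) ∞ M] {P : Pair (at_ n M) N} {f u : M → Fin N → ℂ}
    (h : S.Harm (conv P) f u) : Harm P f u := by
  obtain ⟨h1, h2, h3⟩ := h
  refine ⟨h1, by rw [bd_at]; exact h2, fun φ hφ hb => ?_⟩
  rw [bd_at] at hb
  rw [energy_conv]
  exact h3 φ hφ fun x hx => funext fun a => hb x hx a

theorem unharm_one {M : Type u} [TopologicalSpace M] [ChartedSpace (EuclideanHalfSpace n) M]
    [IsManifold (𝓡∂ n) ∞ M] {P : Pair (at_ n M) N} {f u : M → Fib N}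
    (h : @EYM.One.Harm n N _ M _ _ _ (borel M) (one P) f u) :
    Harm P (fun x a => f x a) (fun x a => u x a) :=
  harm_unconv ((S.harm_iff (conv P) (fun x a => f x a) (fun x a => u x a)).2 h)

end Rev

section Fin

variable {n : ℕ} [NeZero n] {N : ℕ} {M₁ M₂ : Type u}
  [TopologicalSpace M₁] [ChartedSpace (EuclideanHalfSpace n) M₁] [IsManifold (𝓡∂ n) ∞ M₁]
  [TopologicalSpace M₂] [ChartedSpace (EuclideanHalfSpace n) M₂] [IsManifold (𝓡∂ n) ∞ M₂]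

/-- The identification of the patches in abstract form. -/
theorem glOk {Γ₁ O₁ : Set M₁} (hO₁ : IsOpen O₁) (hΓ₁ : Γ₁ = O₁ ∩ bd (at_ n M₁)) (hne : Γ₁.Nonempty)
    {Γ₂ O₂ : Set M₂} (hO₂ : IsOpen O₂) (hΓ₂ : Γ₂ = O₂ ∩ bd (at_ n M₂)) {ψ : M₂ → M₁}
    (hψ : Iden N (at_ n M₁) (at_ n M₂) Γ₁ Γ₂ ψ) :
    ∃ χ : M₁ → M₂, TM.Gl.Ok n N (⟨Γ₁, Γ₂, ψ, χ⟩ : TM.Gl M₁ M₂) := by
  rw [bd_at] at hΓ₁ hΓ₂
  obtain ⟨hbij, hext, hext'⟩ := hψ
  have hne₂ : Γ₂.Nonempty := by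
    obtain ⟨x, hx⟩ := hne
    obtain ⟨y, hy, -⟩ := hbij.surjOn hx
    exact ⟨y, hy⟩
  haveI : Nonempty M₂ := ⟨hne₂.some⟩
  set χ : M₁ → M₂ := Function.invFunOn ψ Γ₂ with hχ
  have hmaps' : MapsTo χ Γ₁ Γ₂ := hbij.surjOn.mapsTo_invFunOn
  have hinv : ∀ x ∈ Γ₂, χ (ψ x) = x := fun x hx => hbij.injOn.leftInvOn_invFunOn hx
  have hinv' : ∀ x ∈ Γ₁, ψ (χ x) = x := fun x hx => hbij.surjOn.rightInvOn_invFunOn hx
  refine ⟨χ, ⟨O₁, hO₁, hΓ₁⟩, ⟨O₂, hO₂, hΓ₂⟩, hne, hne₂, hbij.mapsTo, hmaps', hinv, hinv', ?_, ?_⟩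
  · intro f₁ hf₁
    obtain ⟨f₂, -, h2, h3⟩ := hext _ (bdData' hf₁)
    refine ⟨S.toF f₂, bdData h2, fun x hx => ?_⟩
    show WithLp.toLp 2 (f₂ x) = f₁ (ψ x)
    rw [h3 x hx]
  · intro f₂ hf₂
    obtain ⟨f₁, h1, -, h3⟩ := hext' _ (bdData' hf₂)
    refine ⟨S.toF f₁, bdData h1, fun x hx => ?_⟩
    show WithLp.toLp 2 (f₁ x) = f₂ (χ x)
    have h4 := h3 (χ x) (hmaps' hx)
    rw [hinv' x hx] at h4
    rw [← h4]

/-- The elementary relations give the abstract relations. -/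
theorem toGeo {Γ₁ : Set M₁} {Γ₂ : Set M₂} {ψ : M₂ → M₁} {χ : M₁ → M₂} {P : Pair (at_ n M₁) N}
    {Q : Pair (at_ n M₂) N} {Φ : M₂ → M₁} {Ψ : M₁ → M₂} {U : M₂ → Matrix (Fin N) (Fin N) ℂ}
    (h : Rel₂ Γ₂ ψ P Q Φ Ψ U) :
    letI := borel M₁
    letI := borel M₂
    ∃ F : Diffeomorph (𝓡∂ n) (𝓡∂ n) M₂ M₁ ∞, (⇑F = Φ) ∧ (⇑F.symm = Ψ) ∧
      TM.Geo (one P) (one Q) ⟨Γ₁, Γ₂, ψ, χ⟩ F (fun x => S.toE (U x)) := by
  obtain ⟨h1, h2, h3, h4, h5, h6, h7, h8⟩ := h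
  have hs1 := unmap₂ h1
  have hs2 := unmap₂ h2
  have hU := unU h5 h6
  letI := borel M₁
  letI := borel M₂
  let F : Diffeomorph (𝓡∂ n) (𝓡∂ n) M₂ M₁ ∞ :=
    { toFun := Φ, invFun := Ψ, left_inv := h3, right_inv := h4, contMDiff_toFun := hs1
      contMDiff_invFun := hs2 }
  have hd : ∀ x, MDifferentiableAt (𝓡∂ n) (𝓡∂ n) Φ x := fun x => hs1.mdifferentiableAt (by simp)
  refine ⟨F, rfl, rfl, ?_⟩
  refine
    { uni := hU
      bd := fun x hx => ⟨(h7 x hx).1, ?_⟩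
      met := fun x v w => unmet₂ (P := conv P) (Q := conv Q) (hd x) (h8 x).1 v w
      con := fun x v => uncon₂ (P := conv P) (Q := conv Q) hU (hd x) (h8 x).2 v }
  show S.toE (U x) = 1
  rw [(h7 x hx).2, S.toE_one]

variable [T2Space M₁] [CompactSpace M₁] [ConnectedSpace M₁]
  [T2Space M₂] [CompactSpace M₂] [ConnectedSpace M₂]

theorem hasSol_one {P : Pair (at_ n M₁) N} {Γ₁ : Set M₁}
    (hsol : ∀ f₁, Data (at_ n M₁) Γ₁ f₁ → ∃ u, Harm P f₁ u) :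
    @EYM.One.HasSol n N _ M₁ _ _ _ (borel M₁) (one P) Γ₁ := by
  intro f hf
  obtain ⟨u, hu⟩ := hsol _ (bdData' hf)
  exact ⟨S.toF u, harm_one hu⟩

/-- Invariance of the data. -/
theorem rel_same (Z₁ : At n M₁) (hZ₁ : Z₁ = at_ n M₁) (Z₂ : At n M₂) (hZ₂ : Z₂ = at_ n M₂)
    (Γ₁ O₁ : Set M₁) (hO₁ : IsOpen O₁) (hΓ₁ : Γ₁ = O₁ ∩ bd Z₁) (hne : Γ₁.Nonempty)
    (Γ₂ O₂ : Set M₂) (hO₂ : IsOpen O₂) (hΓ₂ : Γ₂ = O₂ ∩ bd Z₂) (ψ : M₂ → M₁)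
    (hψ : Iden N Z₁ Z₂ Γ₁ Γ₂ ψ) (P : Pair Z₁ N) (Q : Pair Z₂ N)
    (hsol : ∀ f₁, Data Z₁ Γ₁ f₁ → ∃ u, Harm P f₁ u) {Φ : M₂ → M₁} {Ψ : M₁ → M₂}
    {U : M₂ → Matrix (Fin N) (Fin N) ℂ} (h : Rel₂ Γ₂ ψ P Q Φ Ψ U) : SameData₂ Γ₁ Γ₂ ψ P Q := by
  subst hZ₁ hZ₂
  obtain ⟨χ, hOk⟩ := glOk hO₁ hΓ₁ hne hO₂ hΓ₂ hψ
  letI := borel M₁
  letI := borel M₂
  haveI : BorelSpace M₁ := ⟨rfl⟩
  haveI : BorelSpace M₂ := ⟨rfl⟩
  obtain ⟨F, -, -, hG⟩ := toGeo (Γ₁ := Γ₁) (χ := χ) h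
  have hS := TM.Geo.same hG hOk (hasSol_one hsol)
  intro f₁ f₂ h₁ h₂ hf hh
  have hmd : ∀ {f₁ : M₁ → Fin N → ℂ} {f₂ : M₂ → Fin N → ℂ},
      Corr (at_ n M₁) (at_ n M₂) Γ₁ Γ₂ ψ f₁ f₂ →
      TM.MD n (⟨Γ₁, Γ₂, ψ, χ⟩ : TM.Gl M₁ M₂) (S.toF f₁) (S.toF f₂) := by
    intro f₁ f₂ hc
    obtain ⟨c1, c2, c3⟩ := hc
    refine ⟨bdData c1, bdData c2, fun x hx => ?_⟩
    show WithLp.toLp 2 (f₂ x) = WithLp.toLp 2 (f₁ (ψ x))
    rw [c3 x hx]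
  obtain ⟨u, v, u', v', a1, a2, a3, a4, a5⟩ := hS _ _ _ _ (hmd hf) (hmd hh)
  have b1 := unharm_one a1
  have b2 := unharm_one a2
  have b3 := unharm_one a3
  have b4 := unharm_one a4
  refine ⟨_, _, _, _, b1, b2, b3, b4, ?_⟩
  rw [energy_one b1 b2, energy_one b3 b4]
  exact a5

/-- Uniqueness of the diffeomorphism and of the gauge. -/
theorem rel_uniq (hn : 2 ≤ n) (hN : 1 ≤ N)
    (Z₁ : At n M₁) (hZ₁ : Z₁ = at_ n M₁) (Z₂ : At n M₂) (hZ₂ : Z₂ = at_ n M₂)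
    (Γ₁ O₁ : Set M₁) (hO₁ : IsOpen O₁) (hΓ₁ : Γ₁ = O₁ ∩ bd Z₁) (hne : Γ₁.Nonempty)
    (Γ₂ O₂ : Set M₂) (hO₂ : IsOpen O₂) (hΓ₂ : Γ₂ = O₂ ∩ bd Z₂) (ψ : M₂ → M₁)
    (hψ : Iden N Z₁ Z₂ Γ₁ Γ₂ ψ) (P : Pair Z₁ N) (Q : Pair Z₂ N)
    (hsol : ∀ f₁, Data Z₁ Γ₁ f₁ → ∃ u, Harm P f₁ u) {Φ Φ' : M₂ → M₁} {Ψ Ψ' : M₁ → M₂}
    {U U' : M₂ → Matrix (Fin N) (Fin N) ℂ} (h : Rel₂ Γ₂ ψ P Q Φ Ψ U)
    (h' : Rel₂ Γ₂ ψ P Q Φ' Ψ' U') : Φ = Φ' ∧ Ψ = Ψ' ∧ U = U' := by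
  subst hZ₁ hZ₂
  obtain ⟨χ, hOk⟩ := glOk hO₁ hΓ₁ hne hO₂ hΓ₂ hψ
  letI := borel M₁
  letI := borel M₂
  haveI : BorelSpace M₁ := ⟨rfl⟩
  haveI : BorelSpace M₂ := ⟨rfl⟩
  obtain ⟨F, rfl, rfl, hG⟩ := toGeo (Γ₁ := Γ₁) (χ := χ) h
  obtain ⟨F', rfl, rfl, hG'⟩ := toGeo (Γ₁ := Γ₁) (χ := χ) h'
  obtain ⟨e1, e2⟩ := TM.Geo.uniq hn hN hOk (hasSol_one hsol) hG hG'
  subst e1
  refine ⟨rfl, rfl, ?_⟩
  funext x
  exact S.toE_inj (congrFun e2 x)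

end Fin

end Vale.Agent.P088.B2
end
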