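import Vale.Agent.P088.H332.Loc1

/-!
# P088: the equations on an open set, from the compact form to the abstract form
-/

open Bundle Manifold MeasureTheory Set Filter
open scoped ContDiff Matrix Topology ENNReal

noncomputable section

set_option linter.all false

namespace Vale.Agent.P088.B

universe u

variable {n : ℕ} {N : ℕ} {M : Type u} {Z : At n M}

/-- In every chart, at the points of `W`: `Ric = κ g + α T + β (tr_g T) g`, and `A` is a Yang-Mills
connection, `d_A^* F_A = 0`. -/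
def EYMOn (κ α β : ℝ) (W : Set M) (P : Pair Z N) : Prop :=
  ∀ p, ∀ x ∈ Z.src p ∩ W, Eqs κ α β (gch Z P.g p) (ach Z P.A p) (Z.ch p x)

theorem eymOn_of {κ α β : ℝ} {P : Pair Z N} (h : EYM κ α β P) (W : Set M) : EYMOn κ α β W P :=
  fun p x hx => h p x hx.1

theorem eymOn_univ {κ α β : ℝ} {P : Pair Z N} : EYMOn κ α β univ P ↔ EYM κ α β P :=
  ⟨fun h p x hx => h p x ⟨hx, mem_univ _⟩, fun h => eymOn_of h univ⟩

end Vale.Agent.P088.B

namespace Vale.Agent.P088.B

universe u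

variable {n : ℕ} [NeZero n] {N : ℕ} {M : Type u} [TopologicalSpace M]
  [ChartedSpace (EuclideanHalfSpace n) M] [IsManifold (𝓡∂ n) ∞ M]

theorem eym_conv_at {P : Pair (at_ n M) N} {κ α β : ℝ} {p x : M}
    (hx : x ∈ Vale.Agent.P088.S.src n p)
    (h1 : Eqs κ α β (gch (at_ n M) P.g p) (ach (at_ n M) P.A p) ((at_ n M).ch p x)) :
    (∀ j k, Vale.Agent.P088.S.ricci (Vale.Agent.P088.S.gch (conv P) p) j k
        (Vale.Agent.P088.S.ch n p x) =
      κ * Vale.Agent.P088.S.gch (conv P) p (Vale.Agent.P088.S.ch n p x) j k +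
      α * Vale.Agent.P088.S.stress (Vale.Agent.P088.S.gch (conv P) p)
        (Vale.Agent.P088.S.ach (conv P) p) j k (Vale.Agent.P088.S.ch n p x) +
      β * (∑ a, ∑ b, (Vale.Agent.P088.S.gch (conv P) p (Vale.Agent.P088.S.ch n p x))⁻¹ a b *
        Vale.Agent.P088.S.stress (Vale.Agent.P088.S.gch (conv P) p)
          (Vale.Agent.P088.S.ach (conv P) p) a b (Vale.Agent.P088.S.ch n p x)) *
        Vale.Agent.P088.S.gch (conv P) p (Vale.Agent.P088.S.ch n p x) j k) ∧
    ∀ k, Vale.Agent.P088.S.divF (Vale.Agent.P088.S.gch (conv P) p)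
      (Vale.Agent.P088.S.ach (conv P) p) k (Vale.Agent.P088.S.ch n p x) = 0 := by
  have hg : gch (at_ n M) P.g p = Vale.Agent.P088.S.gch (conv P) p := by
    funext y
    exact at_gch P.g p y
  have hA : ach (at_ n M) P.A p = Vale.Agent.P088.S.ach (conv P) p := by
    funext j y
    exact at_ach P.A p j y
  rw [hg, hA] at h1
  refine brst1_eqs (at_nonneg p x) ?_ h1
  have hsym : (P.g x)ᵀ = P.g x := by
    have := (P.pos x).1.isHermitian
    rw [Matrix.IsHermitian, Matrix.conjTranspose_eq_transpose_of_trivial] at this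
    exact this
  unfold Vale.Agent.P088.S.gch Vale.Agent.P088.S.inChart
  have hpt : Vale.Agent.P088.S.pt n p (Vale.Agent.P088.S.ch n p x) = x := at_pt_ch hx
  rw [hpt, Matrix.transpose_mul, Matrix.transpose_mul, Matrix.transpose_transpose]
  change (Vale.Agent.P088.S.jac n p x)ᵀ * ((P.g x)ᵀ * _) = (Vale.Agent.P088.S.jac n p x)ᵀ * P.g x * _
  rw [hsym, Matrix.mul_assoc]

end Vale.Agent.P088.B

namespace Vale.Agent.P088.S

universe u

variable {n : ℕ} [NeZero n] {N : ℕ} {M : Type u} [TopologicalSpace M]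
  [ChartedSpace (EuclideanHalfSpace n) M] [IsManifold (𝓡∂ n) ∞ M]

theorem bridge_eqs_on {P : Pair n N M} {κ α β : ℝ} {W : Set M}
    (h : ∀ p : M, ∀ x ∈ src n p ∩ W, (∀ j k, ricci (gch P p) j k (ch n p x) =
      κ * gch P p (ch n p x) j k + α * stress (gch P p) (ach P p) j k (ch n p x) +
      β * (∑ a, ∑ b, (gch P p (ch n p x))⁻¹ a b *
        stress (gch P p) (ach P p) a b (ch n p x)) * gch P p (ch n p x) j k) ∧
      ∀ k, divF (gch P p) (ach P p) k (ch n p x) = 0) (p : M) :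
    Vale.Agent.P088.EYM.EYMeq κ α β (Vale.Agent.P088.EYM.locM (gOf P) (connOf P) p)
      (Vale.Agent.P088.EYM.tgW n W p) := by
  set L := Vale.Agent.P088.EYM.locM (gOf P) (connOf P) p with hL
  have hD := brEq_relOpen (n := n) p
  have hsrc : ∀ z ∈ Vale.Agent.P088.EYM.tg n p, (extChartAt (𝓡∂ n) p).symm z ∈ src n p := by
    intro z hz
    rw [src_eq]
    exact (extChartAt (𝓡∂ n) p).map_target hz
  have hgs : ∀ i j, ContDiffOn ℝ ∞ (fun x => L.g x i j) (Vale.Agent.P088.EYM.tg n p) :=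
    fun i j => contDiffOn_gram (gOf P) p i j
  have hgp : ∀ z ∈ Vale.Agent.P088.EYM.tg n p, (L.g z).PosDef :=
    fun z hz => gram_posDef (gOf P) ((extChartAt (𝓡∂ n) p).map_target hz)
  have hBs : ∀ j, ContDiffOn ℝ ∞ (L.B j) (Vale.Agent.P088.EYM.tg n p) := fun i =>
    contDiffOn_lu_of_contMDiffOn
      (u := fun x => (connOf P).form x (coordVec (𝓡∂ n) p x i)) ((connOf P).smooth p i)
  have hg' : ∀ z ∈ Vale.Agent.P088.EYM.tg n p, gch P p (WithLp.ofLp z) = L.g z := by
    intro z hz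
    show inChart n P.mat p (pt n p (WithLp.ofLp z)) = gram (gOf P) p ((extChartAt (𝓡∂ n) p).symm z)
    rw [pt_eq hz, gram_gOf P (hsrc z hz)]
  have hB' : ∀ j, ∀ z ∈ Vale.Agent.P088.EYM.tg n p, toE (ach P p j (WithLp.ofLp z)) = L.B j z := by
    intro j z hz
    show toE (∑ i, jac n p (pt n p (WithLp.ofLp z)) i j • P.co (pt n p (WithLp.ofLp z)) i) =
      formOf (P.co ((extChartAt (𝓡∂ n) p).symm z))
        (cc (𝓡∂ n) p ((extChartAt (𝓡∂ n) p).symm z) (es n j))
    rw [pt_eq hz, formOf_apply, toE_rsum]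
    simp only [jac_eq (hsrc z hz)]
  refine ⟨fun y hyW j k => ?_, fun y hyW k => ?_⟩
  · have hy := hyW.1
    have h1 := (h p _ ⟨hsrc y hy, hyW.2⟩).1 j k
    have hy2 : ch n p ((extChartAt (𝓡∂ n) p).symm y) = WithLp.ofLp y := by
      rw [ch_eq, (extChartAt (𝓡∂ n) p).right_inv hy]
    rw [hy2] at h1
    rw [Vale.Agent.P088.EYM.brEq_ricci hD hgs hgp hg' j k hy] at h1
    unfold Vale.Agent.P088.EYM.rhsE
    simp only [Vale.Agent.P088.EYM.brEq_stress hD hBs hg' hB' _ _ hy, hg' y hy] at h1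
    exact h1
  · have hy := hyW.1
    have h1 := (h p _ ⟨hsrc y hy, hyW.2⟩).2 k
    have hy2 : ch n p ((extChartAt (𝓡∂ n) p).symm y) = WithLp.ofLp y := by
      rw [ch_eq, (extChartAt (𝓡∂ n) p).right_inv hy]
    rw [hy2] at h1
    rw [← Vale.Agent.P088.EYM.brEq_divF hD hgs hBs hg' hB' k hy, h1]
    exact map_zero (Matrix.toEuclideanCLM (n := Fin N) (𝕜 := ℂ))

end Vale.Agent.P088.S

namespace Vale.Agent.P088.B

universe u

variable {n : ℕ} [NeZero n] {N : ℕ} {M : Type u} [TopologicalSpace M]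
  [ChartedSpace (EuclideanHalfSpace n) M] [IsManifold (𝓡∂ n) ∞ M]

/-- The equations on `W` in abstract form. -/
theorem eymw_conv {P : Pair (at_ n M) N} {κ α β : ℝ} {W : Set M} (h : EYMOn κ α β W P) (p : M) :
    Vale.Agent.P088.EYM.EYMeq κ α β (Vale.Agent.P088.EYM.locM (Vale.Agent.P088.S.gOf (conv P))
      (Vale.Agent.P088.S.connOf (conv P)) p) (Vale.Agent.P088.EYM.tgW n W p) :=
  Vale.Agent.P088.S.bridge_eqs_on (fun q x hx => eym_conv_at hx.1 (h q x hx)) p

end Vale.Agent.P088.B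
end
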