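import Vale.Agent.P088.TM.Defs

open Bundle Manifold MeasureTheory Set Filter Topology
open scoped ContDiff

noncomputable section

namespace Vale.Agent.P088.TM

open Vale.Agent.P088.EYM

universe u

set_option linter.all false

theorem bne {n : ℕ} [NeZero n] {M : Type u} [TopologicalSpace M]
    [ChartedSpace (EuclideanHalfSpace n) M] {Γ : Set M} (hΓ : RelBd n Γ) (hne : Γ.Nonempty) :
    ((𝓡∂ n).boundary M).Nonempty := by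
  obtain ⟨O, -, rfl⟩ := hΓ
  obtain ⟨x, hx⟩ := hne
  exact ⟨x, hx.2⟩

theorem sub_bd {n : ℕ} [NeZero n] {M : Type u} [TopologicalSpace M]
    [ChartedSpace (EuclideanHalfSpace n) M] {Γ : Set M} (hΓ : RelBd n Γ) :
    Γ ⊆ (𝓡∂ n).boundary M := by
  obtain ⟨O, -, rfl⟩ := hΓ
  exact inter_subset_right

theorem sameD_symm {n N : ℕ} [NeZero n] {M₁ M₂ : Type u}
    [TopologicalSpace M₁] [ChartedSpace (EuclideanHalfSpace n) M₁] [IsManifold (𝓡∂ n) ∞ M₁]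
    [TopologicalSpace M₂] [ChartedSpace (EuclideanHalfSpace n) M₂] [IsManifold (𝓡∂ n) ∞ M₂]
    [MeasurableSpace M₁] [MeasurableSpace M₂] {P : One n N M₁} {Q : One n N M₂} {G : Gl M₁ M₂}
    (hG : G.Ok n N) (hS : SameD P Q G) : SameD Q P G.symm := by
  intro f₂ h₂ f₁ h₁ hf hh
  obtain ⟨u₁, v₁, u₂, v₂, a1, a2, a3, a4, a5⟩ :=
    hS f₁ h₁ f₂ h₂ (MD.symm hG.symm hf) (MD.symm hG.symm hh)
  exact ⟨u₂, v₂, u₁, v₁, a3, a4, a1, a2, a5.symm⟩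

theorem cData : CUniq_statement.{u} → CForm_statement.{u} → CData_statement.{u} := by
  intro hU _ n N _ M₁ M₂ _ _ _ _ _ _ _ _ _ _ _ _ _ _ _ _ P Q G hG hS
  have hbd₁ := bne hG.rel₁ hG.ne₁
  have hbd₂ := bne hG.rel₂ hG.ne₂
  refine ⟨⟨?_, ?_, sameD_symm hG hS⟩, ?_⟩
  · intro f hf
    obtain ⟨f₂, h2, h3⟩ := hG.ext f hf
    obtain ⟨u₁, -, -, -, h1, -, -, -, -⟩ := hS f f f₂ f₂ ⟨hf, h2, h3⟩ ⟨hf, h2, h3⟩
    exact ⟨u₁, h1⟩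
  · intro f hf
    obtain ⟨f₁, h2, h3⟩ := hG.ext' f hf
    have hm : MD n G f₁ f := ⟨h2, hf, fun x hx => by rw [h3 _ (hG.maps hx), hG.inv x hx]⟩
    obtain ⟨-, -, u₂, -, -, -, h3, -, -⟩ := hS f₁ f₁ f f hm hm
    exact ⟨u₂, h3⟩
  · rintro u ⟨f₁, f₂, hf, hPu, hQu⟩ w w' hw
    obtain ⟨u₁, v₁, u₂, v₂, h1, h2, h3, h4, h5⟩ := hS w f₁ w' f₂ hw hf
    obtain ⟨pU, -, pE⟩ := hU n N M₁ P hbd₁
    obtain ⟨qU, -, qE⟩ := hU n N M₂ Q hbd₂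
    have e1 : v₁ = u.1 := pU f₁ f₁ v₁ u.1 h2 hPu fun _ _ => rfl
    have e2 : v₂ = u.2 := qU f₂ f₂ v₂ u.2 h4 hQu fun _ _ => rfl
    have e3 : P.E w u.1 = P.E u₁ u.1 :=
      (pE f₁ u.1 w u₁ hPu hw.h₁.smooth h1.smooth fun x hx => (h1.boundary x hx).symm).2
    have e4 : Q.E w' u.2 = Q.E u₂ u.2 :=
      (qE f₂ u.2 w' u₂ hQu hw.h₂.smooth h3.smooth fun x hx => (h3.boundary x hx).symm).2
    have h6 : P.E u₁ v₁ = Q.E u₂ v₂ := h5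
    rw [e1, e2] at h6
    rw [e3, e4, h6]

end Vale.Agent.P088.TM
end
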