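import Vale.Agent.P088.TM.Data

/-!
# P088, two manifolds: limits of good points, solution coordinates, equality of the models, closedness, global match
-/

open Bundle Manifold MeasureTheory Set Filter Topology
open scoped ContDiff

noncomputable section

set_option linter.all false

namespace Vale.Agent.P088.TM

open Vale.Agent.P088.EYM

universe u

theorem cLim : Vale.Agent.P088.EYM.CRunge_statement.{u} → CData_statement.{u} →
    Vale.Agent.P088.EYM.CLoc_statement.{u} → Vale.Agent.P088.EYM.CConn_statement.{u} →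
    CLim_statement.{u} := by
  intro hRunge hData hLoc hConn n N _ M₁ M₂ _ _ _ _ _ _ _ _ _ _ _ _ _ _ _ _ P Q G hn hN hG
    hSame x₀ hx₀ hcl
  have : SecondCountableTopology (EuclideanHalfSpace n) := by
    unfold EuclideanHalfSpace
    infer_instance
  have : SecondCountableTopology M₁ :=
    ChartedSpace.secondCountable_of_sigmaCompact (EuclideanHalfSpace n) M₁
  have : SecondCountableTopology M₂ :=
    ChartedSpace.secondCountable_of_sigmaCompact (EuclideanHalfSpace n) M₂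
  obtain ⟨hIopen, -, -⟩ := hConn n M₂
  obtain ⟨⟨hPsol, hQsol, -⟩, -⟩ := hData n N M₁ M₂ P Q G hG hSame
  obtain ⟨hRel, -, hBd, -⟩ := hLoc n N M₂
  -- the sequence
  obtain ⟨x, hxG, hxt⟩ := mem_closure_iff_seq_limit.1 hcl
  choose O φ V hLM using hxG
  have hcomp : IsCompact ((univ : Set M₁) ×ˢ (unitary (EndF N) : Set (EndF N))) :=
    isCompact_univ.prod (cLim_compact N hN)
  obtain ⟨a, haM, ψ, hψ, hlim⟩ := hcomp.tendsto_subseq
    (x := fun k => (φ k (x k), V k (x k)))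
    (fun k => ⟨mem_univ _, (hLM k).1.unit _ (hLM k).2⟩)
  obtain ⟨x₀', V₀⟩ := a
  have hlim1 : Tendsto (fun k => φ (ψ k) (x (ψ k))) atTop (𝓝 x₀') :=
    (continuous_fst.tendsto _).comp hlim
  have hlim2 : Tendsto (fun k => V (ψ k) (x (ψ k))) atTop (𝓝 V₀) :=
    (continuous_snd.tendsto _).comp hlim
  have hxt' : Tendsto (fun k => x (ψ k)) atTop (𝓝 x₀) := hxt.comp hψ.tendsto_atTop
  have hrel : ∀ u ∈ PP P Q G, u.2 x₀ = V₀ (u.1 x₀') := by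
    intro u hu
    obtain ⟨f₁, f₂, hf, hPf, hQf⟩ := id hu
    have hc1 : Continuous u.1 := hPf.smooth.continuous
    have hc2 : Continuous u.2 := hQf.smooth.continuous
    have hl : Tendsto (fun k => u.2 (x (ψ k))) atTop (𝓝 (u.2 x₀)) :=
      (hc2.tendsto _).comp hxt'
    have hr : Tendsto (fun k => V (ψ k) (x (ψ k)) (u.1 (φ (ψ k) (x (ψ k))))) atTop
        (𝓝 (V₀ (u.1 x₀'))) := by
      have h1 : Tendsto (fun k => u.1 (φ (ψ k) (x (ψ k)))) atTop (𝓝 (u.1 x₀')) :=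
        (hc1.tendsto _).comp hlim1
      have h2 : Continuous fun q : EndF N × Fib N => q.1 q.2 :=
        isBoundedBilinearMap_apply.continuous
      exact (h2.tendsto (V₀, u.1 x₀')).comp (hlim2.prodMk_nhds h1)
    refine tendsto_nhds_unique hl (hr.congr fun k => ?_)
    exact ((hLM (ψ k)).1.sol u hu _ (hLM (ψ k)).2).symm
  have hint : x₀' ∈ Mi n M₁ := by
    by_contra hnot
    have hbdx : x₀' ∈ (𝓡∂ n).boundary M₁ := by
      rw [← ModelWithCorners.compl_interior]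
      exact hnot
    obtain ⟨O', hO', hΓeq⟩ := id hG.rel₂
    have hΓ'rel : RelBd n (G.Γ₂ \ {G.χ x₀'}) := by
      refine ⟨O' \ {G.χ x₀'}, hO'.sdiff isClosed_singleton, ?_⟩
      rw [hΓeq]
      ext y
      simp only [Set.mem_sdiff, mem_inter_iff, mem_singleton_iff]
      tauto
    have hΓ'ne : (G.Γ₂ \ {G.χ x₀'}).Nonempty := by
      obtain ⟨p, hp⟩ := hG.ne₂
      by_cases hpx : p = G.χ x₀'
      · have hpO : p ∈ O' := by rw [hΓeq] at hp; exact hp.1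
        have hpB : p ∈ (𝓡∂ n).boundary M₂ := by rw [hΓeq] at hp; exact hp.2
        have h1n : 1 < n := by omega
        obtain ⟨m, t, ht, hmO, hms, hmx, hmp⟩ := cLim_move p (hRel p) hO' hpO (⟨1, h1n⟩ : Fin n)
        have hp00 : xc n p p 0 = 0 := (hBd p p (mem_extChartAt_source p)).1 hpB
        have hm00 : xc n p m 0 = 0 := by
          rw [hmx]
          have hne : (⟨1, h1n⟩ : Fin n) ≠ 0 := by
            intro h
            have := congrArg Fin.val h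
            simp at this
          have h14 : (xc n p p + t • ev (⟨1, h1n⟩ : Fin n) : E n) 0 =
              xc n p p 0 + t * (ev (⟨1, h1n⟩ : Fin n) : E n) 0 := by simp only [PiLp.add_apply,
            PiLp.smul_apply, smul_eq_mul]
          rw [h14, hp00]
          simp [ev, hne.symm]
        have hmB : m ∈ (𝓡∂ n).boundary M₂ := (hBd p m hms).2 hm00
        refine ⟨m, ?_, ?_⟩
        · rw [hΓeq]; exact ⟨hmO, hmB⟩
        · rw [mem_singleton_iff, ← hpx]; exact hmp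
      · exact ⟨p, hp, by simpa using hpx⟩
    have hsub : ∀ f : M₂ → Fib N, IsBdryData (𝓡∂ n) (G.Γ₂ \ {G.χ x₀'}) f →
        IsBdryData (𝓡∂ n) G.Γ₂ f :=
      fun f hf => ⟨hf.smooth, hf.supp.trans sdiff_subset⟩
    have hQ' : Q.HasSol (G.Γ₂ \ {G.χ x₀'}) := fun f hf => hQsol f (hsub f hf)
    obtain ⟨x₁, _, _, hx₁I, _, _, hx₁ne⟩ := cLim_move x₀ (hRel x₀) hIopen hx₀ (0 : Fin n)
    obtain ⟨u₂, ⟨f, hf, hQf⟩, ⟨hu₂, -⟩, -⟩ := hRunge n N M₂ Q (G.Γ₂ \ {G.χ x₀'}) x₀ x₁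
      (EuclideanSpace.single (⟨0, hN⟩ : Fin N) (1 : ℂ)) 0 0 0 (by omega) hΓ'rel hΓ'ne hQ' hx₀ hx₁I
      (Ne.symm hx₁ne)
    obtain ⟨f₁, hf₁, hff⟩ := hG.ext' f (hsub f hf)
    have hm : MD n G f₁ f := ⟨hf₁, hsub f hf, fun x hx => by rw [hff _ (hG.maps hx), hG.inv x hx]⟩
    obtain ⟨u₁, hPf⟩ := hPsol f₁ hf₁
    have hpair : (u₁, u₂) ∈ PP P Q G := ⟨f₁, f, hm, hPf, hQf⟩
    have h1 := hrel _ hpair
    have hfz : f₁ x₀' = 0 := by
      by_contra hfne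
      have h3 : x₀' ∈ G.Γ₁ := hf₁.supp (subset_closure ⟨hbdx, hfne⟩)
      have h4 : f (G.χ x₀') ≠ 0 := by rw [← hff x₀' h3]; exact hfne
      have h5 : G.χ x₀' ∈ (𝓡∂ n).boundary M₂ := by
        have := hG.maps' h3
        rw [hΓeq] at this
        exact this.2
      have : G.χ x₀' ∈ G.Γ₂ \ {G.χ x₀'} := hf.supp (subset_closure ⟨h5, h4⟩)
      exact this.2 rfl
    have h2 : u₁ x₀' = 0 := by rw [hPf.boundary x₀' hbdx, hfz]
    simp only [hu₂, h2, map_zero] at h1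
    have h3 := congrArg (fun v : Fib N => v ⟨0, hN⟩) h1
    simp at h3
  exact ⟨x₀', V₀, fun k => x (ψ k), fun k => O (ψ k), fun k => φ (ψ k), fun k => V (ψ k), hint,
    haM.2, fun k => hLM (ψ k), hxt', hlim1, hlim2, hrel⟩

theorem cCoord : Vale.Agent.P088.EYM.CRunge_statement.{u} → CUnm_statement.{u} →
    CData_statement.{u} → Vale.Agent.P088.EYM.CUniq_statement.{u} →
    Vale.Agent.P088.EYM.CLoc_statement.{u} → Vale.Agent.P088.EYM.CConn_statement.{u} →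
    CCoord_statement.{u} := by
  intro hRunge hUnm hData _ hLoc _ n N _ M₁ M₂ _ _ _ _ _ _ _ _ _ _ _ _ _ _ _ _ P Q G x₀ x₀' V₀
    x O φ V hn hN hG hSame hx₀ hx₀' hV₀ hm hx hφ hV hlim
  obtain ⟨hrel₁, hok₁, hbd₁, hsm₁'⟩ := hLoc n N M₁
  obtain ⟨hrel₂, hok₂, hbd₂, hsm₂'⟩ := hLoc n N M₂
  obtain ⟨⟨hPs, hQs, -⟩, -⟩ := hData n N M₁ M₂ P Q G hG hSame
  obtain ⟨x', hx', hne⟩ := cCoord_second hrel₁ hbd₁ hx₀'
  have key : ∀ (a : Fib N) (b : Fin n → Fib N), ∃ u ∈ PP P Q G, HasJet u.1 x₀' a b := by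
    intro a b
    obtain ⟨u, ⟨f, hf, hu⟩, hj, -⟩ := hRunge n N M₁ P G.Γ₁ x₀' x' a 0 b (fun _ => 0) (by omega)
      hG.rel₁ hG.ne₁ hPs hx₀' hx' hne
    obtain ⟨f₂, hf₂, hff⟩ := hG.ext f hf
    obtain ⟨u', hu'⟩ := hQs f₂ hf₂
    exact ⟨(u, u'), ⟨f, f₂, ⟨hf, hf₂, hff⟩, hu, hu'⟩, hj⟩
  set j0 : Fin N := ⟨0, hN⟩ with hj0
  choose s hs hsj using fun j : Fin N => key (EuclideanSpace.single j 1) (fun _ => 0)
  choose t ht htj using fun a : Fin n => key (if a = 0 then EuclideanSpace.single j0 1 else 0)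
    (fun i => if i = a then EuclideanSpace.single j0 1 else 0)
  have hPPs : ∀ u ∈ PP P Q G, SmS n u.1 ∧ SmS n u.2 := by
    rintro u ⟨f₁, f₂, -, h1, h2⟩
    exact ⟨h1.smooth, h2.smooth⟩
  set z' := xc n x₀' x₀' with hz'
  set z := xc n x₀ x₀ with hz
  set S₁ : E n → EndF N := frm n x₀' (fun j => (s j).1) with hS₁
  set S₂ : E n → EndF N := frm n x₀ (fun j => (s j).2) with hS₂
  set T₁ : Fin n → E n → Fib N := fun a => lu (𝓡∂ n) x₀' (t a).1 with hT₁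
  set T₂ : Fin n → E n → Fib N := fun a => lu (𝓡∂ n) x₀ (t a).2 with hT₂
  have symm' : (xc n x₀').symm z' = x₀' := extChartAt_to_inv x₀'
  have symm₀ : (xc n x₀).symm z = x₀ := extChartAt_to_inv x₀
  have hS₁z : S₁ z' = 1 := by
    refine endF_ext fun j => ?_
    rw [hS₁, cCoord_frm_eN, symm', (hsj j).1]
    rfl
  have hS₂z : S₂ z = V₀ := by
    refine endF_ext fun j => ?_
    rw [hS₂, cCoord_frm_eN, symm₀, hlim _ (hs j), (hsj j).1]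
    rfl
  have hV₀u : IsUnit V₀ := ⟨Unitary.toUnits ⟨V₀, hV₀⟩, rfl⟩
  have hXX : Xco j0 S₁ T₁ z' = Xco j0 S₂ T₂ z := by
    ext a
    rw [cCoord_xco_apply, cCoord_xco_apply, hS₁z, hS₂z, Ring.inverse_one]
    have e : T₂ a z = V₀ (T₁ a z') := by
      show (t a).2 ((xc n x₀).symm z) = V₀ ((t a).1 ((xc n x₀').symm z'))
      rw [symm₀, symm', hlim _ (ht a)]
    have e2 : (Ring.inverse V₀) (V₀ (T₁ a z')) = T₁ a z' := by
      have := congrArg (fun W : EndF N => W (T₁ a z')) (Ring.inverse_mul_cancel _ hV₀u)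
      exact this
    rw [e, e2]
    rfl
  -- open sets
  have hsm₁ : ∀ j, ContDiffOn ℝ ∞ (lu (𝓡∂ n) x₀' (s j).1) (tg n x₀') :=
    fun j => hsm₁' _ (hPPs _ (hs j)).1 _
  have hsm₂ : ∀ j, ContDiffOn ℝ ∞ (lu (𝓡∂ n) x₀ (s j).2) (tg n x₀) :=
    fun j => hsm₂' _ (hPPs _ (hs j)).2 _
  have hSc₁ : ContDiffOn ℝ ∞ S₁ (tg n x₀') := cCoord_frm_smooth x₀' hsm₁
  have hSc₂ : ContDiffOn ℝ ∞ S₂ (tg n x₀) := cCoord_frm_smooth x₀ hsm₂
  have hTc₁ : ∀ a, ContDiffOn ℝ ∞ (T₁ a) (tg n x₀') := fun a => hsm₁' _ (hPPs _ (ht a)).1 _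
  have hTc₂ : ∀ a, ContDiffOn ℝ ∞ (T₂ a) (tg n x₀) := fun a => hsm₂' _ (hPPs _ (ht a)).2 _
  set D₁ : Set (E n) := (tg n x₀' ∩ {y | 0 < y 0}) ∩ S₁ ⁻¹' {W | IsUnit W} with hD₁
  set D₂ : Set (E n) := (tg n x₀ ∩ {y | 0 < y 0}) ∩ S₂ ⁻¹' {W | IsUnit W} with hD₂
  have hD₁o : IsOpen D₁ := (hSc₁.continuousOn.mono inter_subset_left).isOpen_inter_preimage
    (cCoord_isOpen (hrel₁ x₀')) Units.isOpen
  have hD₂o : IsOpen D₂ := (hSc₂.continuousOn.mono inter_subset_left).isOpen_inter_preimage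
    (cCoord_isOpen (hrel₂ x₀)) Units.isOpen
  have hD₁s : D₁ ⊆ tg n x₀' := fun y hy => hy.1.1
  have hD₂s : D₂ ⊆ tg n x₀ := fun y hy => hy.1.1
  have hD₁h : D₁ ⊆ Hs n := fun y hy => le_of_lt (show 0 < y 0 from hy.1.2)
  have hD₂h : D₂ ⊆ Hs n := fun y hy => le_of_lt (show 0 < y 0 from hy.1.2)
  have hz'D : z' ∈ D₁ := ⟨⟨mem_extChartAt_target x₀',
    cCoord_pos hrel₁ hbd₁ (mem_extChartAt_source x₀') hx₀'⟩, by
      show IsUnit (S₁ z')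
      rw [hS₁z]
      exact isUnit_one⟩
  have hzD : z ∈ D₂ := ⟨⟨mem_extChartAt_target x₀,
    cCoord_pos hrel₂ hbd₂ (mem_extChartAt_source x₀) hx₀⟩, by
      show IsUnit (S₂ z)
      rw [hS₂z]
      exact hV₀u⟩
  have hX₁ : ∀ a, ContDiffOn ℝ ∞ (fun y => Xco j0 S₁ T₁ y a) D₁ := fun a =>
    cCoord_xco_smooth j0 (hSc₁.mono hD₁s) (fun a => (hTc₁ a).mono hD₁s) (fun y hy => hy.2) a
  have hX₂ : ∀ a, ContDiffOn ℝ ∞ (fun y => Xco j0 S₂ T₂ y a) D₂ := fun a =>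
    cCoord_xco_smooth j0 (hSc₂.mono hD₂s) (fun a => (hTc₂ a).mono hD₂s) (fun y hy => hy.2) a
  have hJ₁ : Jac (Xco j0 S₁ T₁) z' = 1 := by
    refine cCoord_jac_one (cCoord_relOpen hD₁o hD₁h) j0 (hSc₁.mono hD₁s)
      (fun a => (hTc₁ a).mono hD₁s) (fun y hy => hy.2) hz'D hS₁z (fun i => ?_) (fun a i => ?_)
    · rw [hS₁, cCoord_frm_pd (hrel₁ x₀') x₀' hsm₁ (hD₁s hz'D) i]
      refine Finset.sum_eq_zero fun j _ => ?_
      rw [(hsj j).2 i, map_zero]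
    · exact (htj a).2 i
  refine ⟨j0, s, t, hs, ht, ?_, ?_, ?_, ?_, ?_, hXX⟩
  · show IsUnit (S₁ z')
    rw [hS₁z]
    exact isUnit_one
  · show IsUnit (S₂ z)
    rw [hS₂z]
    exact hV₀u
  · show (Jac (Xco j0 S₁ T₁) z').det ≠ 0
    rw [hJ₁, Matrix.det_one]
    exact one_ne_zero
  · -- the limit argument
    have hy : Tendsto (fun k => xc n x₀ (x k)) atTop (𝓝 z) :=
      (continuousAt_extChartAt (I := 𝓡∂ n) x₀).tendsto.comp hx
    have hw : Tendsto (fun k => xc n x₀' (φ k (x k))) atTop (𝓝 z') :=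
      (continuousAt_extChartAt (I := 𝓡∂ n) x₀').tendsto.comp hφ
    have hev : ∀ᶠ k in atTop, (Jac (Xco j0 S₂ T₂) (xc n x₀ (x k))).det ^ 2 *
        ((P.loc x₀').g (xc n x₀' (φ k (x k)))).det =
        (Jac (Xco j0 S₁ T₁) (xc n x₀' (φ k (x k)))).det ^ 2 *
          ((Q.loc x₀).g (xc n x₀ (x k))).det := by
      filter_upwards [hx.eventually (extChartAt_source_mem_nhds (I := 𝓡∂ n) x₀),
        hφ.eventually (extChartAt_source_mem_nhds (I := 𝓡∂ n) x₀'),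
        hw.eventually (hD₁o.mem_nhds hz'D)] with k hk1 hk2 hk3
      obtain ⟨hmk, hxk⟩ := hm k
      obtain ⟨r, hr, hball, hball2, hτ, hVs, hg, -⟩ :=
        hUnm n N M₁ M₂ P Q G (O k) (φ k) (V k) hmk x₀' x₀ (x k) hxk hk1 hk2
      set τ : E n → E n := fun y => xc n x₀' (φ k ((xc n x₀).symm y)) with hτd
      have hτk : τ (xc n x₀ (x k)) = xc n x₀' (φ k (x k)) := by
        simp only [hτd]
        rw [(xc n x₀).left_inv hk1]
      set B' : Set (E n) := Metric.ball (xc n x₀ (x k)) r ∩ τ ⁻¹' D₁ with hB'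
      have hB'o : IsOpen B' := hτ.continuousOn.isOpen_inter_preimage Metric.isOpen_ball hD₁o
      have hB'h : B' ⊆ Hs n := fun y hy => le_of_lt (show 0 < y 0 from (hball hy.1).2)
      have hyk : xc n x₀ (x k) ∈ B' := ⟨Metric.mem_ball_self hr, by
        show τ (xc n x₀ (x k)) ∈ D₁
        rw [hτk]
        exact hk3⟩
      have hXX' : ∀ y ∈ B', Xco j0 S₂ T₂ y = Xco j0 S₁ T₁ (τ y) := by
        intro y hy
        have hyO := (hball2 y hy.1).1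
        have hys := (hball2 y hy.1).2.1
        have hinv : (xc n x₀').symm (τ y) = φ k ((xc n x₀).symm y) := (xc n x₀').left_inv hys
        have hSS : S₂ y = V k ((xc n x₀).symm y) * S₁ (τ y) := by
          refine endF_ext fun j => ?_
          show S₂ y (eN N j) = V k ((xc n x₀).symm y) (S₁ (τ y) (eN N j))
          rw [hS₂, hS₁, cCoord_frm_eN, cCoord_frm_eN, hinv]
          exact hmk.sol _ (hs j) _ hyO
        have hTT : ∀ a, T₂ a y = V k ((xc n x₀).symm y) (T₁ a (τ y)) := by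
          intro a
          show (t a).2 ((xc n x₀).symm y) =
            V k ((xc n x₀).symm y) ((t a).1 ((xc n x₀').symm (τ y)))
          rw [hinv]
          exact hmk.sol _ (ht a) _ hyO
        have hVu : IsUnit (V k ((xc n x₀).symm y)) :=
          ⟨Unitary.toUnits ⟨_, hmk.unit _ hyO⟩, rfl⟩
        ext a
        rw [cCoord_xco_apply, cCoord_xco_apply, hSS, hTT a, cCoord_inv hy.2.2 hVu]
      have hfin := cCoord_det (cCoord_relOpen hD₁o hD₁h) (cCoord_relOpen hB'o hB'h)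
        (hτ.mono inter_subset_left) (fun y hy => hy.2) hX₁ hXX' hyk
        (g₁ := (P.loc x₀').g) (g₂ := (Q.loc x₀).g) (by
          have := hg (xc n x₀ (x k)) hyk.1
          exact this)
      rw [hτk] at hfin
      exact hfin
    have hlhs : Tendsto (fun k => (Jac (Xco j0 S₂ T₂) (xc n x₀ (x k))).det ^ 2 *
        ((P.loc x₀').g (xc n x₀' (φ k (x k)))).det) atTop
        (𝓝 ((Jac (Xco j0 S₂ T₂) z).det ^ 2 * ((P.loc x₀').g z').det)) :=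
      (((cCoord_jac_cont hD₂o hD₂h hX₂ hzD).tendsto.comp hy).pow 2).mul
        ((cCoord_met_cont hD₁o (fun i j => ((hok₁ P x₀').g_smooth i j).mono hD₁s)
          hz'D).tendsto.comp hw)
    have hrhs : Tendsto (fun k => (Jac (Xco j0 S₁ T₁) (xc n x₀' (φ k (x k)))).det ^ 2 *
        ((Q.loc x₀).g (xc n x₀ (x k))).det) atTop
        (𝓝 ((Jac (Xco j0 S₁ T₁) z').det ^ 2 * ((Q.loc x₀).g z).det)) :=
      (((cCoord_jac_cont hD₁o hD₁h hX₁ hz'D).tendsto.comp hw).pow 2).mul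
        ((cCoord_met_cont hD₂o (fun i j => ((hok₂ Q x₀).g_smooth i j).mono hD₂s)
          hzD).tendsto.comp hy)
    have heq := tendsto_nhds_unique_of_eventuallyEq hlhs hrhs hev
    rw [hJ₁, Matrix.det_one, one_pow, one_mul] at heq
    have hpos : 0 < ((Q.loc x₀).g z).det := ((hok₂ Q x₀).g_pos z (hD₂s hzD)).det_pos
    intro h0
    have h0' : (Jac (Xco j0 S₂ T₂) z).det = 0 := h0
    rw [h0'] at heq
    simp at heq
    exact hpos.ne heq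
  · show 0 < Xco j0 S₁ T₁ z' 0
    rw [cCoord_xco_apply, hS₁z, Ring.inverse_one]
    have e : T₁ 0 z' = EuclideanSpace.single j0 1 := by
      show (t 0).1 ((xc n x₀').symm z') = _
      rw [symm', (htj 0).1, if_pos rfl]
    rw [e, cCoord_re_apply]
    simp only [one_apply_eq_self, PiLp.single_eq_same, Complex.one_re, zero_lt_one]

theorem cModEq : CUnm_statement.{u} → BIntr_statement → BSymm_statement → BComp_statement →
    CModEq_statement.{u} := by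
  intro hUnm hIntr hSymm hComp n N _ M₁ M₂ _ _ _ _ _ _ _ _ _ _ _ _ _ _ _ _ P Q G j0 s t q₁ q₂ z r
    W₁ W₂ D₁ D₂ Y₁ Y₂ hs ht hD₁ hD₂ hD₁t hD₂t hp₁ hp₂ hc₁ hc₂ O φ V hM x hxO hxs hxD₂ hφs hφD₁
  obtain ⟨ρ, hρ, hsub, hmap, hτs, hvs, hg, hB⟩ := hUnm n N M₁ M₂ P Q G O φ V hM q₁ q₂ x hxO hxs hφs
  set S₁ : E n → EndF N := frm n q₁ fun j => (s j).1 with hS₁
  set S₂ : E n → EndF N := frm n q₂ fun j => (s j).2 with hS₂
  set X₁ : E n → E n := Xco j0 S₁ (fun a => lu (𝓡∂ n) q₁ (t a).1) with hX₁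
  set X₂ : E n → E n := Xco j0 S₂ (fun a => lu (𝓡∂ n) q₂ (t a).2) with hX₂
  set τ : E n → E n := fun y => xc n q₁ (φ ((xc n q₂).symm y)) with hτ
  set v : E n → EndF N := fun y => V ((xc n q₂).symm y) with hv
  have hHB : RelOpen (HB z r) := ⟨Metric.ball z r, Metric.isOpen_ball, rfl⟩
  set B : Set (E n) := Metric.ball (xc n q₂ x) ρ with hBdef
  have hBo : IsOpen B := Metric.isOpen_ball
  -- sections in charts
  have hlu : ∀ u ∈ PP P Q G, ∀ y ∈ B, lu (𝓡∂ n) q₂ u.2 y = v y (lu (𝓡∂ n) q₁ u.1 (τ y)) := by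
    intro u hu y hy
    obtain ⟨h1, h2, -⟩ := hmap y hy
    show u.2 ((xc n q₂).symm y) = V ((xc n q₂).symm y) (u.1 ((xc n q₁).symm (τ y)))
    rw [hM.sol u hu _ h1]
    rw [show (xc n q₁).symm (τ y) = φ ((xc n q₂).symm y) from (xc n q₁).left_inv h2]
  have hSS : ∀ y ∈ B, S₂ y = v y * S₁ (τ y) := by
    intro y hy
    refine endF_ext fun i => ?_
    show fr (fun j => (s j).2) ((xc n q₂).symm y) (eN N i) =
      v y (fr (fun j => (s j).1) ((xc n q₁).symm (τ y)) (eN N i))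
    rw [fr_eN, fr_eN]
    exact hlu (s i) (hs i) y hy
  -- the open set in the chart at q₂
  obtain ⟨O₂, hO₂, hD₂e⟩ := hD₂
  obtain ⟨O₁, hO₁, hD₁e⟩ := hD₁
  have hD₂ : RelOpen D₂ := ⟨O₂, hO₂, hD₂e⟩
  have hD₁ : RelOpen D₁ := ⟨O₁, hO₁, hD₁e⟩
  set Nn : Set (E n) := (B ∩ τ ⁻¹' O₁) ∩ O₂ with hNn
  have hNo : IsOpen Nn := (hτs.continuousOn.isOpen_inter_preimage hBo hO₁).inter hO₂
  have hNB : Nn ⊆ B := fun y hy => hy.1.1
  have hNpos : ∀ y ∈ Nn, 0 < y 0 := fun y hy => (hsub (hNB hy)).2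
  have hND₂ : Nn ⊆ D₂ := by
    intro y hy
    rw [hD₂e]
    exact ⟨hy.2, (hNpos y hy).le⟩
  have hNτ : ∀ y ∈ Nn, τ y ∈ D₁ := by
    intro y hy
    rw [hD₁e]
    exact ⟨hy.1.2, (hmap y (hNB hy)).2.2.le⟩
  have hxB : xc n q₂ x ∈ B := Metric.mem_ball_self hρ
  have hxN : xc n q₂ x ∈ Nn := by
    refine ⟨⟨hxB, ?_⟩, ?_⟩
    · show τ (xc n q₂ x) ∈ O₁
      have : τ (xc n q₂ x) = xc n q₁ (φ x) := by
        show xc n q₁ (φ ((xc n q₂).symm (xc n q₂ x))) = _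
        rw [(xc n q₂).left_inv hxs]
      rw [this]
      rw [hD₁e] at hφD₁
      exact hφD₁.1
    · rw [hD₂e] at hxD₂
      exact hxD₂.1
  have hNrel : RelOpen Nn := ⟨Nn, hNo, (inter_eq_left.mpr fun y hy => (hNpos y hy).le).symm⟩
  -- the solution coordinates agree
  have hX : ∀ y ∈ Nn, X₁ (τ y) = X₂ y := by
    intro y hy
    have h1 := hp₁.unit _ (hNτ y hy)
    have h2 := hp₂.unit _ (hND₂ hy)
    ext a
    show ((Ring.inverse (S₁ (τ y))) (lu (𝓡∂ n) q₁ (t a).1 (τ y)) j0).re =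
      ((Ring.inverse (S₂ y)) (lu (𝓡∂ n) q₂ (t a).2 y) j0).re
    rw [hlu (t a) (ht a) y (hNB hy), cModEq_cancel (hSS y (hNB hy)) h1 h2]
  -- the open set in the coordinates
  set Hp : Set (E n) := Metric.ball z r ∩ {y | 0 < y 0} with hHp
  have hHpo : IsOpen Hp :=
    Metric.isOpen_ball.inter (isOpen_lt continuous_const (continuous_coord 0))
  have hHpHB : Hp ⊆ HB z r := fun y hy => ⟨hy.1, le_of_lt (show 0 < y 0 from hy.2)⟩
  set U : Set (E n) := Hp ∩ Y₂ ⁻¹' Nn with hU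
  have hUo : IsOpen U :=
    (hp₂.diffeo.smY.continuousOn.mono hHpHB).isOpen_inter_preimage hHpo hNo
  have hUHB : U ⊆ HB z r := fun y hy => hHpHB hy.1
  have hUrel : RelOpen U :=
    ⟨U, hUo, (inter_eq_left.mpr (fun y (hy : y ∈ U) => (hUHB hy).2)).symm⟩
  have hXU : MapsTo X₂ Nn U := by
    intro y hy
    have h1 := hp₂.diffeo.mapsX (hND₂ hy)
    refine ⟨⟨h1.1, hIntr n D₂ (HB z r) X₂ Y₂ hD₂ hHB hp₂.diffeo y (hND₂ hy) (hNpos y hy)⟩, ?_⟩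
    show Y₂ (X₂ y) ∈ Nn
    rw [hp₂.diffeo.inv1 y (hND₂ hy)]
    exact hy
  have hYN : MapsTo Y₂ U Nn := fun y hy => hy.2
  -- the set in the chart at q₁
  obtain ⟨O₃, hO₃, hO₃e⟩ := (continuousOn_iff'.1 hp₁.diffeo.smX.continuousOn) U hUo
  set Dm : Set (E n) := X₁ ⁻¹' U ∩ D₁ with hDm
  have hDmrel : RelOpen Dm := by
    rw [hO₃e]
    exact hD₁.univ_inter hO₃
  have hXm : MapsTo X₁ Dm U := fun y hy => hy.1
  have hYm : MapsTo Y₁ U Dm := by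
    intro y hy
    refine ⟨?_, hp₁.diffeo.mapsY (hUHB hy)⟩
    show X₁ (Y₁ y) ∈ U
    rw [hp₁.diffeo.inv2 y (hUHB hy)]
    exact hy
  have k1 : IsPull (P.loc q₁) W₁.toLD Dm U X₁ Y₁ S₁ :=
    cModEq_restrict hp₁ inter_subset_right hUHB hXm hYm
  have k2 : IsPull (Q.loc q₂) W₂.toLD Nn U X₂ Y₂ S₂ :=
    cModEq_restrict hp₂ hND₂ hUHB hXU hYN
  have hYτ : ∀ y ∈ U, τ (Y₂ y) = Y₁ y := by
    intro y hy
    have h1 := hX _ (hYN hy)
    rw [hp₂.diffeo.inv2 y (hUHB hy)] at h1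
    have h2 := congrArg Y₁ h1
    rwa [hp₁.diffeo.inv1 _ (hNτ _ (hYN hy))] at h2
  have k3d : IsDiffeo Nn Dm τ (fun y => Y₂ (X₁ y)) := by
    refine ⟨fun y hy => ?_, fun y hy => hYN (hXm hy), fun y hy => ?_, fun y hy => ?_,
      hτs.mono hNB, k2.diffeo.smY.comp k1.diffeo.smX hXm⟩
    · refine ⟨?_, hNτ y hy⟩
      show X₁ (τ y) ∈ U
      rw [hX y hy]
      exact hXU hy
    · show Y₂ (X₁ (τ y)) = y
      rw [hX y hy, hp₂.diffeo.inv1 y (hND₂ hy)]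
    · show τ (Y₂ (X₁ y)) = y
      rw [hYτ _ (hXm hy), hp₁.diffeo.inv1 y hy.2]
  have k3 : IsPull (Q.loc q₂) (P.loc q₁) Nn Dm τ (fun y => Y₂ (X₁ y)) v := by
    refine ⟨k3d, hvs.mono hNB, fun y hy => ?_, fun y hy => hg y (hNB hy),
      fun y hy => hB y (hNB hy), fun y hy => ?_⟩
    · have h1 := hM.unit _ (hmap y (hNB hy)).1
      exact (Unitary.toUnits ⟨_, h1⟩).isUnit
    · have h1 := hM.unit _ (hmap y (hNB hy)).1
      show ContinuousLinearMap.adjoint (v y) * 1 * v y = 1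
      rw [mul_one]
      exact (Unitary.mem_iff.1 h1).1
  have k4 := hComp n N _ _ _ Nn Dm U τ (fun y => Y₂ (X₁ y)) X₁ Y₁ v S₁ hNrel hDmrel hUrel k3 k1
  have k5 := hSymm n N _ _ Nn U _ _ _ hNrel hUrel k4
  have k6 := hSymm n N _ _ Nn U _ _ _ hNrel hUrel k2
  have hYY : EqOn ((fun y => Y₂ (X₁ y)) ∘ Y₁) Y₂ U := by
    intro y hy
    show Y₂ (X₁ (Y₁ y)) = Y₂ y
    rw [hp₁.diffeo.inv2 y (hUHB hy)]
  have key := cModEq_unique hUrel k5 k6 hYY (fun y hy => by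
    show Ring.inverse (v (((fun y => Y₂ (X₁ y)) ∘ Y₁) y) * S₁ (τ (((fun y => Y₂ (X₁ y)) ∘ Y₁) y))) =
      Ring.inverse (S₂ (Y₂ y))
    rw [hYY hy, hSS _ (hNB (hYN hy))])
  refine ⟨U, hUo, hUHB, ⟨X₂ (xc n q₂ x), hXU hxN⟩, ⟨fun y hy => (key y hy).1,
    fun y hy => (key y hy).2.1, fun y hy => (key y hy).2.2, fun y hy a => ?_⟩, fun u hu y hy => ?_⟩
  · have hyN := hYN hy
    have h1 := hc₁ _ (hNτ _ hyN) a
    have h2 := hc₂ _ (hND₂ hyN) a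
    have u1 := hp₁.unit _ (hNτ _ hyN)
    have u2 := hp₂.unit _ (hND₂ hyN)
    have e1 : Ring.inverse (S₂ (Y₂ y)) (lu (𝓡∂ n) q₂ (t a).2 (Y₂ y)) =
        Ring.inverse (S₁ (τ (Y₂ y))) (lu (𝓡∂ n) q₁ (t a).1 (τ (Y₂ y))) := by
      rw [hlu (t a) (ht a) _ (hNB hyN), cModEq_cancel (hSS _ (hNB hyN)) u1 u2]
    rw [h1, h2, hX _ hyN, hp₂.diffeo.inv2 y (hUHB hy)] at e1
    have e2 : ∀ (S : EndF N), IsUnit S → ∀ w : Fib N, Ring.inverse S (S w) = w := by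
      intro S hS w
      show (Ring.inverse S * S) w = w
      rw [Ring.inverse_mul_cancel _ hS]
      rfl
    rw [e2 _ u2, e2 _ u1] at e1
    exact e1.symm
  · have hyN := hYN hy
    have u1 := hp₁.unit _ (hNτ _ hyN)
    have u2 := hp₂.unit _ (hND₂ hyN)
    rw [hlu u hu _ (hNB hyN), cModEq_cancel (hSS _ (hNB hyN)) u1 u2, hYτ y hy]

theorem cClosed : CLim_statement.{u} → CCoord_statement.{u} → CModEq_statement.{u} →
    BModel_statement → BRigInt_statement → LinInt_statement → BSol_statement →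
    CMatch_statement.{u} → Vale.Agent.P088.EYM.CHarm_statement.{u} →
    Vale.Agent.P088.EYM.CUniq_statement.{u} → Vale.Agent.P088.EYM.CLoc_statement.{u} →
    CClosed_statement.{u} := by
  intro hLim hCoord hModEq hBM hRig hLin hBSol hMatch hHarm hU hLoc
  intro n N _ M₁ M₂ _ _ _ _ _ _ _ _ _ _ _ _ _ _ _ _ P Q G κ α β hn hN hG hS hP hQ x₀ hx₀ hcl
  have hb₁ := cClosed_bdry hG.rel₁ hG.ne₁
  have hb₂ := cClosed_bdry hG.rel₂ hG.ne₂
  obtain ⟨x₀', V₀, x, O, φ, V, hx₀', hV₀, hk, hx, hφ, hV, hlim⟩ :=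
    hLim n N M₁ M₂ P Q G hn hN hG hS x₀ hx₀ hcl
  obtain ⟨j0, s, t, hs, ht, hu1, hu2, hd1, hd2, hpos, heq⟩ :=
    hCoord n N M₁ M₂ P Q G x₀ x₀' V₀ x O φ V hn hN hG hS hx₀ hx₀' hV₀ hk hx hφ hV hlim
  have hpos' := hpos
  rw [heq] at hpos'
  have hs1 : ∀ j, ∃ f, P.Harm f (s j).1 := fun j => by
    obtain ⟨f₁, f₂, _, h1, _⟩ := hs j; exact ⟨f₁, h1⟩
  have hs2 : ∀ j, ∃ f, Q.Harm f (s j).2 := fun j => by
    obtain ⟨f₁, f₂, _, _, h1⟩ := hs j; exact ⟨f₂, h1⟩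
  have ht1 : ∀ j, ∃ f, P.Harm f (t j).1 := fun j => by
    obtain ⟨f₁, f₂, _, h1, _⟩ := ht j; exact ⟨f₁, h1⟩
  have ht2 : ∀ j, ∃ f, Q.Harm f (t j).2 := fun j => by
    obtain ⟨f₁, f₂, _, _, h1⟩ := ht j; exact ⟨f₂, h1⟩
  obtain ⟨Y₁, W₁, r₁, hr₁, h₁⟩ := cClosed_model hBM hHarm hU hLoc hN P hP hb₁ j0 hx₀'
    (fun j => (s j).1) (fun a => (t a).1) hs1 ht1 hu1 hd1 hpos
  obtain ⟨Y₂, W₂, r₂, hr₂, h₂⟩ := cClosed_model hBM hHarm hU hLoc hN Q hQ hb₂ j0 hx₀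
    (fun j => (s j).2) (fun a => (t a).2) hs2 ht2 hu2 hd2 hpos'
  rw [← heq] at h₂
  set ζ := Xco j0 (frm n x₀' fun j => (s j).1) (fun a => lu (𝓡∂ n) x₀' (t a).1)
    (xc n x₀' x₀') with hζ
  obtain ⟨r, hr, hra, hrb, hrc⟩ : ∃ r, 0 < r ∧ r ≤ r₁ ∧ r ≤ r₂ ∧ r ≤ ζ 0 :=
    ⟨min (min r₁ r₂) (ζ 0), lt_min (lt_min hr₁ hr₂) hpos,
      (min_le_left _ _).trans (min_le_left _ _), (min_le_left _ _).trans (min_le_right _ _),
      min_le_right _ _⟩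
  obtain ⟨D₁, hD₁s, hD₁, hz₁, hpull₁, hmod₁, hc₁⟩ := h₁ r hr hra
  obtain ⟨D₂, hD₂s, hD₂, hz₂, hpull₂, hmod₂, hc₂⟩ := h₂ r hr hrb
  obtain ⟨hHB, hHBpos⟩ := cClosed_HB (n := n) hrc
  have hHBo : RelOpen (HB ζ r) := cClosed_relOpen_HB ζ r
  have hHBopen : IsOpen (HB ζ r) := by rw [hHB]; exact Metric.isOpen_ball
  have hHBpre : IsPreconnected (HB ζ r) := by
    rw [hHB]; exact (convex_ball ζ r).isPreconnected
  -- a large index
  have ev1 : ∀ᶠ k in atTop, x k ∈ (xc n x₀).source ∧ xc n x₀ (x k) ∈ D₂ := by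
    have e1 : ∀ᶠ k in atTop, x k ∈ (xc n x₀).source :=
      hx.eventually ((isOpen_extChartAt_source x₀).mem_nhds (mem_extChartAt_source x₀))
    have e2 : Tendsto (fun k => xc n x₀ (x k)) atTop (𝓝 (xc n x₀ x₀)) :=
      (continuousAt_extChartAt x₀).tendsto.comp hx
    obtain ⟨O₂, hO₂, rfl⟩ := hD₂
    have e3 := e2.eventually (hO₂.mem_nhds hz₂.1)
    filter_upwards [e1, e3] with k h1 h3
    refine ⟨h1, h3, ?_⟩
    exact ((hLoc n N M₂).1 x₀).subset ((xc n x₀).map_source h1)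
  have ev2 : ∀ᶠ k in atTop, φ k (x k) ∈ (xc n x₀').source ∧ xc n x₀' (φ k (x k)) ∈ D₁ := by
    have e1 : ∀ᶠ k in atTop, φ k (x k) ∈ (xc n x₀').source :=
      hφ.eventually ((isOpen_extChartAt_source x₀').mem_nhds (mem_extChartAt_source x₀'))
    have e2 : Tendsto (fun k => xc n x₀' (φ k (x k))) atTop (𝓝 (xc n x₀' x₀')) :=
      (continuousAt_extChartAt x₀').tendsto.comp hφ
    obtain ⟨O₂, hO₂, rfl⟩ := hD₁
    have e3 := e2.eventually (hO₂.mem_nhds hz₁.1)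
    filter_upwards [e1, e3] with k h1 h3
    refine ⟨h1, h3, ?_⟩
    exact ((hLoc n N M₁).1 x₀').subset ((xc n x₀').map_source h1)
  obtain ⟨k, ⟨hk1, hk2⟩, hk3, hk4⟩ := (ev1.and ev2).exists
  obtain ⟨U, hUo, hUs, hUn, hUeq, hUu⟩ := hModEq n N M₁ M₂ P Q G j0 s t x₀' x₀ ζ r W₁ W₂ D₁ D₂ Y₁ Y₂
    hs ht hD₁ hD₂ hD₁s hD₂s hpull₁ hpull₂ hc₁ hc₂ (O k) (φ k) (V k) (hk k).1 (x k) (hk k).2
    hk1 hk2 hk3 hk4
  have hEq : EqOnM W₁ W₂ (HB ζ r) :=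
    hRig n N κ α β j0 W₁ W₂ (HB ζ r) hn hHBopen hHBpos hHBpre hmod₁ hmod₂ U hUo hUs hUn hUeq
  have hL₁ : (P.loc x₀').Ok D₁ := by
    have := (hLoc n N M₁).2.1 P x₀'
    exact ⟨fun i j => (this.g_smooth i j).mono hD₁s, fun y hy => this.g_pos y (hD₁s hy),
      fun i => (this.B_smooth i).mono hD₁s, this.h_smooth.mono hD₁s,
      fun y hy => this.h_adj y (hD₁s hy), fun y hy => this.h_pos y (hD₁s hy),
      fun y hy => this.compat y (hD₁s hy)⟩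
  have hL₂ : (Q.loc x₀).Ok D₂ := by
    have := (hLoc n N M₂).2.1 Q x₀
    exact ⟨fun i j => (this.g_smooth i j).mono hD₂s, fun y hy => this.g_pos y (hD₂s hy),
      fun i => (this.B_smooth i).mono hD₂s, this.h_smooth.mono hD₂s,
      fun y hy => this.h_adj y (hD₂s hy), fun y hy => this.h_pos y (hD₂s hy),
      fun y hy => this.compat y (hD₂s hy)⟩
  have hsec : ∀ u ∈ PP P Q G, ∀ y ∈ HB ζ r,
      Ring.inverse (frm n x₀' (fun j => (s j).1) (Y₁ y)) (lu (𝓡∂ n) x₀' u.1 (Y₁ y)) =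
      Ring.inverse (frm n x₀ (fun j => (s j).2) (Y₂ y)) (lu (𝓡∂ n) x₀ u.2 (Y₂ y)) := by
    intro u hu
    obtain ⟨f₁, f₂, hff, hf1, hf2⟩ := hu
    have a1 : Sol (P.loc x₀') D₁ (lu (𝓡∂ n) x₀' u.1) := by
      have := hHarm n N M₁ P f₁ _ hf1 x₀'
      exact ⟨this.1.mono hD₁s, fun y hy => this.2 y (hD₁s hy)⟩
    have a2 : Sol (Q.loc x₀) D₂ (lu (𝓡∂ n) x₀ u.2) := by
      have := hHarm n N M₂ Q f₂ _ hf2 x₀
      exact ⟨this.1.mono hD₂s, fun y hy => this.2 y (hD₂s hy)⟩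
    have b1 := cClosed_tr hBSol hD₁ hHBo hL₁ hmod₁.ok hpull₁ a1
    have b2 := cClosed_tr hBSol hD₂ hHBo hL₂ hmod₂.ok hpull₂ a2
    have b3 : Sol W₁.toLD (HB ζ r)
        (fun y => Ring.inverse (frm n x₀ (fun j => (s j).2) (Y₂ y)) (lu (𝓡∂ n) x₀ u.2 (Y₂ y))) :=
      cClosed_sol_congr hHBo hEq.g hEq.B (fun _ _ => rfl) b2
    have b4 := cClosed_sol_sub hHBo hmod₁.ok b1 b3
    have b5 := hLin n N W₁.toLD (HB ζ r) hHBopen inter_subset_right hmod₁.ok hHBpre _ b4 U hUo hUs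
      hUn (fun y hy => sub_eq_zero.2 (hUu u ⟨f₁, f₂, hff, hf1, hf2⟩ y hy))
    intro y hy
    exact sub_eq_zero.1 (b5 y hy)
  obtain ⟨O', φ', V', hM, hO'⟩ := hMatch n N M₁ M₂ P Q G x₀' x₀ ζ r W₁.toLD W₂.toLD D₁ D₂ _ Y₁ _ Y₂ _ _
    hD₁ hD₂ hD₁s hD₂s hpull₁ hpull₂ hEq.g hEq.B hEq.h hsec
  refine ⟨O', φ', V', hM, ?_⟩
  have := hO' (xc n x₀ x₀) hz₂ (cClosed_pos hLoc hx₀)
  rwa [extChartAt_to_inv] at this

section glob

variable {n N : ℕ} [NeZero n] {M₁ M₂ : Type u}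
  [TopologicalSpace M₁] [ChartedSpace (EuclideanHalfSpace n) M₁] [IsManifold (𝓡∂ n) ∞ M₁]
  [TopologicalSpace M₂] [ChartedSpace (EuclideanHalfSpace n) M₂] [IsManifold (𝓡∂ n) ∞ M₂]
  [MeasurableSpace M₁] [MeasurableSpace M₂]

theorem cGlobal_congr {P : One n N M₁} {Q : One n N M₂} {G : Gl M₁ M₂} {O : Set M₂}
    {φ φ' : M₂ → M₁} {V V' : M₂ → EndF N} (h : LMatch P Q G O φ V) (h1 : ∀ x ∈ O, φ' x = φ x) (h2 : ∀ x ∈ O, V' x = V x) :
    LMatch P Q G O φ' V' := by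
  have hev : ∀ x ∈ O, φ' =ᶠ[𝓝 x] φ := fun x hx => by
    filter_upwards [h.isOpen.mem_nhds hx] with y hy using h1 y hy
  have hevV : ∀ x ∈ O, V' =ᶠ[𝓝 x] V := fun x hx => by
    filter_upwards [h.isOpen.mem_nhds hx] with y hy using h2 y hy
  refine ⟨h.isOpen, h.sub, fun x hx => ?_, h.smφ.congr h1, h.smV.congr h2, fun x hx => ?_,
    fun x hx v w => ?_, fun x hx v => ?_, fun u hu x hx => ?_⟩
  · rw [h1 x hx]; exact h.maps hx
  · rw [h2 x hx]; exact h.unit x hx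
  · have e1 := h.met x hx v w
    have e2 : (mfderiv (𝓡∂ n) (𝓡∂ n) φ' x : E n →L[ℝ] E n) =
        (mfderiv (𝓡∂ n) (𝓡∂ n) φ x : E n →L[ℝ] E n) := (hev x hx).mfderiv_eq
    change cGlobal_gI Q.g x v w = cGlobal_gI P.g (φ' x)
      ((mfderiv (𝓡∂ n) (𝓡∂ n) φ' x : E n →L[ℝ] E n) v)
      ((mfderiv (𝓡∂ n) (𝓡∂ n) φ' x : E n →L[ℝ] E n) w)
    rw [e2, h1 x hx]
    exact e1
  · have e1 := h.con x hx v
    have e2 : (mfderiv (𝓡∂ n) (𝓡∂ n) φ' x : E n →L[ℝ] E n) =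
        (mfderiv (𝓡∂ n) (𝓡∂ n) φ x : E n →L[ℝ] E n) := (hev x hx).mfderiv_eq
    have e3 : (dmap (𝓡∂ n) V' x : E n →L[ℝ] EndF N) = (dmap (𝓡∂ n) V x : E n →L[ℝ] EndF N) := by
      unfold dmap
      exact (hevV x hx).mfderiv_eq
    change (dmap (𝓡∂ n) V' x : E n →L[ℝ] EndF N) v + Q.A.form x v ∘L V' x =
      V' x ∘L cGlobal_aI P.A (φ' x) ((mfderiv (𝓡∂ n) (𝓡∂ n) φ' x : E n →L[ℝ] E n) v)
    rw [e2, e3, h1 x hx, h2 x hx]
    exact e1
  · rw [h1 x hx, h2 x hx]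
    exact h.sol u hu x hx

variable [T2Space M₁] [CompactSpace M₁] [ConnectedSpace M₁] [BorelSpace M₁]
  [T2Space M₂] [CompactSpace M₂] [ConnectedSpace M₂] [BorelSpace M₂]

/-- pairs of solutions with prescribed values of the first component -/
theorem cGlobal_values (hR : Vale.Agent.P088.EYM.CRunge_statement.{u}) {P : One n N M₁}
    {Q : One n N M₂} {G : Gl M₁ M₂} (hn : 2 ≤ n) (hG : G.Ok n N) (hP : P.HasSol G.Γ₁)
    (hQ : Q.HasSol G.Γ₂) {x x' : M₁}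
    (hx : x ∈ Mi n M₁) (hx' : x' ∈ Mi n M₁) (hne : x ≠ x') (a a' : Fib N) :
    ∃ u ∈ PP P Q G, u.1 x = a ∧ u.1 x' = a' := by
  obtain ⟨u, ⟨f, hf, hu⟩, h1, h2⟩ := hR n N M₁ P G.Γ₁ x x' a a' (fun _ => 0) (fun _ => 0) hn
    hG.rel₁ hG.ne₁ hP hx hx' hne
  obtain ⟨f₂, hf₂, hff⟩ := hG.ext f hf
  obtain ⟨w, hw⟩ := hQ f₂ hf₂
  exact ⟨(u, w), ⟨f, f₂, ⟨hf, hf₂, hff⟩, hu, hw⟩, h1.1, h2.1⟩

/-- the uniqueness statement (U) -/
theorem cGlobal_uniq (hR : Vale.Agent.P088.EYM.CRunge_statement.{u})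
    (hC : Vale.Agent.P088.EYM.CConn_statement.{u}) {P : One n N M₁}
    {Q : One n N M₂} {G : Gl M₁ M₂} (hn : 2 ≤ n) (hN : 0 < N) (hG : G.Ok n N)
    (hP : P.HasSol G.Γ₁) (hQ : Q.HasSol G.Γ₂) {a a' : M₁} (ha : a ∈ Mi n M₁) (ha' : a' ∈ Mi n M₁)
    {V V' : EndF N} (hV : V ∈ unitary (EndF N)) (h : ∀ u ∈ PP P Q G, V (u.1 a) = V' (u.1 a')) :
    a = a' ∧ V = V' := by
  have haa : a = a' := by
    by_contra hne
    let e : Fib N := EuclideanSpace.single ⟨0, hN⟩ (1 : ℂ)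
    obtain ⟨u, hu, h1, h2⟩ := cGlobal_values hR hn hG hP hQ ha ha' hne e 0
    have h3 := h u hu
    rw [h1, h2, map_zero] at h3
    have h4 := cGlobal_unit hV h3
    have h5 := congrArg (fun z : Fib N => z ⟨0, hN⟩) h4
    simp only [PiLp.single_eq_same, PiLp.zero_apply, one_ne_zero, e] at h5
  refine ⟨haa, ?_⟩
  subst haa
  obtain ⟨b, hb, hne⟩ := cGlobal_second hC hG.rel₁ hG.ne₁ a ha
  ext1 e
  obtain ⟨u, hu, h1, _⟩ := cGlobal_values hR hn hG hP hQ ha hb (Ne.symm hne) e 0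
  have h3 := h u hu
  rwa [h1] at h3

/-- gluing of the local matches -/
theorem cGlobal_glue (hR : Vale.Agent.P088.EYM.CRunge_statement.{u})
    (hC : Vale.Agent.P088.EYM.CConn_statement.{u}) {P : One n N M₁}
    {Q : One n N M₂} {G : Gl M₁ M₂} (hn : 2 ≤ n) (hN : 0 < N) (hG : G.Ok n N)
    (hP : P.HasSol G.Γ₁) (hQ : Q.HasSol G.Γ₂) (hGd : ∀ x ∈ Mi n M₂, x ∈ Gd P Q G) :
    ∃ (Φ : M₂ → M₁) (V : M₂ → EndF N), ∀ x ∈ Mi n M₂, ∃ O, x ∈ O ∧ LMatch P Q G O Φ V := by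
  classical
  obtain ⟨p₁, -⟩ := hG.ne₁
  have hG' : ∀ x : M₂, ∃ (O : Set M₂) (φ : M₂ → M₁) (V : M₂ → EndF N), x ∈ Mi n M₂ →
      (LMatch P Q G O φ V ∧ x ∈ O) := by
    intro x
    by_cases hx : x ∈ Mi n M₂
    · obtain ⟨O, φ, V, h1⟩ := hGd x hx
      exact ⟨O, φ, V, fun _ => h1⟩
    · exact ⟨∅, fun _ => p₁, fun _ => 1, fun h => absurd h hx⟩
  choose O φ V hOV using hG'
  refine ⟨fun x => φ x x, fun x => V x x, fun x hx => ⟨O x, (hOV x hx).2, ?_⟩⟩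
  have hm := (hOV x hx).1
  have key : ∀ y ∈ O x, φ y y = φ x y ∧ V y y = V x y := by
    intro y hy
    have hyM : y ∈ Mi n M₂ := hm.sub hy
    have hmy := (hOV y hyM).1
    have hyy := (hOV y hyM).2
    refine cGlobal_uniq hR hC hn hN hG hP hQ (hmy.maps hyy) (hm.maps hy) (hmy.unit y hyy) ?_
    intro u hu
    rw [← hmy.sol u hu y hyy, ← hm.sol u hu y hy]
  exact cGlobal_congr hm (fun y hy => (key y hy).1) (fun y hy => (key y hy).2)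

/-- all interior points are good -/
theorem cGlobal_good (hNear : CNear_statement.{u}) (hCl : CClosed_statement.{u})
    (hC : Vale.Agent.P088.EYM.CConn_statement.{u}) {P : One n N M₁}
    {Q : One n N M₂} {G : Gl M₁ M₂} {κ₁ κ₂ α β : ℝ} (hn : 3 ≤ n) (hN : 0 < N) (hG : G.Ok n N)
    (hS : SameD P Q G) (h1 : EYMm κ₁ α β P.g P.A) (h2 : EYMm κ₂ α β Q.g Q.A) :
    κ₁ = κ₂ ∧ ∀ x ∈ Mi n M₂, x ∈ Gd P Q G := by
  obtain ⟨rfl, O, φ, V, hm, hne⟩ := hNear n N M₁ M₂ P Q G κ₁ κ₂ α β hn hN hG hS h1 h2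
  have hopen : IsOpen (Gd P Q G) := by
    rw [isOpen_iff_mem_nhds]
    rintro x ⟨O', φ', V', hm', hx⟩
    filter_upwards [hm'.isOpen.mem_nhds hx] with y hy using ⟨O', φ', V', hm', hy⟩
  have hpre := (hC n M₂).2.1
  have hsub : Mi n M₂ ⊆ Gd P Q G := by
    refine hpre.subset_of_closure_inter_subset hopen ?_ ?_
    · obtain ⟨x, hx⟩ := hne
      exact ⟨x, hm.sub hx, O, φ, V, hm, hx⟩
    · rintro x ⟨hx1, hx2⟩
      exact hCl n N M₁ M₂ P Q G κ₁ α β hn hN hG hS h1 h2 x hx2 hx1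
  exact ⟨rfl, hsub⟩

end glob

theorem cGlobal : CNear_statement.{u} → CClosed_statement.{u} →
    Vale.Agent.P088.EYM.CRunge_statement.{u} → CData_statement.{u} →
    Vale.Agent.P088.EYM.CConn_statement.{u} → Vale.Agent.P088.EYM.CUniq_statement.{u} →
    CGlobal_statement.{u} := by
  intro hNear hCl hR hD hC _ n N _ M₁ M₂ _ _ _ _ _ _ _ _ _ _ _ _ _ _ _ _ P Q G κ₁ κ₂ α β hn hN hG
    hS h1 h2
  have hn2 : 2 ≤ n := le_trans (by norm_num) hn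
  obtain ⟨⟨hP, hQ, hS'⟩, _⟩ := hD n N M₁ M₂ P Q G hG hS
  have hG1 := cGlobal_good hNear hCl hC hn hN hG hS h1 h2
  have hG2 := cGlobal_good hNear hCl hC hn hN hG.symm hS' h2 h1
  obtain ⟨Φ, V, hΦ⟩ := cGlobal_glue hR hC hn2 hN hG hP hQ hG1.2
  obtain ⟨Ψ, V', hΨ⟩ := cGlobal_glue hR hC hn2 hN hG.symm hQ hP hG2.2
  refine ⟨hG1.1, Φ, Ψ, V, V', hΦ, hΨ, ?_, ?_⟩
  · intro x hx
    obtain ⟨O', hx', hm'⟩ := hΨ x hx
    have hy : Ψ x ∈ Mi n M₂ := hm'.maps hx'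
    obtain ⟨O, hyO, hm⟩ := hΦ (Ψ x) hy
    refine (cGlobal_uniq hR hC (P := P) (Q := Q) hn2 hN hG hP hQ hx (hm.maps hyO)
      (V := 1) (V' := V' x * V (Ψ x)) (one_mem _) ?_).1.symm
    intro u hu
    have e1 := hm'.sol _ (PP_swap hG hu) x hx'
    have e2 := hm.sol u hu (Ψ x) hyO
    change u.1 x = V' x (u.2 (Ψ x)) at e1
    change u.1 x = V' x (V (Ψ x) (u.1 (Φ (Ψ x))))
    rw [← e2]
    exact e1
  · intro x hx
    obtain ⟨O, hx', hm⟩ := hΦ x hx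
    have hy : Φ x ∈ Mi n M₁ := hm.maps hx'
    obtain ⟨O', hyO, hm'⟩ := hΨ (Φ x) hy
    refine (cGlobal_uniq hR hC (P := Q) (Q := P) hn2 hN hG.symm hQ hP hx (hm'.maps hyO)
      (V := 1) (V' := V x * V' (Φ x)) (one_mem _) ?_).1.symm
    intro u hu
    have e1 := hm.sol _ (PP_swap hG.symm hu) x hx'
    have e2 := hm'.sol u hu (Φ x) hyO
    change u.1 x = V x (u.2 (Φ x)) at e1
    change u.1 x = V x (V' (Φ x) (u.1 (Ψ (Φ x))))
    rw [← e2]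
    exact e1

end Vale.Agent.P088.TM
end
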