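import Vale.Agent.P088.TM.H275N
import Vale.Agent.P088.TM.H823
import Vale.Agent.P088.TM.Data
import Vale.Agent.P088.TM.H332P
import Vale.Agent.P088.TM.H332F

/-!
# P088, two manifolds: determination on an open set, all modules
-/

open Bundle Manifold MeasureTheory Set Filter Topology
open scoped ContDiff

noncomputable section

set_option linter.all false

namespace Vale.Agent.P088.TM

open Vale.Agent.P088.EYM hiding CUnm_statement LMatch CCont_statement CReg_statement CDiff_statement cCont cReg cDiff cDiff_ext PP SameD Gd CData_statement CMatch_statement CNear_statement CLim_statement CCoord_statement CModEq_statement CClosed_statement CGlobal_statement CChart_statement CTensor_statement wGlue wInj wClosed cUnm cMatch cChart cData cLim cCoord cModEq cClosed cGlobal cNear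

universe u

theorem wNear : WNear_statement.{u} := by
  intro n N _ M₁ M₂ _ _ _ _ _ _ _ _ _ _ _ _ _ _ _ _ P Q G κ₁ κ₂ α β hn hN hG hS W₁ W₂ hW₁ hW₂
    hP hQ x hx hxW₂ hxW₁
  obtain ⟨q₁, q₂, z, r, D, θ, τ, L₂, hz0, hr, hHB, hD, hDW, hB₁, hB₂, hpull, heq, hfl⟩ :=
    exists_pcW hN P Q hG hW₁ hW₂ hx hxW₂ hxW₁
  have hzm : z ∈ HB z r := cSetup_mem_HB hz0 hr
  have hPC : PC P Q G (xc n q₁).symm (fun y => (xc n q₂).symm (τ y)) (P.loc q₁) L₂ (HB z r) :=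
    ⟨hB₁, hB₂, fun y hy hy0 => (hfl y hy hy0).1, fun y hy hy0 => (hfl y hy hy0).2.2.1,
      fun y hy hy0 => (hfl y hy hy0).2.2.2⟩
  obtain ⟨hκ, z', hz', hz'0, O, φ, V, hO, hev⟩ := pcMatch hPC (hHB.trans (tgW_sub W₁ q₁)) hD
    (hDW.trans (tgW_sub W₂ q₂)) hpull hG hS hn hN hzm hz0 κ₁ κ₂ α β
    (eym_mono (hP q₁) hHB) (heq _ _ _ (hQ q₂))
  exact ⟨hκ, _, ⟨hPC.m2 z' hz' hz'0, (hDW (hpull.diffeo.mapsY hz')).2⟩, O, φ, V, hO, hev⟩

theorem gData : TM.CData_statement.{u} := TM.cData fUniq fForm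
theorem gUnm : TM.CUnm_statement.{u} := TM.cUnm TM.cChart fLoc
theorem gMatch : TM.CMatch_statement.{u} := TM.cMatch bSymm bComp bIntr TM.cChart fLoc

section

variable {n N : ℕ} [NeZero n] {M₁ M₂ : Type u}
  [TopologicalSpace M₁] [ChartedSpace (EuclideanHalfSpace n) M₁]
  [IsManifold (𝓡∂ n) ∞ M₁] [T2Space M₁] [CompactSpace M₁] [ConnectedSpace M₁]
  [MeasurableSpace M₁] [BorelSpace M₁] [TopologicalSpace M₂]
  [ChartedSpace (EuclideanHalfSpace n) M₂]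
  [IsManifold (𝓡∂ n) ∞ M₂] [T2Space M₂] [CompactSpace M₂] [ConnectedSpace M₂]
  [MeasurableSpace M₂] [BorelSpace M₂]

/-- Determination near the patch. -/
theorem wLocal' (P : One n N M₁) (Q : One n N M₂) (G : Gl M₁ M₂) (κ₁ κ₂ α β : ℝ) (hn : 3 ≤ n)
    (hN : 0 < N) (hG : G.Ok n N) (hS : TM.SameD P Q G) {W₁ : Set M₁} {W₂ : Set M₂}
    (hW₁ : IsOpen W₁) (hW₂ : IsOpen W₂) (hP : EYMw κ₁ α β P W₁) (hQ : EYMw κ₂ α β Q W₂) {x : M₂}
    (hx : x ∈ G.Γ₂) (hxW₂ : x ∈ W₂) (hxW₁ : G.ψ x ∈ W₁) :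
    κ₁ = κ₂ ∧ ∃ W ⊆ W₂, IsOpen W ∧ (W ∩ G.Γ₂).Nonempty ∧
      ∃ (F : M₂ → M₁) (H : M₂ → EndF N), WMatch P Q G W F H :=
  wLocal wNear aExtSys bChr gUnm fLoc fConn TM.cChart fRunge gData P Q G κ₁ κ₂ α β hn hN hG hS
    hW₁ hW₂ hP hQ hx hxW₂ hxW₁

/-- Determination on a connected open set which meets the patch. -/
theorem wMain' (P : One n N M₁) (Q : One n N M₂) (G : Gl M₁ M₂) (κ₁ κ₂ α β : ℝ) (hn : 3 ≤ n)
    (hN : 0 < N) (hG : G.Ok n N) (hS : TM.SameD P Q G) {W : Set M₂} (hW : IsOpen W)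
    (hWc : IsPreconnected W) (hne : (W ∩ G.Γ₂).Nonempty) (hP : EYMw κ₁ α β P univ)
    (hQ : EYMw κ₂ α β Q W) :
    κ₁ = κ₂ ∧ ∃ (F : M₂ → M₁) (H : M₂ → EndF N), WMatch P Q G W F H :=
  wMain wNear (TM.cLim fRunge gData fLoc fConn) (TM.cCoord fRunge gUnm gData fUniq fLoc fConn)
    (TM.cModEq gUnm bIntr bSymm bComp) bModel fRigInt fLinInt bSol gMatch fHarm fUniq aExtSys bChr
    gUnm fLoc fConn TM.cChart fRunge gData P Q G κ₁ κ₂ α β hn hN hG hS hW hWc hne hP hQ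

end

end Vale.Agent.P088.TM
end
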