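import Vale.Agent.P088.TM.St2

/-!
# P088: the elementary statement on open sets
-/

open Manifold MeasureTheory Set
open scoped ContDiff Matrix

noncomputable section

namespace Vale.Agent.P088.B2

open Vale.Agent.P088.B

universe u

variable {n N : ℕ} {M M₁ M₂ : Type u} {Z : At n M} {Z₁ : At n M₁} {Z₂ : At n M₂}

/-- The equations of `EYM` hold at the points of `W`: in every chart,
`Ric = κ g + α T + β (tr_g T) g` and `d_A^* F_A = 0`. -/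
def EYMOn (κ α β : ℝ) (W : Set M) (P : Pair Z N) : Prop :=
  ∀ p, ∀ x ∈ Z.src p ∩ W, Eqs κ α β (gch Z P.g p) (ach Z P.A p) (Z.ch p x)

variable (Z₁ Z₂) in
/-- `Φ : M₂ → M₁` is smooth on the open set `W`: it is continuous on `W` and its coordinates are
smooth functions there. -/
def SmMapOn (W : Set M₂) (Φ : M₂ → M₁) : Prop :=
  @ContinuousOn M₂ M₁ Z₂.top Z₁.top Φ W ∧
    ∀ p i, Z₂.sm (W ∩ Φ ⁻¹' Z₁.src p) (fun x => Z₁.ch p (Φ x) i)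

/-- `g₂ = Φ^* g₁` and `A₂ = U⁻¹ (Φ^* A₁) U + U⁻¹ dU` on the open set `W`, for `Φ : W → M₁` and
`U : W → U(N)` smooth with `Φ = ψ`, `U = I` on `W ∩ Γ₂`. `Φ` maps the boundary points of `W`, and
only these, to `∂M₁`, and it is injective on the union of the interior of `W` and of `W ∩ Γ₂`; and
`u_f ∘ Φ = U u_{f ∘ ψ}` on `W` for all `f ∈ C_c^∞(Γ₁; ℂ^N)`. -/
def RelOn (W : Set M₂) (Γ₁ : Set M₁) (Γ₂ : Set M₂) (ψ : M₂ → M₁) (P : Pair Z₁ N)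
    (Q : Pair Z₂ N) (Φ : M₂ → M₁) (U : M₂ → Matrix (Fin N) (Fin N) ℂ) : Prop :=
  SmMapOn Z₁ Z₂ W Φ ∧ InjOn Φ (W \ (bd Z₂ \ Γ₂)) ∧ (∀ x ∈ W, Φ x ∈ bd Z₁ ↔ x ∈ bd Z₂) ∧
    (∀ a b, Z₂.sm W (fun x => U x a b)) ∧ (∀ x ∈ W, (U x)ᴴ * U x = 1) ∧
    (∀ x ∈ W ∩ Γ₂, Φ x = ψ x ∧ U x = 1) ∧
    (∀ x ∈ W, let J := jac₂ Z₁ Z₂ Φ x
      Q.g x = Jᵀ * P.g (Φ x) * J ∧ ∀ j, Q.A x j = (U x)ᴴ *
        ((∑ i, J i j • P.A (Φ x) i) * U x + dM (fun y => U (pt Z₂ x y)) (Z₂.ch x x) j)) ∧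
    ∀ f₁ f₂ u₁ u₂, Corr Z₁ Z₂ Γ₁ Γ₂ ψ f₁ f₂ → Harm P f₁ u₁ → Harm Q f₂ u₂ →
      ∀ x ∈ W, u₁ (Φ x) = U x *ᵥ u₂ x

/-- The conclusion on the open set `W`: there are `Φ` and `U` as in `RelOn`, and they are uniquely
determined on `W`. -/
def RelatedOn (W : Set M₂) (Γ₁ : Set M₁) (Γ₂ : Set M₂) (ψ : M₂ → M₁) (P : Pair Z₁ N)
    (Q : Pair Z₂ N) : Prop :=
  ∃ Φ U, RelOn W Γ₁ Γ₂ ψ P Q Φ U ∧
    ∀ Φ' U', RelOn W Γ₁ Γ₂ ψ P Q Φ' U' → ∀ x ∈ W, Φ' x = Φ x ∧ U' x = U x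

end Vale.Agent.P088.B2
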