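import Vale.Agent.P088.TM.H332D
import Vale.Agent.P088.TM.H332N
import Vale.Agent.P088.TM.H332B
import Vale.Agent.P088.TM.BrU
import Vale.Agent.P088.TM.St3

/-!
# P088: determination on open sets, from the abstract theorem to the elementary statement
-/

open Bundle Manifold MeasureTheory Set Filter
open scoped ContDiff Matrix Topology ENNReal

noncomputable section

set_option linter.all false

namespace Vale.Agent.P088.B2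

open Vale.Agent.P088 Vale.Agent.P088.B

universe u

section Jac

variable {n : ℕ} [NeZero n] {N : ℕ} {M₁ M₂ : Type u}
  [TopologicalSpace M₁] [ChartedSpace (EuclideanHalfSpace n) M₁] [IsManifold (𝓡∂ n) ∞ M₁]
  [TopologicalSpace M₂] [ChartedSpace (EuclideanHalfSpace n) M₂] [IsManifold (𝓡∂ n) ∞ M₂]

theorem dI_ofE_at {U : M₂ → EndF N} {x : M₂} (hU : MDifferentiableAt (𝓡∂ n) 𝓘(ℝ, EndF N) U x)
    (i : Fin n) :
    S.ofE (dI (𝓡∂ n) U x (es n i)) =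
      Matrix.of fun a b => S.pd n (fun z => S.ofE (U z) a b) x i := by
  ext a b
  have h1 := TM.wd_clm (S.ent a b) hU (es n i)
  have h2 : MDifferentiableAt (𝓡∂ n) 𝓘(ℝ, ℂ) (fun z => S.ofE (U z) a b) x :=
    ((S.ent (N := N) a b).differentiableAt (x := U x)).mdifferentiableAt.comp x hU
  rw [Matrix.of_apply, S.pd_eq h2]
  exact h1.symm

theorem lgd_ofE_at {U : M₂ → EndF N} {x : M₂} (hU : MDifferentiableAt (𝓡∂ n) 𝓘(ℝ, EndF N) U x)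
    (j : Fin n) : S.toE (S.lgd n (fun x => S.ofE (U x)) x j) =
      ContinuousLinearMap.adjoint (U x) * dI (𝓡∂ n) U x (es n j) := by
  unfold S.lgd
  rw [S.toE_mul, S.toE_star, S.toE_ofE, ← dI_ofE_at hU, S.toE_ofE]

theorem con₂_at {P : S.Pair n N M₁} {Q : S.Pair n N M₂} {Φ : M₂ → M₁} {U : M₂ → EndF N} {x : M₂}
    (hU : MDifferentiableAt (𝓡∂ n) 𝓘(ℝ, EndF N) U x)
    (hΦ : MDifferentiableAt (𝓡∂ n) (𝓡∂ n) Φ x)
    (h : ∀ v : TangentSpace (𝓡∂ n) x, (S.connOf Q).form x v =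
      TM.gf2 (S.connOf P) Φ U x v) (j : Fin n) :
    Q.co x j = (S.ofE (U x))ᴴ *
      (∑ i, jac₂ (at_ n M₁) (at_ n M₂) Φ x i j • P.co (Φ x) i) * S.ofE (U x) +
      S.lgd n (fun x => S.ofE (U x)) x j := by
  apply S.toE_inj
  have h3 : S.toE (∑ i, jac₂ (at_ n M₁) (at_ n M₂) Φ x i j • P.co (Φ x) i) =
      (S.connOf P).form (Φ x) (D2 Φ x (es n j)) := by
    show _ = S.formOf (P.co (Φ x)) (D2 Φ x (es n j))
    rw [S.formOf_apply, S.toE_rsum]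
    simp only [jac₂_eq hΦ]
  rw [S.toE_add, lgd_ofE_at hU, S.toE_mul, S.toE_mul, S.toE_star, S.toE_ofE, h3, ← S.connOf_es]
  have h1 := h (es n j)
  unfold TM.gf2 at h1
  rw [mul_assoc]
  exact h1

theorem map₂_on {Φ : M₂ → M₁} {W : Set M₂} (hΦ : ContMDiffOn (𝓡∂ n) (𝓡∂ n) ∞ Φ W) :
    SmMapOn (at_ n M₁) (at_ n M₂) W Φ := by
  refine ⟨hΦ.continuousOn, fun p i => ?_⟩
  have h1 : ContMDiffOn (𝓡∂ n) 𝓘(ℝ, EuclideanSpace ℝ (Fin n)) ∞ (extChartAt (𝓡∂ n) p)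
      (chartAt (EuclideanHalfSpace n) p).source := contMDiffOn_extChartAt
  have h2 : ContMDiffOn (𝓡∂ n) 𝓘(ℝ, EuclideanSpace ℝ (Fin n)) ∞
      (fun x => extChartAt (𝓡∂ n) p (Φ x))
      (W ∩ Φ ⁻¹' (chartAt (EuclideanHalfSpace n) p).source) :=
    h1.comp (hΦ.mono inter_subset_left) (fun x hx => hx.2)
  have h3 := (Complex.ofRealCLM.comp
    (EuclideanSpace.proj (𝕜 := ℝ) i : EuclideanSpace ℝ (Fin n) →L[ℝ] ℝ)).contMDiff.comp_contMDiffOn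
      (n := ∞) h2
  exact h3

/-- From the abstract relation on `W` to the elementary one. -/
theorem relOn_of {P : Pair (at_ n M₁) N} {Q : Pair (at_ n M₂) N} {Γ₁ : Set M₁} {Γ₂ : Set M₂}
    {ψ : M₂ → M₁} {χ : M₁ → M₂} {W : Set M₂} (hW : IsOpen W) {F : M₂ → M₁} {H : M₂ → EndF N}
    (hM : @TM.WMatch n N _ M₁ M₂ _ _ _ (borel M₁) _ _ _ (borel M₂) (one P) (one Q)
      ⟨Γ₁, Γ₂, ψ, χ⟩ W F H) :
    RelOn W Γ₁ Γ₂ ψ P Q F (fun x => S.ofE (ContinuousLinearMap.adjoint (H x))) := by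
  let _ : MeasurableSpace M₁ := borel M₁
  let _ : MeasurableSpace M₂ := borel M₂
  have hb₁ : bd (at_ n M₁) = (𝓡∂ n).boundary M₁ := bd_at
  have hb₂ : bd (at_ n M₂) = (𝓡∂ n).boundary M₂ := bd_at
  have hFd : ∀ x ∈ W, MDifferentiableAt (𝓡∂ n) (𝓡∂ n) F x := fun x hx =>
    (hM.smF.contMDiffAt (hW.mem_nhds hx)).mdifferentiableAt (by simp)
  have hHd : ∀ x ∈ W, MDifferentiableAt (𝓡∂ n) 𝓘(ℝ, EndF N) H x := fun x hx =>
    (hM.smH.contMDiffAt (hW.mem_nhds hx)).mdifferentiableAt (by simp)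
  have huev : ∀ x ∈ W, ∀ᶠ y in 𝓝 x, H y ∈ unitary (EndF N) := fun x hx => by
    filter_upwards [hW.mem_nhds hx] with y hy
    exact hM.unit y hy
  have hUs : ContMDiffOn (𝓡∂ n) 𝓘(ℝ, EndF N) ∞ (fun x => ContinuousLinearMap.adjoint (H x)) W :=
    (adjR (N := N)).contDiff.contMDiff.comp_contMDiffOn hM.smH
  refine ⟨map₂_on hM.smF, ?_, ?_, ?_, ?_, ?_, ?_, ?_⟩
  · have hsub : W \ (bd (at_ n M₂) \ Γ₂) ⊆ W ∩ (EYM.Mi n M₂ ∪ Γ₂) := by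
      intro x hx
      refine ⟨hx.1, ?_⟩
      by_cases h : x ∈ Γ₂
      · exact Or.inr h
      · refine Or.inl ?_
        have h2 : x ∉ bd (at_ n M₂) := fun h3 => hx.2 ⟨h3, h⟩
        rw [hb₂, ← ModelWithCorners.compl_interior] at h2
        exact not_not.1 h2
    exact hM.inj.mono hsub
  · intro x hx
    rw [hb₁, hb₂]
    constructor
    · intro h
      by_contra h2
      rw [← ModelWithCorners.compl_interior, mem_compl_iff, not_not] at h2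
      have h3 := hM.int x hx h2
      rw [← ModelWithCorners.compl_interior] at h
      exact h h3
    · exact fun h => hM.bdr x hx h
  · intro a b
    exact (S.ent (N := N) a b).contDiff.contMDiff.comp_contMDiffOn hUs
  · intro x hx
    apply S.toE_inj
    rw [S.toE_mul, S.toE_star, S.toE_ofE, S.toE_one, ContinuousLinearMap.adjoint_adjoint]
    exact (Unitary.mem_iff.1 (hM.unit x hx)).2
  · intro x hx
    obtain ⟨h1, h2⟩ := hM.fix x hx.1 hx.2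
    refine ⟨h1, ?_⟩
    apply S.toE_inj
    show S.toE (S.ofE (ContinuousLinearMap.adjoint (H x))) = _
    rw [S.toE_ofE, S.toE_one, h2]
    exact star_one (EndF N)
  · intro x hx
    have hd := hFd x hx
    have hUd : MDifferentiableAt (𝓡∂ n) 𝓘(ℝ, EndF N)
        (fun x => ContinuousLinearMap.adjoint (H x)) x := TM.wdiff_adj (hHd x hx)
    refine ⟨met₂ (P := conv P) (Q := conv Q) hd (fun v w => hM.met x hx v w), fun j =>
      (con₂_at (P := conv P) (Q := conv Q) hUd hd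
        (TM.wconn (one P) (one Q) (hHd x hx) (huev x hx) (hM.con x hx)) j).trans ?_⟩
    unfold Vale.Agent.P088.S.lgd
    rw [mul_add, mul_assoc]
    congr 2
    ext a b
    exact (dj_old (fun y => S.ofE (ContinuousLinearMap.adjoint (H (pt (at_ n M₂) x y))) a b)
      (at_nonneg x x) j).symm
  · intro f₁ f₂ u₁ u₂ hc h1 h2 x hx
    obtain ⟨c1, c2, c3⟩ := hc
    have h3 := hM.sol (S.toF u₁, S.toF u₂) ⟨S.toF f₁, S.toF f₂, ⟨bdData c1, bdData c2, fun x hx => by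
      show WithLp.toLp 2 (f₂ x) = WithLp.toLp 2 (f₁ (ψ x))
      rw [c3 x hx]⟩, harm_one h1, harm_one h2⟩ x hx
    have h4 : S.toE (S.ofE (ContinuousLinearMap.adjoint (H x))) (WithLp.toLp 2 (u₂ x)) =
        WithLp.toLp 2 (S.ofE (ContinuousLinearMap.adjoint (H x)) *ᵥ u₂ x) :=
      S.toE_apply _ _
    rw [S.toE_ofE] at h4
    have h5 : WithLp.toLp 2 (u₂ x) = H x (WithLp.toLp 2 (u₁ (F x))) := h3
    rw [h5] at h4
    have h6 : ContinuousLinearMap.adjoint (H x) (H x (WithLp.toLp 2 (u₁ (F x)))) =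
        WithLp.toLp 2 (u₁ (F x)) := by
      have h7 : ContinuousLinearMap.adjoint (H x) * H x = 1 :=
        (Unitary.mem_iff.1 (hM.unit x hx)).1
      exact DFunLike.congr_fun h7 _
    rw [h6] at h4
    exact (WithLp.toLp_injective 2) h4

/-- The elementary relation on `W` determines `Φ` and `U` on `W`. -/
theorem relOn_uniq [T2Space M₁] [CompactSpace M₁] [ConnectedSpace M₁]
    [T2Space M₂] [CompactSpace M₂] [ConnectedSpace M₂] (hn : 2 ≤ n) (hN : 0 < N)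
    {P : Pair (at_ n M₁) N} {Q : Pair (at_ n M₂) N} {Γ₁ : Set M₁} {Γ₂ : Set M₂}
    {ψ : M₂ → M₁} {χ : M₁ → M₂} (hOk : TM.Gl.Ok n N (⟨Γ₁, Γ₂, ψ, χ⟩ : TM.Gl M₁ M₂))
    (hS : @TM.SameD n N _ M₁ M₂ _ _ _ _ _ _ (borel M₁) (borel M₂) (one P) (one Q)
        ⟨Γ₁, Γ₂, ψ, χ⟩) {W : Set M₂} (hW : IsOpen W) {Φ Φ' : M₂ → M₁}
    {U U' : M₂ → Matrix (Fin N) (Fin N) ℂ} (h : RelOn W Γ₁ Γ₂ ψ P Q Φ U)
    (h' : RelOn W Γ₁ Γ₂ ψ P Q Φ' U') : ∀ x ∈ W, Φ' x = Φ x ∧ U' x = U x := by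
  let _ : MeasurableSpace M₁ := borel M₁
  have _ : BorelSpace M₁ := ⟨rfl⟩
  let _ : MeasurableSpace M₂ := borel M₂
  have _ : BorelSpace M₂ := ⟨rfl⟩
  obtain ⟨⟨hPs, hQs, -⟩, -⟩ := TM.gData n N M₁ M₂ (one P) (one Q) _ hOk hS
  have hb₁ : bd (at_ n M₁) = (𝓡∂ n).boundary M₁ := bd_at
  have hb₂ : bd (at_ n M₂) = (𝓡∂ n).boundary M₂ := bd_at
  have hsolE : ∀ {Φ : M₂ → M₁} {U : M₂ → Matrix (Fin N) (Fin N) ℂ},
      RelOn W Γ₁ Γ₂ ψ P Q Φ U → ∀ u ∈ TM.PP (one P) (one Q) (⟨Γ₁, Γ₂, ψ, χ⟩ : TM.Gl M₁ M₂),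
      ∀ x ∈ W, u.1 (Φ x) = S.toE (U x) (u.2 x) := by
    intro Φ U h u hu x hx
    obtain ⟨f₁, f₂, hf, h1, h2⟩ := hu
    have h3 := h.2.2.2.2.2.2.2 (fun x a => f₁ x a) (fun x a => f₂ x a) (fun x a => u.1 x a)
      (fun x a => u.2 x a) ⟨bdData' hf.h₁, bdData' hf.h₂, fun x hx => by
        funext a
        show f₂ x a = f₁ (ψ x) a
        rw [hf.eq x hx]⟩ (unharm_one h1) (unharm_one h2) x hx
    have h4 : S.toE (U x) (WithLp.toLp 2 (fun a => u.2 x a)) =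
        WithLp.toLp 2 (U x *ᵥ fun a => u.2 x a) := S.toE_apply _ _
    have h5 : S.toE (U x) (u.2 x) = WithLp.toLp 2 (U x *ᵥ fun a => u.2 x a) := h4
    rw [h5, ← h3]
  have huni : ∀ {Φ : M₂ → M₁} {U : M₂ → Matrix (Fin N) (Fin N) ℂ},
      RelOn W Γ₁ Γ₂ ψ P Q Φ U → ∀ x ∈ W,
      ContinuousLinearMap.adjoint (S.toE (U x)) * S.toE (U x) = 1 := by
    intro Φ U h x hx
    have h3 := congrArg S.toE (h.2.2.2.2.1 x hx)
    rw [S.toE_mul, S.toE_star, S.toE_one] at h3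
    exact h3
  -- interior points
  have key : ∀ x ∈ W, x ∈ EYM.Mi n M₂ → Φ' x = Φ x ∧ U' x = U x := by
    intro x hx hxi
    have hΦ : Φ x ∈ EYM.Mi n M₁ := by
      by_contra h3
      have h4 : Φ x ∈ (𝓡∂ n).boundary M₁ := by
        rw [← ModelWithCorners.compl_interior]; exact h3
      have h5 := (h.2.2.1 x hx).1 (by rw [hb₁]; exact h4)
      rw [hb₂, ← ModelWithCorners.compl_interior] at h5
      exact h5 hxi
    have hΦ' : Φ' x ∈ EYM.Mi n M₁ := by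
      by_contra h3
      have h4 : Φ' x ∈ (𝓡∂ n).boundary M₁ := by
        rw [← ModelWithCorners.compl_interior]; exact h3
      have h5 := (h'.2.2.1 x hx).1 (by rw [hb₁]; exact h4)
      rw [hb₂, ← ModelWithCorners.compl_interior] at h5
      exact h5 hxi
    have e1 := huni h x hx
    have e2 := huni h' x hx
    have hVu : ContinuousLinearMap.adjoint (S.toE (U x)) ∈ unitary (EndF N) := by
      have e3 : S.toE (U x) ∈ unitary (EndF N) := by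
        refine Unitary.mem_iff.2 ⟨e1, ?_⟩
        have e4 : (U x) * (U x)ᴴ = 1 := mul_eq_one_comm.1 (h.2.2.2.2.1 x hx)
        have e5 := congrArg S.toE e4
        rw [S.toE_mul, S.toE_star, S.toE_one] at e5
        exact e5
      exact Unitary.star_mem e3
    obtain ⟨h1, h2⟩ := TM.wUniq TM.fRunge TM.fConn hn hN hOk hPs hQs hΦ hΦ' hVu
      (V' := ContinuousLinearMap.adjoint (S.toE (U' x))) (fun u hu => by
        rw [hsolE h u hu x hx, hsolE h' u hu x hx]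
        have e6 : ContinuousLinearMap.adjoint (S.toE (U x)) (S.toE (U x) (u.2 x)) = u.2 x :=
          DFunLike.congr_fun e1 _
        have e7 : ContinuousLinearMap.adjoint (S.toE (U' x)) (S.toE (U' x) (u.2 x)) = u.2 x :=
          DFunLike.congr_fun e2 _
        rw [e6, e7])
    refine ⟨h1.symm, S.toE_inj ?_⟩
    have h3 := congrArg ContinuousLinearMap.adjoint h2
    rw [ContinuousLinearMap.adjoint_adjoint, ContinuousLinearMap.adjoint_adjoint] at h3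
    exact h3.symm
  -- all points, by density
  intro x hx
  have hdense : Dense (EYM.Mi n M₂) := (TM.fConn n M₂).2.2
  have hcl : x ∈ closure (W ∩ EYM.Mi n M₂) := by
    rw [mem_closure_iff]
    intro O hO hxO
    obtain ⟨y, hy, hyi⟩ := mem_closure_iff.1 (hdense x) (O ∩ W) (hO.inter hW) ⟨hxO, hx⟩
    exact ⟨y, hy.1, hy.2, hyi⟩
  have hne : (𝓝[W ∩ EYM.Mi n M₂] x).NeBot := mem_closure_iff_nhdsWithin_neBot.1 hcl
  have hle : 𝓝[W ∩ EYM.Mi n M₂] x ≤ 𝓝[W] x := nhdsWithin_mono x inter_subset_left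
  constructor
  · have c1 : Tendsto Φ (𝓝[W ∩ EYM.Mi n M₂] x) (𝓝 (Φ x)) :=
      Tendsto.mono_left (h.1.1 x hx) hle
    have c2 : Tendsto Φ' (𝓝[W ∩ EYM.Mi n M₂] x) (𝓝 (Φ' x)) :=
      Tendsto.mono_left (h'.1.1 x hx) hle
    refine tendsto_nhds_unique_of_eventuallyEq c2 c1 ?_
    filter_upwards [self_mem_nhdsWithin] with y hy
    exact (key y hy.1 hy.2).1
  · ext a b
    have s1 : ContMDiffOn (𝓡∂ n) 𝓘(ℝ, ℂ) ∞ (fun x => U x a b) W := h.2.2.2.1 a b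
    have s2 : ContMDiffOn (𝓡∂ n) 𝓘(ℝ, ℂ) ∞ (fun x => U' x a b) W := h'.2.2.2.1 a b
    have c1 : Tendsto (fun x => U x a b) (𝓝[W ∩ EYM.Mi n M₂] x) (𝓝 (U x a b)) :=
      Tendsto.mono_left (s1.continuousOn x hx) hle
    have c2 : Tendsto (fun x => U' x a b) (𝓝[W ∩ EYM.Mi n M₂] x) (𝓝 (U' x a b)) :=
      Tendsto.mono_left (s2.continuousOn x hx) hle
    refine tendsto_nhds_unique_of_eventuallyEq c2 c1 ?_
    filter_upwards [self_mem_nhdsWithin] with y hy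
    exact congrFun (congrFun (key y hy.1 hy.2).2 a) b

/-- From the abstract relation on `W` to the elementary conclusion. -/
theorem relatedOn_of [T2Space M₁] [CompactSpace M₁] [ConnectedSpace M₁]
    [T2Space M₂] [CompactSpace M₂] [ConnectedSpace M₂] (hn : 2 ≤ n) (hN : 0 < N)
    {P : Pair (at_ n M₁) N} {Q : Pair (at_ n M₂) N} {Γ₁ : Set M₁} {Γ₂ : Set M₂}
    {ψ : M₂ → M₁} {χ : M₁ → M₂} (hOk : TM.Gl.Ok n N (⟨Γ₁, Γ₂, ψ, χ⟩ : TM.Gl M₁ M₂))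
    (hS : @TM.SameD n N _ M₁ M₂ _ _ _ _ _ _ (borel M₁) (borel M₂) (one P) (one Q)
        ⟨Γ₁, Γ₂, ψ, χ⟩) {W : Set M₂} (hW : IsOpen W) {F : M₂ → M₁} {H : M₂ → EndF N}
    (hM : @TM.WMatch n N _ M₁ M₂ _ _ _ (borel M₁) _ _ _ (borel M₂) (one P) (one Q)
      ⟨Γ₁, Γ₂, ψ, χ⟩ W F H) : RelatedOn W Γ₁ Γ₂ ψ P Q :=
  ⟨_, _, relOn_of hW hM, fun _ _ h => relOn_uniq hn hN hOk hS hW (relOn_of hW hM) h⟩

end Jac

/-- The data of the elementary statement give the data of the abstract one. -/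
theorem setup_of {n N : ℕ} [NeZero n] {M₁ M₂ : Type u}
    [TopologicalSpace M₁] [ChartedSpace (EuclideanHalfSpace n) M₁] [IsManifold (𝓡∂ n) ∞ M₁]
    [T2Space M₁] [CompactSpace M₁] [ConnectedSpace M₁]
    [TopologicalSpace M₂] [ChartedSpace (EuclideanHalfSpace n) M₂] [IsManifold (𝓡∂ n) ∞ M₂]
    [T2Space M₂] [CompactSpace M₂] [ConnectedSpace M₂]
    (Γ₁ O₁ : Set M₁) (hO₁ : IsOpen O₁) (hΓ₁ : Γ₁ = O₁ ∩ bd (at_ n M₁))
    (Γ₂ O₂ : Set M₂) (hO₂ : IsOpen O₂) (hΓ₂ : Γ₂ = O₂ ∩ bd (at_ n M₂)) (hne₂ : Γ₂.Nonempty)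
    (ψ : M₂ → M₁) (hψ : Iden N (at_ n M₁) (at_ n M₂) Γ₁ Γ₂ ψ) (P : Pair (at_ n M₁) N)
    (Q : Pair (at_ n M₂) N) (hdata : SameData₂ Γ₁ Γ₂ ψ P Q) :
    ∃ χ : M₁ → M₂, TM.Gl.Ok n N (⟨Γ₁, Γ₂, ψ, χ⟩ : TM.Gl M₁ M₂) ∧
      @TM.SameD n N _ M₁ M₂ _ _ _ _ _ _ (borel M₁) (borel M₂) (one P) (one Q)
        ⟨Γ₁, Γ₂, ψ, χ⟩ := by
  have hb₁ : bd (at_ n M₁) = (𝓡∂ n).boundary M₁ := bd_at
  have hb₂ : bd (at_ n M₂) = (𝓡∂ n).boundary M₂ := bd_at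
  rw [hb₁] at hΓ₁
  rw [hb₂] at hΓ₂
  obtain ⟨hbij, hext, hext'⟩ := hψ
  have hne : Γ₁.Nonempty := ⟨_, hbij.mapsTo hne₂.some_mem⟩
  haveI : Nonempty M₂ := ⟨hne₂.some⟩
  set χ : M₁ → M₂ := Function.invFunOn ψ Γ₂ with hχ
  have hmaps' : MapsTo χ Γ₁ Γ₂ := hbij.surjOn.mapsTo_invFunOn
  have hinv : ∀ x ∈ Γ₂, χ (ψ x) = x := fun x hx => hbij.injOn.leftInvOn_invFunOn hx
  have hinv' : ∀ x ∈ Γ₁, ψ (χ x) = x := fun x hx => hbij.surjOn.rightInvOn_invFunOn hx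
  refine ⟨χ, ?_, ?_⟩
  · refine ⟨⟨O₁, hO₁, hΓ₁⟩, ⟨O₂, hO₂, hΓ₂⟩, hne, hne₂, hbij.mapsTo, hmaps', hinv, hinv', ?_, ?_⟩
    · intro f₁ hf₁
      obtain ⟨f₂, -, h2, h3⟩ := hext _ (bdData' hf₁)
      refine ⟨S.toF f₂, bdData h2, fun x hx => ?_⟩
      show WithLp.toLp 2 (f₂ x) = f₁ (ψ x)
      rw [h3 x hx]
    · intro f₂ hf₂
      obtain ⟨f₁, h1, -, h3⟩ := hext' _ (bdData' hf₂)
      refine ⟨S.toF f₁, bdData h1, fun x hx => ?_⟩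
      show WithLp.toLp 2 (f₁ x) = f₂ (χ x)
      have h4 := h3 (χ x) (hmaps' hx)
      rw [hinv' x hx] at h4
      rw [← h4]
  · let _ : MeasurableSpace M₁ := borel M₁
    have _ : BorelSpace M₁ := ⟨rfl⟩
    let _ : MeasurableSpace M₂ := borel M₂
    have _ : BorelSpace M₂ := ⟨rfl⟩
    have hcorr : ∀ {f₁ : M₁ → Fib N} {f₂ : M₂ → Fib N},
        TM.MD n (⟨Γ₁, Γ₂, ψ, χ⟩ : TM.Gl M₁ M₂) f₁ f₂ →
        Corr (at_ n M₁) (at_ n M₂) Γ₁ Γ₂ ψ (fun x a => f₁ x a) (fun x a => f₂ x a) := by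
      intro f₁ f₂ h
      refine ⟨bdData' h.h₁, bdData' h.h₂, fun x hx => ?_⟩
      funext a
      show f₂ x a = f₁ (ψ x) a
      rw [h.eq x hx]
    intro f₁ h₁ f₂ h₂ hf hh
    obtain ⟨u, v, u', v', a1, a2, a3, a4, a5⟩ := hdata _ _ _ _ (hcorr hf) (hcorr hh)
    refine ⟨S.toF u, S.toF v, S.toF u', S.toF v', harm_one a1, harm_one a2, harm_one a3,
      harm_one a4, ?_⟩
    rw [energy_one a1 a2, energy_one a3 a4] at a5
    exact a5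

/-- Determination on open sets, elementary form. -/
theorem open_of {n N : ℕ} [NeZero n] (hn : 3 ≤ n) (hN : 1 ≤ N) {M₁ M₂ : Type u}
    [TopologicalSpace M₁] [ChartedSpace (EuclideanHalfSpace n) M₁] [IsManifold (𝓡∂ n) ∞ M₁]
    [T2Space M₁] [CompactSpace M₁] [ConnectedSpace M₁]
    [TopologicalSpace M₂] [ChartedSpace (EuclideanHalfSpace n) M₂] [IsManifold (𝓡∂ n) ∞ M₂]
    [T2Space M₂] [CompactSpace M₂] [ConnectedSpace M₂]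
    (Z₁ : At n M₁) (hZ₁ : Z₁ = at_ n M₁) (Z₂ : At n M₂) (hZ₂ : Z₂ = at_ n M₂)
    (Γ₁ O₁ : Set M₁) (hO₁ : IsOpen O₁) (hΓ₁ : Γ₁ = O₁ ∩ bd Z₁)
    (Γ₂ O₂ : Set M₂) (hO₂ : IsOpen O₂) (hΓ₂ : Γ₂ = O₂ ∩ bd Z₂) (ψ : M₂ → M₁)
    (hψ : Iden N Z₁ Z₂ Γ₁ Γ₂ ψ) (P : Pair Z₁ N) (Q : Pair Z₂ N) (κ₁ κ₂ α β : ℝ)
    (hdata : SameData₂ Γ₁ Γ₂ ψ P Q) (W₁ : Set M₁) (hW₁ : IsOpen W₁) (W₂ : Set M₂)
    (hW₂ : IsOpen W₂) (x : M₂) (hx : x ∈ Γ₂ ∩ W₂) (hx₁ : ψ x ∈ W₁) (hP : EYMOn κ₁ α β W₁ P)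
    (hQ : EYMOn κ₂ α β W₂ Q) :
    κ₁ = κ₂ ∧
      (∃ W ⊆ W₂, IsOpen W ∧ (W ∩ Γ₂).Nonempty ∧ RelatedOn W Γ₁ Γ₂ ψ P Q) ∧
      (W₁ = univ → IsPreconnected W₂ → RelatedOn W₂ Γ₁ Γ₂ ψ P Q) := by
  subst hZ₁ hZ₂
  obtain ⟨χ, hOk, hS⟩ := setup_of Γ₁ O₁ hO₁ hΓ₁ Γ₂ O₂ hO₂ hΓ₂ ⟨x, hx.1⟩ ψ hψ P Q hdata
  let _ : MeasurableSpace M₁ := borel M₁
  have _ : BorelSpace M₁ := ⟨rfl⟩
  let _ : MeasurableSpace M₂ := borel M₂
  have _ : BorelSpace M₂ := ⟨rfl⟩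
  have hPw : EYM.EYMw κ₁ α β (one P) W₁ := fun p => eymw_conv hP p
  have hQw : EYM.EYMw κ₂ α β (one Q) W₂ := fun p => eymw_conv hQ p
  obtain ⟨hκ, W, hWs, hWo, hWne, F, H, hM⟩ := TM.wLocal' (one P) (one Q) ⟨Γ₁, Γ₂, ψ, χ⟩ κ₁ κ₂ α β hn
    hN hOk hS hW₁ hW₂ hPw hQw hx.1 hx.2 hx₁
  refine ⟨hκ, ⟨W, hWs, hWo, hWne, relatedOn_of (by omega) hN hOk hS hWo hM⟩,
    ?_⟩
  intro h1 hc
  subst h1
  obtain ⟨-, F, H, hM⟩ := TM.wMain' (one P) (one Q) ⟨Γ₁, Γ₂, ψ, χ⟩ κ₁ κ₂ α β hn hN hOk hS hW₂ hc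
    ⟨x, hx.2, hx.1⟩ hPw hQw
  exact relatedOn_of (by omega) hN hOk hS hW₂ hM

end Vale.Agent.P088.B2
end
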