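import Vale.Agent.P088.TM.G.H332N
import Vale.Agent.P088.TM.Br3
import Vale.Agent.P088.H820.G6

/-!
# P088: determination on open sets, natural couplings, elementary form
-/

open Bundle Manifold MeasureTheory Set Filter
open scoped ContDiff Matrix Topology ENNReal

noncomputable section

set_option linter.all false

namespace Vale.Agent.P088.B2

open Vale.Agent.P088 Vale.Agent.P088.B

universe u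

/-- Determination on open sets for an arbitrary natural coupling, elementary form. -/
theorem open_coupled {n N : ℕ} [NeZero n] (hn : 3 ≤ n) (hN : 1 ≤ N)
    {C : Matrix (Fin n) (Fin n) ℝ → (Fin n → Fin n → Matrix (Fin N) (Fin N) ℂ) →
      Matrix (Fin n) (Fin n) ℝ} (hC : Natural C) {M₁ M₂ : Type u}
    [TopologicalSpace M₁] [ChartedSpace (EuclideanHalfSpace n) M₁] [IsManifold (𝓡∂ n) ∞ M₁]
    [T2Space M₁] [CompactSpace M₁] [ConnectedSpace M₁]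
    [TopologicalSpace M₂] [ChartedSpace (EuclideanHalfSpace n) M₂] [IsManifold (𝓡∂ n) ∞ M₂]
    [T2Space M₂] [CompactSpace M₂] [ConnectedSpace M₂]
    (Z₁ : At n M₁) (hZ₁ : Z₁ = at_ n M₁) (Z₂ : At n M₂) (hZ₂ : Z₂ = at_ n M₂)
    (Γ₁ O₁ : Set M₁) (hO₁ : IsOpen O₁) (hΓ₁ : Γ₁ = O₁ ∩ bd Z₁)
    (Γ₂ O₂ : Set M₂) (hO₂ : IsOpen O₂) (hΓ₂ : Γ₂ = O₂ ∩ bd Z₂) (ψ : M₂ → M₁)
    (hψ : Iden N Z₁ Z₂ Γ₁ Γ₂ ψ) (P : Pair Z₁ N) (Q : Pair Z₂ N) (κ₁ κ₂ : ℝ)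
    (hdata : SameData₂ Γ₁ Γ₂ ψ P Q) (W₁ : Set M₁) (hW₁ : IsOpen W₁) (W₂ : Set M₂)
    (hW₂ : IsOpen W₂) (x : M₂) (hx : x ∈ Γ₂ ∩ W₂) (hx₁ : ψ x ∈ W₁)
    (hP : CoupledOn κ₁ C W₁ P) (hQ : CoupledOn κ₂ C W₂ Q) :
    κ₁ = κ₂ ∧
      (∃ W ⊆ W₂, IsOpen W ∧ (W ∩ Γ₂).Nonempty ∧ RelatedOn W Γ₁ Γ₂ ψ P Q) ∧
      (W₁ = univ → IsPreconnected W₂ → RelatedOn W₂ Γ₁ Γ₂ ψ P Q) := by
  subst hZ₁ hZ₂
  obtain ⟨χ, hOk, hS⟩ := setup_of Γ₁ O₁ hO₁ hΓ₁ Γ₂ O₂ hO₂ hΓ₂ ⟨x, hx.1⟩ ψ hψ P Q hdata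
  let _ : MeasurableSpace M₁ := borel M₁
  have _ : BorelSpace M₁ := ⟨rfl⟩
  let _ : MeasurableSpace M₂ := borel M₂
  have _ : BorelSpace M₂ := ⟨rfl⟩
  have hPw : EYM.G.EYMw κ₁ (cplOf hC) (one P) W₁ := fun p => bridge_on hC hP p
  have hQw : EYM.G.EYMw κ₂ (cplOf hC) (one Q) W₂ := fun p => bridge_on hC hQ p
  obtain ⟨hκ, W, hWs, hWo, hWne, F, H, hM⟩ := TM.G.wLocal' (one P) (one Q) ⟨Γ₁, Γ₂, ψ, χ⟩ κ₁ κ₂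
    (cplOf hC) hn hN hOk hS hW₁ hW₂ hPw hQw hx.1 hx.2 hx₁
  refine ⟨hκ, ⟨W, hWs, hWo, hWne, relatedOn_of (by omega) hN hOk hS hWo hM⟩, ?_⟩
  intro h1 hc
  subst h1
  obtain ⟨-, F, H, hM⟩ := TM.G.wMain' (one P) (one Q) ⟨Γ₁, Γ₂, ψ, χ⟩ κ₁ κ₂ (cplOf hC) hn hN hOk hS
    hW₂ hc ⟨x, hx.2, hx.1⟩ hPw hQw
  exact relatedOn_of (by omega) hN hOk hS hW₂ hM

end Vale.Agent.P088.B2
end
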