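import Vale.Agent.P088.TM.BrU

/-!
# P088: two manifolds, existence and uniqueness of the diffeomorphism and the gauge; the data are
equal if and only if the pairs are related
-/

open Bundle Manifold MeasureTheory Set Filter
open scoped ContDiff Matrix Topology ENNReal

noncomputable section

set_option linter.all false

namespace Vale.Agent.P088.B2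

open Vale.Agent.P088 Vale.Agent.P088.B

universe u

section St

variable {n N : ℕ} {M₁ M₂ : Type u} {Z₁ : At n M₁} {Z₂ : At n M₂}

/-- For every `f ∈ C_c^∞(Γ; ℂ^N)` the Dirichlet problem `d_A^* d_A u = 0`, `u = f` on `∂M`, has a
smooth solution. -/
def Solv {M : Type u} {Z : At n M} (Γ : Set M) (P : Pair Z N) : Prop :=
  ∀ f, Data Z Γ f → ∃ u, Harm P f u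

theorem solv_of {Γ₁ : Set M₁} {Γ₂ : Set M₂} {ψ : M₂ → M₁} {P : Pair Z₁ N} {Q : Pair Z₂ N}
    (hψ : Iden N Z₁ Z₂ Γ₁ Γ₂ ψ) (hS : SameData₂ Γ₁ Γ₂ ψ P Q) : Solv Γ₁ P := by
  intro f₁ hf₁
  obtain ⟨f₂, hf₂⟩ := hψ.2.1 f₁ hf₁
  obtain ⟨u, -, -, -, hu, -, -, -, -⟩ := hS f₁ f₂ f₁ f₂ hf₂ hf₂
  exact ⟨u, hu⟩

theorem Related₂.rel {Γ₁ : Set M₁} {Γ₂ : Set M₂} {ψ : M₂ → M₁} {P : Pair Z₁ N} {Q : Pair Z₂ N}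
    (h : Related₂ Γ₁ Γ₂ ψ P Q) : ∃ Φ Ψ U, Rel₂ Γ₂ ψ P Q Φ Ψ U ∧
      ∀ f₁ f₂ u₁ u₂, Corr Z₁ Z₂ Γ₁ Γ₂ ψ f₁ f₂ → Harm P f₁ u₁ → Harm Q f₂ u₂ →
        ∀ x, u₁ (Φ x) = U x *ᵥ u₂ x := by
  obtain ⟨Φ, Ψ, U, h1, h2, h3, h4, h5, h6, h7, h8, h9⟩ := h
  exact ⟨Φ, Ψ, U, ⟨h1, h2, h3, h4, h5, h6, h7, h8⟩, h9⟩

end St

variable {n : ℕ} [NeZero n] {N : ℕ} {M₁ M₂ : Type u}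
  [TopologicalSpace M₁] [ChartedSpace (EuclideanHalfSpace n) M₁] [IsManifold (𝓡∂ n) ∞ M₁]
  [T2Space M₁] [CompactSpace M₁] [ConnectedSpace M₁]
  [TopologicalSpace M₂] [ChartedSpace (EuclideanHalfSpace n) M₂] [IsManifold (𝓡∂ n) ∞ M₂]
  [T2Space M₂] [CompactSpace M₂] [ConnectedSpace M₂]

/-- Existence gives unique existence. -/
theorem uniqueRel_of (hn : 2 ≤ n) (hN : 1 ≤ N)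
    (Z₁ : At n M₁) (hZ₁ : Z₁ = at_ n M₁) (Z₂ : At n M₂) (hZ₂ : Z₂ = at_ n M₂)
    (Γ₁ O₁ : Set M₁) (hO₁ : IsOpen O₁) (hΓ₁ : Γ₁ = O₁ ∩ bd Z₁) (hne : Γ₁.Nonempty)
    (Γ₂ O₂ : Set M₂) (hO₂ : IsOpen O₂) (hΓ₂ : Γ₂ = O₂ ∩ bd Z₂) (ψ : M₂ → M₁)
    (hψ : Iden N Z₁ Z₂ Γ₁ Γ₂ ψ) (P : Pair Z₁ N) (Q : Pair Z₂ N)
    (hS : SameData₂ Γ₁ Γ₂ ψ P Q) (hR : Related₂ Γ₁ Γ₂ ψ P Q) : UniqueRel₂ Γ₁ Γ₂ ψ P Q := by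
  obtain ⟨Φ, Ψ, U, h1, h2⟩ := hR.rel
  exact ⟨Φ, Ψ, U, h1, h2, fun Φ' Ψ' U' h' => rel_uniq hn hN Z₁ hZ₁ Z₂ hZ₂ Γ₁ O₁ hO₁ hΓ₁ hne Γ₂ O₂
    hO₂ hΓ₂ ψ hψ P Q (solv_of hψ hS) h' h1⟩

/-- The equivalence. -/
theorem same_iff (hn : 2 ≤ n) (hN : 1 ≤ N)
    (Z₁ : At n M₁) (hZ₁ : Z₁ = at_ n M₁) (Z₂ : At n M₂) (hZ₂ : Z₂ = at_ n M₂)
    (Γ₁ O₁ : Set M₁) (hO₁ : IsOpen O₁) (hΓ₁ : Γ₁ = O₁ ∩ bd Z₁) (hne : Γ₁.Nonempty)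
    (Γ₂ O₂ : Set M₂) (hO₂ : IsOpen O₂) (hΓ₂ : Γ₂ = O₂ ∩ bd Z₂) (ψ : M₂ → M₁)
    (hψ : Iden N Z₁ Z₂ Γ₁ Γ₂ ψ) (P : Pair Z₁ N) (Q : Pair Z₂ N) (hsol : Solv Γ₁ P)
    (hmain : SameData₂ Γ₁ Γ₂ ψ P Q → Related₂ Γ₁ Γ₂ ψ P Q) :
    (SameData₂ Γ₁ Γ₂ ψ P Q ↔ ∃ Φ Ψ U, Rel₂ Γ₂ ψ P Q Φ Ψ U) ∧
    (SameData₂ Γ₁ Γ₂ ψ P Q ↔ UniqueRel₂ Γ₁ Γ₂ ψ P Q) := by
  have h1 : (∃ Φ Ψ U, Rel₂ Γ₂ ψ P Q Φ Ψ U) → SameData₂ Γ₁ Γ₂ ψ P Q := by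
    rintro ⟨Φ, Ψ, U, h⟩
    exact rel_same Z₁ hZ₁ Z₂ hZ₂ Γ₁ O₁ hO₁ hΓ₁ hne Γ₂ O₂ hO₂ hΓ₂ ψ hψ P Q hsol h
  have h2 : SameData₂ Γ₁ Γ₂ ψ P Q → UniqueRel₂ Γ₁ Γ₂ ψ P Q := fun hS =>
    uniqueRel_of hn hN Z₁ hZ₁ Z₂ hZ₂ Γ₁ O₁ hO₁ hΓ₁ hne Γ₂ O₂ hO₂ hΓ₂ ψ hψ P Q hS (hmain hS)
  have h3 : UniqueRel₂ Γ₁ Γ₂ ψ P Q → ∃ Φ Ψ U, Rel₂ Γ₂ ψ P Q Φ Ψ U := by
    rintro ⟨Φ, Ψ, U, h, -, -⟩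
    exact ⟨Φ, Ψ, U, h⟩
  exact ⟨⟨fun hS => h3 (h2 hS), h1⟩, ⟨h2, fun h => h1 (h3 h)⟩⟩

end Vale.Agent.P088.B2
end
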