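import Vale.Agent.P088.TM.G.Asm
import Vale.Agent.P088.TM.Fin2
import Vale.Agent.P088.TM.Br3
import Vale.Agent.P088.H820.G6

/-!
# P088: two manifolds, natural couplings, the elementary theorem
-/

open Bundle Manifold MeasureTheory Set Filter
open scoped ContDiff Matrix Topology ENNReal

noncomputable section

set_option linter.all false

namespace Vale.Agent.P088.B2

open Vale.Agent.P088 Vale.Agent.P088.B

universe u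

/-- The relations, from the abstract theorem. -/
theorem related₂_of {n N : ℕ} [NeZero n] {M₁ M₂ : Type u}
    [TopologicalSpace M₁] [ChartedSpace (EuclideanHalfSpace n) M₁] [IsManifold (𝓡∂ n) ∞ M₁]
    [TopologicalSpace M₂] [ChartedSpace (EuclideanHalfSpace n) M₂] [IsManifold (𝓡∂ n) ∞ M₂]
    {P : Pair (at_ n M₁) N} {Q : Pair (at_ n M₂) N} {Γ₁ : Set M₁} {Γ₂ : Set M₂} {ψ : M₂ → M₁}
    {χ : M₁ → M₂}
    (h : @TM.GE2 n N _ M₁ M₂ _ _ _ _ _ _ (borel M₁) (borel M₂) (one P) (one Q) ⟨Γ₁, Γ₂, ψ, χ⟩) :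
    Related₂ Γ₁ Γ₂ ψ P Q := by
  let _ : MeasurableSpace M₁ := borel M₁
  let _ : MeasurableSpace M₂ := borel M₂
  obtain ⟨Φ, U, hU, hfix, hg, hA, hsol⟩ := h
  refine ⟨Φ, Φ.symm, fun x => S.ofE (U x), map₂ Φ.contMDiff, map₂ Φ.symm.contMDiff,
    fun x => Φ.symm_apply_apply x, fun x => Φ.apply_symm_apply x, (S.uni_ofE hU).1,
    (S.uni_ofE hU).2, fun x hx => ⟨(hfix x hx).1, S.toE_inj ?_⟩, fun x => ?_, ?_⟩
  · rw [S.toE_ofE, S.toE_one]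
    exact (hfix x hx).2
  · have hd : MDifferentiableAt (𝓡∂ n) (𝓡∂ n) Φ x := Φ.contMDiff.mdifferentiableAt (by simp)
    refine ⟨met₂ (P := conv P) (Q := conv Q) hd (fun v w => hg x v w), fun j =>
      (con₂ (P := conv P) (Q := conv Q) hU hd (hA x) j).trans ?_⟩
    unfold Vale.Agent.P088.S.lgd
    rw [mul_add, mul_assoc]
    congr 2
    ext a b
    exact (dj_old (fun y => S.ofE (U (pt (at_ n M₂) x y)) a b) (at_nonneg x x) j).symm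
  · intro f₁ f₂ u₁ u₂ hc h1 h2 x
    obtain ⟨c1, c2, c3⟩ := hc
    have h3 := hsol (S.toF u₁, S.toF u₂) ⟨S.toF f₁, S.toF f₂, ⟨bdData c1, bdData c2, fun x hx => by
      show WithLp.toLp 2 (f₂ x) = WithLp.toLp 2 (f₁ (ψ x))
      rw [c3 x hx]⟩, harm_one h1, harm_one h2⟩ x
    have h4 : S.toE (S.ofE (U x)) (WithLp.toLp 2 (u₂ x)) = WithLp.toLp 2 (S.ofE (U x) *ᵥ u₂ x) :=
      S.toE_apply _ _
    rw [S.toE_ofE] at h4
    have h5 : WithLp.toLp 2 (u₁ (Φ x)) = U x (WithLp.toLp 2 (u₂ x)) := h3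
    rw [h4] at h5
    exact (WithLp.toLp_injective 2) h5

/-- Two manifolds, an arbitrary natural coupling: the data determine the constant, the manifold,
the metric and the connection, with exactly one diffeomorphism and one gauge transformation. -/
theorem coupled_unique {n N : ℕ} [NeZero n] (hn : 3 ≤ n) (hN : 1 ≤ N) {M₁ M₂ : Type u}
    [TopologicalSpace M₁] [ChartedSpace (EuclideanHalfSpace n) M₁] [IsManifold (𝓡∂ n) ∞ M₁]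
    [T2Space M₁] [CompactSpace M₁] [ConnectedSpace M₁]
    [TopologicalSpace M₂] [ChartedSpace (EuclideanHalfSpace n) M₂] [IsManifold (𝓡∂ n) ∞ M₂]
    [T2Space M₂] [CompactSpace M₂] [ConnectedSpace M₂]
    (Z₁ : At n M₁) (hZ₁ : Z₁ = at_ n M₁) (Z₂ : At n M₂) (hZ₂ : Z₂ = at_ n M₂)
    (Γ₁ O₁ : Set M₁) (hO₁ : IsOpen O₁) (hΓ₁ : Γ₁ = O₁ ∩ bd Z₁) (hne : Γ₁.Nonempty)
    (Γ₂ O₂ : Set M₂) (hO₂ : IsOpen O₂) (hΓ₂ : Γ₂ = O₂ ∩ bd Z₂) (ψ : M₂ → M₁)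
    (hψ : Iden N Z₁ Z₂ Γ₁ Γ₂ ψ) {C : Matrix (Fin n) (Fin n) ℝ →
      (Fin n → Fin n → Matrix (Fin N) (Fin N) ℂ) → Matrix (Fin n) (Fin n) ℝ} (hC : Natural C)
    (P : Pair Z₁ N) (Q : Pair Z₂ N) (κ₁ κ₂ : ℝ)
    (hP : Coupled κ₁ C P) (hQ : Coupled κ₂ C Q) (hdata : SameData₂ Γ₁ Γ₂ ψ P Q) :
    κ₁ = κ₂ ∧ UniqueRel₂ Γ₁ Γ₂ ψ P Q := by
  have hne₂ : Γ₂.Nonempty := by
    obtain ⟨x, hx⟩ := hne
    obtain ⟨y, hy, -⟩ := hψ.1.surjOn hx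
    exact ⟨y, hy⟩
  have key : κ₁ = κ₂ ∧ Related₂ Γ₁ Γ₂ ψ P Q := by
    subst hZ₁ hZ₂
    obtain ⟨χ, hOk, hS⟩ := setup_of Γ₁ O₁ hO₁ hΓ₁ Γ₂ O₂ hO₂ hΓ₂ hne₂ ψ hψ P Q hdata
    let _ : MeasurableSpace M₁ := borel M₁
    have _ : BorelSpace M₁ := ⟨rfl⟩
    let _ : MeasurableSpace M₂ := borel M₂
    have _ : BorelSpace M₂ := ⟨rfl⟩
    obtain ⟨hκ, hE⟩ := TM.G.fMain n N M₁ M₂ (one P) (one Q) ⟨Γ₁, Γ₂, ψ, χ⟩ κ₁ κ₂ (cplOf hC) hn hN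
      hOk hS (bridge_coupled hC hP) (bridge_coupled hC hQ)
    exact ⟨hκ, related₂_of hE⟩
  exact ⟨key.1, uniqueRel_of (by omega) hN Z₁ hZ₁ Z₂ hZ₂ Γ₁ O₁ hO₁ hΓ₁ hne Γ₂ O₂ hO₂ hΓ₂ ψ hψ P Q
    hdata key.2⟩

end Vale.Agent.P088.B2
end
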