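import Vale.Agent.P088.TM.Data

/-!
# P088, two manifolds: local representations by arbitrary parametrisations
-/

set_option linter.all false

open Bundle Manifold MeasureTheory Set Filter Topology
open scoped ContDiff

noncomputable section

namespace Vale.Agent.P088.TM

open Vale.Agent.P088 Vale.Agent.P088.EYM

universe u

theorem fLinInt : LinInt_statement := aLinInt aUcpInt
theorem fLinBd : LinBd_statement := aLinBd aUcpBd fLinInt
theorem fAInt : AInt_statement := aInt (aIHigh aICacc aIProl) aISup aIReal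
theorem fPoin : APoincare_statement := aPoincare aHardy
theorem fRigInt : BRigInt_statement := bRigInt ucpV
theorem fRigBd : BRigBd_statement := bRigBd ucpVBd
theorem fLoc : Vale.Agent.P088.EYM.CLoc_statement.{u} := cLoc
theorem fInt : Vale.Agent.P088.EYM.CInt_statement.{u} := cInt
theorem fEn : Vale.Agent.P088.EYM.CEnergy_statement.{u} := cEnergy fInt
theorem fExt : Vale.Agent.P088.EYM.CExt_statement.{u} := cExt
theorem fHarm : Vale.Agent.P088.EYM.CHarm_statement.{u} := cHarm aWeakStrong fLoc fEn fExt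
theorem fPoinc : Vale.Agent.P088.EYM.CPoinc_statement.{u} := cPoinc fPoin fLoc fEn fInt
theorem fForm : Vale.Agent.P088.EYM.CForm_statement.{u} := cForm fInt
theorem fUniq : Vale.Agent.P088.EYM.CUniq_statement.{u} := cUniq fPoinc fForm fInt
theorem fConn : Vale.Agent.P088.EYM.CConn_statement.{u} := cConn fLoc
theorem fUcp : Vale.Agent.P088.EYM.CUcp_statement.{u} := cUcp fLinInt fHarm fLoc fConn
theorem fRungeA : Vale.Agent.P088.EYM.CRungeA_statement.{u} := cRungeA cHilb fPoinc fForm fUniq fInt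
theorem fRungeB : Vale.Agent.P088.EYM.CRungeB_statement.{u} := cRungeB aUcpInt aUcpBd fConn fLoc fEn fInt fExt
theorem fRungeC : Vale.Agent.P088.EYM.CRungeC_statement.{u} :=
  cRungeC fRungeA fRungeB aGreen aDens fInt fEn fExt fForm fLoc
theorem fRunge : Vale.Agent.P088.EYM.CRunge_statement.{u} := cRunge fRungeC fAInt ES.aSolve fUniq fInt fHarm fLoc


section Loc

variable {n N : ℕ} [NeZero n]

theorem eym_mono {κ α β : ℝ} {L : LD n N} {D D' : Set (E n)} (h : EYMeq κ α β L D)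
    (hD : D' ⊆ D) : EYMeq κ α β L D' where
  ein := fun x hx => h.ein x (hD hx)
  ym := fun x hx => h.ym x (hD hx)

theorem relOpen_preimage {D D' D₁ : Set (E n)} (hD : RelOpen D) {X : E n → E n}
    (hX : ContinuousOn X D) (hm : MapsTo X D D') (hD' : RelOpen D') (h1 : RelOpen D₁) :
    RelOpen (D ∩ X ⁻¹' D₁) := by
  obtain ⟨O, hO, rfl⟩ := h1
  have h2 := CRel1_relX hD hX hO
  have h3 : D ∩ X ⁻¹' (O ∩ Hs n) = D ∩ X ⁻¹' O := by
    ext x
    constructor
    · rintro ⟨a, b, -⟩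
      exact ⟨a, b⟩
    · rintro ⟨a, b⟩
      exact ⟨a, b, hD'.subset (hm a)⟩
  rw [h3]
  exact h2

theorem image_eq_preimage {D D' D₁ : Set (E n)} {X Y : E n → E n} (hd : IsDiffeo D D' X Y)
    (h1 : D₁ ⊆ D') : Y '' D₁ = D ∩ X ⁻¹' D₁ := by
  ext x
  constructor
  · rintro ⟨y, hy, rfl⟩
    refine ⟨hd.mapsY (h1 hy), ?_⟩
    show X (Y y) ∈ D₁
    rw [hd.inv2 y (h1 hy)]
    exact hy
  · rintro ⟨hx, hx'⟩
    exact ⟨X x, hx', hd.inv1 x hx⟩

/-- restriction of a pull back -/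
theorem pull_restrict {L L' : LD n N} {D D' D₁ : Set (E n)} {X Y : E n → E n}
    {S : E n → EndF N} (h : IsPull L L' D D' X Y S) (h1 : D₁ ⊆ D') :
    IsPull L L' (D ∩ X ⁻¹' D₁) D₁ X Y S :=
  cModEq_restrict h inter_subset_left h1 (fun x hx => hx.2) (fun y hy => by
    rw [← image_eq_preimage h.diffeo h1]
    exact mem_image_of_mem _ hy)

theorem one_apply' (v : Fib N) : (1 : EndF N) v = v := rfl

end Loc

section Mfd

variable {n N : ℕ} [NeZero n]
  {M : Type u} [TopologicalSpace M] [ChartedSpace (EuclideanHalfSpace n) M]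
  [IsManifold (𝓡∂ n) ∞ M] [T2Space M] [CompactSpace M] [MeasurableSpace M] [BorelSpace M]

theorem xc_image_open (q : M) {D : Set (E n)} (hD : RelOpen D) (h : D ⊆ tg n q) :
    IsOpen ((xc n q).symm '' D) := by
  have h1 : (xc n q).symm '' D = (xc n q).source ∩ (xc n q) ⁻¹' D :=
    (xc n q).symm_image_eq_source_inter_preimage h
  obtain ⟨O, hO, rfl⟩ := hD
  have h2 : (xc n q).source ∩ (xc n q) ⁻¹' (O ∩ Hs n) = (xc n q).source ∩ (xc n q) ⁻¹' O := by
    ext x
    constructor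
    · rintro ⟨a, b, -⟩
      exact ⟨a, b⟩
    · rintro ⟨a, b⟩
      exact ⟨a, b, ((fLoc n 0 M).1 q).subset ((xc n q).map_source a)⟩
  rw [h1, h2]
  exact (continuousOn_extChartAt q).isOpen_inter_preimage (isOpen_extChartAt_source q) hO

/-- Local representation of `P` by a parametrisation `e : D₀ → M` and local data `L`. -/
structure BC (P : One n N M) (e : E n → M) (L : LD n N) (D₀ : Set (E n)) : Prop where
  rel : RelOpen D₀
  ok : L.Ok D₀
  h1 : ∀ y ∈ D₀, L.h y = 1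
  inj : InjOn e D₀
  cont : ContinuousOn e D₀
  op : ∀ D ⊆ D₀, RelOpen D → IsOpen (e '' D)
  bd : ∀ y ∈ D₀, (e y ∈ (𝓡∂ n).boundary M ↔ y 0 = 0)
  sm : ∀ u : M → Fib N, SmS n u → ContDiffOn ℝ ∞ (fun y => u (e y)) D₀
  sol : ∀ f u, P.Harm f u → Sol L D₀ (fun y => u (e y))
  en : ∀ D, RelOpen D → D ⊆ D₀ → ∀ u v : M → Fib N, SmS n u → SmS n v →
    (tsupport u ⊆ e '' D ∨ tsupport v ⊆ e '' D) →
      P.E u v = En L D (fun y => u (e y)) (fun y => v (e y))
  en' : ∀ D, RelOpen D → D ⊆ D₀ → ∀ u : M → Fib N, SmS n u →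
    0 ≤ (En L D (fun y => u (e y)) (fun y => u (e y))).re ∧
      (En L D (fun y => u (e y)) (fun y => u (e y))).re ≤ (P.E u u).re
  ext : ∀ (c : E n → Fib N) (D K : Set (E n)), RelOpen D → D ⊆ D₀ → ContDiffOn ℝ ∞ c D →
    IsCompact K → K ⊆ D → (∀ y ∈ D, y ∉ K → c y = 0) →
    ∃ u : M → Fib N, SmS n u ∧ (∀ y ∈ D, u (e y) = c y) ∧
      (∀ x, x ∉ e '' K → u x = 0) ∧ tsupport u ⊆ e '' K


/-- The chart at `q` is a local representation. -/
theorem bc_chart (P : One n N M) (q : M) : BC P (xc n q).symm (P.loc q) (tg n q) := by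
  obtain ⟨hRO, hOk, hbd, hsm⟩ := fLoc n N M
  refine
    { rel := hRO q
      ok := hOk P q
      h1 := fun _ _ => rfl
      inj := (xc n q).symm.injOn
      cont := continuousOn_extChartAt_symm q
      op := fun D hD hr => xc_image_open q hr hD
      bd := fun y hy => ?_
      sm := fun u hu => hsm u hu q
      sol := fun f u hu => fHarm n N M P f u hu q
      en := fun D hD hDt u v hu hv h => (fEn n N M P q D hD hDt).1 u v hu hv h
      en' := fun D hD hDt u hu => ?_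
      ext := fun c D K hD hDt hc hK hKD h0 => fExt n N M q c D K hD hDt hc hK hKD h0 }
  · rw [hbd q _ ((xc n q).map_target hy), (xc n q).right_inv hy]
  · obtain ⟨h1, h2⟩ := (fEn n N M P q D hD hDt).2 u hu
    refine ⟨?_, h1⟩
    change 0 ≤ (En (P.loc q) D (lu (𝓡∂ n) q u) (lu (𝓡∂ n) q u)).re
    unfold En
    have h3 : (∫ x in D, ed (P.loc q) (lu (𝓡∂ n) q u) (lu (𝓡∂ n) q u) x).re =
        ∫ x in D, (ed (P.loc q) (lu (𝓡∂ n) q u) (lu (𝓡∂ n) q u) x).re :=
      (Complex.reCLM.integral_comp_comm h2).symm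
    rw [h3]
    exact setIntegral_nonneg (CRel1_meas hD) fun x hx => CRel1_ed_nonneg P q hu (hDt hx)

/-- Change of coordinates. -/
theorem bc_trans {P : One n N M} {e : E n → M} {L : LD n N} {D₀ : Set (E n)} (h : BC P e L D₀)
    {D D' : Set (E n)} (hD : RelOpen D) (hDs : D ⊆ D₀) (hD' : RelOpen D') {X Y : E n → E n}
    (hd : IsDiffeo D D' X Y) (hb : ∀ y ∈ D', (Y y 0 = 0 ↔ y 0 = 0)) :
    ∃ L' : LD n N, BC P (fun y => e (Y y)) L' D' ∧ IsPull L L' D D' X Y (fun _ => 1) ∧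
      ∀ κ α β, EYMeq κ α β L D₀ → EYMeq κ α β L' D' := by
  have hLD : L.Ok D := cERel_okMono h.ok hDs
  obtain ⟨L', hL', hpull, heym⟩ := bPush n N L D D' X Y (fun _ => 1) hD hD' hLD hd
    contDiffOn_const (fun _ _ => isUnit_one)
  refine ⟨L', ?_, hpull, fun κ α β hE => heym κ α β (eym_mono hE hDs)⟩
  have hXc : ContinuousOn X D := hd.smX.continuousOn
  have hYc : ContinuousOn Y D' := hd.smY.continuousOn
  have himg : ∀ D₁ ⊆ D', (fun y => e (Y y)) '' D₁ = e '' (D ∩ X ⁻¹' D₁) := by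
    intro D₁ h1
    rw [← image_eq_preimage hd h1, image_image]
  have hrel : ∀ D₁, RelOpen D₁ → RelOpen (D ∩ X ⁻¹' D₁) := fun D₁ h1 =>
    relOpen_preimage hD hXc hd.mapsX hD' h1
  have hsmc : ∀ u : M → Fib N, SmS n u → ContDiffOn ℝ ∞ (fun y => u (e (Y y))) D' :=
    fun u hu => (h.sm u hu).comp hd.smY fun y hy => hDs (hd.mapsY hy)
  have hEn : ∀ D₁, RelOpen D₁ → D₁ ⊆ D' → ∀ u v : M → Fib N, SmS n u → SmS n v →
      En L (D ∩ X ⁻¹' D₁) (fun y => u (e y)) (fun y => v (e y)) =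
        En L' D₁ (fun y => u (e (Y y))) (fun y => v (e (Y y))) := by
    intro D₁ h1 h2 u v hu hv
    have hp := pull_restrict hpull h2
    have e1 := bEnergy n N L L' (D ∩ X ⁻¹' D₁) D₁ X Y (fun _ => 1) (hrel D₁ h1) h1
      (cERel_okMono hLD inter_subset_left) (cERel_okMono hL' h2) hp
      (fun y => u (e (Y y))) (fun y => v (e (Y y)))
      (((hsmc u hu).mono h2).of_le (by norm_cast)) (((hsmc v hv).mono h2).of_le (by norm_cast))
    rw [← e1]
    refine CRel1_En_congr (hrel D₁ h1) _ (fun x hx => ?_) (fun x hx => ?_)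
    · show u (e x) = (1 : EndF N) (u (e (Y (X x))))
      rw [hd.inv1 x hx.1]; rfl
    · show v (e x) = (1 : EndF N) (v (e (Y (X x))))
      rw [hd.inv1 x hx.1]; rfl
  refine
    { rel := hD'
      ok := hL'
      h1 := fun y hy => ?_
      inj := fun y hy y' hy' hyy => ?_
      cont := h.cont.comp hYc fun y hy => hDs (hd.mapsY hy)
      op := fun D₁ h1 h2 => ?_
      bd := fun y hy => ?_
      sm := hsmc
      sol := fun f u hu => ?_
      en := fun D₁ h1 h2 u v hu hv hs => ?_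
      en' := fun D₁ h1 h2 u hu => ?_
      ext := fun c D₁ K h1 h2 hc hK hKD h0 => ?_ }
  · have e1 := hpull.h_eq (Y y) (hd.mapsY hy)
    rw [hd.inv2 y hy, h.h1 _ (hDs (hd.mapsY hy))] at e1
    rw [← e1, mul_one, mul_one]
    exact star_one (EndF N)
  · have e1 := h.inj (hDs (hd.mapsY hy)) (hDs (hd.mapsY hy')) hyy
    rw [← hd.inv2 y hy, ← hd.inv2 y' hy', e1]
  · rw [himg D₁ h1]
    exact h.op _ (inter_subset_left.trans hDs) (hrel D₁ h2)
  · rw [h.bd _ (hDs (hd.mapsY hy)), hb y hy]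
  · have h1 : Sol L D (fun y => u (e y)) := cERel_solMono (h.sol f u hu) hDs
    refine bSol n N L L' D D' X Y (fun _ => 1) hD hD' hLD hL' hpull _ ?_ (hsmc u hu.smooth)
    refine cERel_sol_congr L hD ?_ h1
    intro x hx
    show u (e x) = (1 : EndF N) (u (e (Y (X x))))
    rw [hd.inv1 x hx]; rfl
  · rw [himg D₁ h2] at hs
    rw [h.en _ (hrel D₁ h1) (inter_subset_left.trans hDs) u v hu hv hs]
    exact hEn D₁ h1 h2 u v hu hv
  · have e1 := h.en' _ (hrel D₁ h1) (inter_subset_left.trans hDs) u hu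
    rw [hEn D₁ h1 h2 u u hu hu] at e1
    exact e1
  · have hKi : IsCompact (Y '' K) := hK.image_of_continuousOn (hYc.mono (hKD.trans h2))
    obtain ⟨u, hu1, hu2, hu3, hu4⟩ := h.ext (fun x => c (X x)) (D ∩ X ⁻¹' D₁) (Y '' K)
      (hrel D₁ h1) (inter_subset_left.trans hDs)
      (hc.comp (hd.smX.mono inter_subset_left) fun x hx => hx.2) hKi
      (by
        rintro x ⟨y, hy, rfl⟩
        refine ⟨hd.mapsY (h2 (hKD hy)), ?_⟩
        show X (Y y) ∈ D₁
        rw [hd.inv2 y (h2 (hKD hy))]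
        exact hKD hy)
      (fun x hx hxK => h0 _ hx.2 fun hxX => hxK ⟨X x, hxX, hd.inv1 x hx.1⟩)
    refine ⟨u, hu1, fun y hy => ?_, fun x hx => hu3 x ?_, ?_⟩
    · have e1 : Y y ∈ D ∩ X ⁻¹' D₁ := by
        refine ⟨hd.mapsY (h2 hy), ?_⟩
        show X (Y y) ∈ D₁
        rw [hd.inv2 y (h2 hy)]
        exact hy
      rw [hu2 _ e1, hd.inv2 y (h2 hy)]
    · rw [image_image]
      exact hx
    · rw [image_image] at hu4
      exact hu4

theorem BC.mono {P : One n N M} {e : E n → M} {L : LD n N} {D₀ D : Set (E n)}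
    (h : BC P e L D₀) (hD : RelOpen D) (hs : D ⊆ D₀) : BC P e L D where
  rel := hD
  ok := cERel_okMono h.ok hs
  h1 := fun y hy => h.h1 y (hs hy)
  inj := h.inj.mono hs
  cont := h.cont.mono hs
  op := fun D₁ h1 h2 => h.op D₁ (h1.trans hs) h2
  bd := fun y hy => h.bd y (hs hy)
  sm := fun u hu => (h.sm u hu).mono hs
  sol := fun f u hu => cERel_solMono (h.sol f u hu) hs
  en := fun D₁ h1 h2 => h.en D₁ h1 (h2.trans hs)
  en' := fun D₁ h1 h2 => h.en' D₁ h1 (h2.trans hs)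
  ext := fun c D₁ K h1 h2 => h.ext c D₁ K h1 (h2.trans hs)


end Mfd

end Vale.Agent.P088.TM
end
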