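import Vale.Agent.P088.TM.Defs
import Vale.Agent.P088.H332.Loc1

/-!
# P088, two manifolds: extension of the match to the boundary
-/

open Bundle Manifold MeasureTheory Set Filter Topology
open scoped ContDiff

noncomputable section

set_option linter.all false

namespace Vale.Agent.P088.TM

open Vale.Agent.P088.EYM hiding CUnm_statement LMatch CCont_statement CReg_statement CDiff_statement cCont cReg cDiff cDiff_ext PP SameD Gd CData_statement CMatch_statement CNear_statement CLim_statement CCoord_statement CModEq_statement CClosed_statement CGlobal_statement CChart_statement CTensor_statement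

universe u

section man

variable {n N : ℕ} [NeZero n] {M₁ M₂ : Type u} [TopologicalSpace M₁]
  [ChartedSpace (EuclideanHalfSpace n) M₁] [IsManifold (𝓡∂ n) ∞ M₁] [TopologicalSpace M₂]
  [ChartedSpace (EuclideanHalfSpace n) M₂] [IsManifold (𝓡∂ n) ∞ M₂]

/-- the local Lipschitz bound -/
theorem wCont_step (hU : TM.CUnm_statement.{u}) [T2Space M₁] [MeasurableSpace M₁]
    [BorelSpace M₁] [T2Space M₂] [MeasurableSpace M₂] [BorelSpace M₂]
    {P : One n N M₁} {Q : One n N M₂} {G : Gl M₁ M₂} {W₀ : Set M₂} {Φ : M₂ → M₁}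
    {V : M₂ → EndF N}
    (hΦ : ∀ x ∈ W₀ ∩ Mi n M₂, ∃ O, x ∈ O ∧ TM.LMatch P Q G O Φ V) {x : M₂} {x' : M₁} {z' : E n} {ε : ℝ}
    {U : Set (E n)} (hUo : IsOpen U) {l L : ℝ} (hl : 0 < l) (hL : 0 ≤ L)
    (hlow : ∀ y ∈ Metric.ball z' ε ∩ Hs n, ∀ w : Fin n → ℝ,
      l * ∑ j, w j ^ 2 ≤ ∑ j, ∑ k, (P.loc x').g y j k * w j * w k)
    (hup : ∀ y ∈ U ∩ Hs n, ∀ w : Fin n → ℝ,
      ∑ j, ∑ k, (Q.loc x).g y j k * w j * w k ≤ L * ∑ j, w j ^ 2)
    {y : E n} (hy : y ∈ tg n x) (hyU : y ∈ U) (hyM : (xc n x).symm y ∈ W₀ ∩ Mi n M₂)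
    (hs : Φ ((xc n x).symm y) ∈ (xc n x').source)
    (hb : ‖xc n x' (Φ ((xc n x).symm y)) - z'‖ < ε) :
    ∀ᶠ y' in 𝓝 y, Φ ((xc n x).symm y') ∈ (xc n x').source ∧
      0 < xc n x' (Φ ((xc n x).symm y')) 0 ∧
      ‖xc n x' (Φ ((xc n x).symm y')) - z'‖ < ε ∧
      ‖xc n x' (Φ ((xc n x).symm y')) - xc n x' (Φ ((xc n x).symm y))‖ ≤
        Real.sqrt (L / l) * ‖y' - y‖ := by
  obtain ⟨O, hO, hm⟩ := hΦ _ hyM
  have hsrc : (xc n x).symm y ∈ (xc n x).source := (xc n x).map_target hy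
  have hxy : xc n x ((xc n x).symm y) = y := (xc n x).right_inv hy
  obtain ⟨r, hr, hball, hmap, hsm, -, hg, -⟩ := hU n N M₁ M₂ P Q G O Φ V hm x' x _ hO hsrc hs
  rw [hxy] at hball hmap hsm hg
  obtain ⟨τ, hτ⟩ : ∃ τ : E n → E n, τ = fun y => xc n x' (Φ ((xc n x).symm y)) := ⟨_, rfl⟩
  have hτy : ∀ y, xc n x' (Φ ((xc n x).symm y)) = τ y := fun y => by rw [hτ]
  have hJ : ∀ y, Jac (fun y => xc n x' (Φ ((xc n x).symm y))) y = Jac τ y := fun y => by rw [hτ]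
  simp only [hτy] at hb hmap hsm hg ⊢
  have hJ' : (fun y => τ y) = τ := rfl
  rw [hJ'] at hsm
  have hyb : y ∈ Metric.ball y r := Metric.mem_ball_self hr
  have hdiff : ∀ w ∈ Metric.ball y r, DifferentiableAt ℝ τ w := fun w hw =>
    (hsm.contDiffAt (Metric.isOpen_ball.mem_nhds hw)).differentiableAt (by simp)
  have hcont : ContinuousAt τ y := (hdiff y hyb).continuousAt
  have h1 : ∀ᶠ w in 𝓝 y, w ∈ Metric.ball y r ∧ w ∈ U ∧ ‖τ w - z'‖ < ε := by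
    have e1 : ∀ᶠ w in 𝓝 y, w ∈ Metric.ball y r := Metric.isOpen_ball.mem_nhds hyb
    have e2 : ∀ᶠ w in 𝓝 y, w ∈ U := hUo.mem_nhds hyU
    have e3 : ∀ᶠ w in 𝓝 y, ‖τ w - z'‖ < ε :=
      ((hcont.sub continuousAt_const).norm).eventually_lt continuousAt_const hb
    exact e1.and (e2.and e3)
  obtain ⟨ρ, hρ, hρs⟩ := Metric.eventually_nhds_iff_ball.1 h1
  have hbound : ∀ w ∈ Metric.ball y ρ, ‖fderiv ℝ τ w‖ ≤ Real.sqrt (L / l) := by
    intro w hw
    obtain ⟨hwr, hwU, hwε⟩ := hρs w hw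
    have hw0 : 0 < w 0 := (hball hwr).2
    have hτH : τ w ∈ Metric.ball z' ε ∩ Hs n := by
      refine ⟨by rwa [Metric.mem_ball, dist_eq_norm], ?_⟩
      exact (hmap w hwr).2.2.le
    exact cCont_bound hw0 (hdiff w hwr) (hg w hwr) hl hL (hlow _ hτH) (hup w ⟨hwU, hw0.le⟩)
  filter_upwards [Metric.ball_mem_nhds y hρ] with w hw
  obtain ⟨hwr, hwU, hwε⟩ := hρs w hw
  refine ⟨(hmap w hwr).2.1, (hmap w hwr).2.2, hwε, ?_⟩
  exact (convex_ball y ρ).norm_image_sub_le_of_norm_fderiv_le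
    (fun v hv => hdiff v (hρs v hv).1) hbound (Metric.mem_ball_self hρ) hw

end man

set_option maxHeartbeats 400000 in
/-- Continuous extension of a match on `W₀` to the boundary points of `W₀`. -/
theorem wCont (hUnm : TM.CUnm_statement.{u}) (hLoc : CLoc_statement.{u})
    (hConn : CConn_statement.{u}) {n N : ℕ} [NeZero n] {M₁ M₂ : Type u}
    [TopologicalSpace M₁] [ChartedSpace (EuclideanHalfSpace n) M₁]
    [IsManifold (𝓡∂ n) ∞ M₁] [T2Space M₁] [CompactSpace M₁] [ConnectedSpace M₁]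
    [MeasurableSpace M₁] [BorelSpace M₁] [TopologicalSpace M₂]
    [ChartedSpace (EuclideanHalfSpace n) M₂]
    [IsManifold (𝓡∂ n) ∞ M₂] [T2Space M₂] [CompactSpace M₂] [ConnectedSpace M₂]
    [MeasurableSpace M₂] [BorelSpace M₂]
    (P : One n N M₁) (Q : One n N M₂) (G : Gl M₁ M₂) {W₀ : Set M₂} (hW₀ : IsOpen W₀)
    (Φ : M₂ → M₁) (V : M₂ → EndF N)
    (hΦ : ∀ x ∈ W₀ ∩ Mi n M₂, ∃ O, x ∈ O ∧ TM.LMatch P Q G O Φ V) (x : M₂) (hxW : x ∈ W₀) :
    ∃ x' : M₁, Tendsto Φ (𝓝[Mi n M₂] x) (𝓝 x') := by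
  obtain ⟨hrel₁, hok₁, -, -⟩ := hLoc n N M₁
  obtain ⟨hrel, hok, hbdry, -⟩ := hLoc n N M₂
  obtain ⟨hMio, -, hdense⟩ := hConn n M₂
  have hne : (𝓝[Mi n M₂] x).NeBot := mem_closure_iff_nhdsWithin_neBot.1 (hdense x)
  -- a cluster point
  obtain ⟨x', hx'⟩ := exists_clusterPt_of_compactSpace (map Φ (𝓝[Mi n M₂] x))
  refine ⟨x', ?_⟩
  have hclus : ∀ U ∈ 𝓝 x', ∃ᶠ m in 𝓝[Mi n M₂] x, Φ m ∈ U := by
    intro U hU
    exact (mapClusterPt_iff_frequently.1 hx') U hU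
  -- the two half balls
  obtain ⟨R, hR, hRs₀⟩ : ∃ S > 0, Metric.closedBall (xc n x x) S ∩ Hs n ⊆ tgW n W₀ x := by
    obtain ⟨O, hO, hOe⟩ := tgW_rel hrel hW₀ x
    have hz : xc n x x ∈ tgW n W₀ x := ⟨mem_extChartAt_target x, by
      rw [mem_preimage, extChartAt_to_inv]
      exact hxW⟩
    rw [hOe] at hz
    obtain ⟨S, hS, hSs⟩ := Metric.nhds_basis_closedBall.mem_iff.1 (hO.mem_nhds hz.1)
    refine ⟨S, hS, ?_⟩
    rw [hOe]
    exact inter_subset_inter_left _ hSs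
  have hRs : Metric.closedBall (xc n x x) R ∩ Hs n ⊆ tg n x := hRs₀.trans (tgW_sub W₀ x)
  obtain ⟨S, hS, hSs⟩ := cCont_halfball (hrel₁ x')
  obtain ⟨z, hz⟩ : ∃ z : E n, z = xc n x x := ⟨_, rfl⟩
  obtain ⟨z', hz'⟩ : ∃ z' : E n, z' = xc n x' x' := ⟨_, rfl⟩
  rw [← hz] at hRs hRs₀
  rw [← hz'] at hSs
  obtain ⟨C, hC0, hC⟩ : ∃ C, 0 ≤ C ∧ ∀ (p : Fin n × Fin n), ∀ y ∈ Metric.closedBall z R ∩ Hs n,
      |(Q.loc x).g y p.1 p.2| ≤ C :=
    AICacc_bound (cCont_compact z R) (κ := Fin n × Fin n)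
      (f := fun p y => (Q.loc x).g y p.1 p.2) fun p =>
        (((hok Q x).g_smooth p.1 p.2).continuousOn).mono hRs
  obtain ⟨l, hl, hlow⟩ := AICacc_ell (cCont_compact z' S)
    (a := fun j k y => (P.loc x').g y j k)
    (fun j k => (((hok₁ P x').g_smooth j k).continuousOn).mono hSs)
    (fun y hy => (hok₁ P x').g_pos y (hSs hy))
  obtain ⟨L, hLdef⟩ : ∃ L : ℝ, L = Real.sqrt ((C * n) / l) := ⟨_, rfl⟩
  have hL0 : 0 ≤ L := by
    rw [hLdef]
    exact Real.sqrt_nonneg _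
  have hup : ∀ y ∈ Metric.ball z R ∩ Hs n, ∀ w : Fin n → ℝ,
      ∑ j, ∑ k, (Q.loc x).g y j k * w j * w k ≤ (C * n) * ∑ j, w j ^ 2 := by
    intro y hy w
    exact cCont_upper (fun j k => hC (j, k) y ⟨Metric.ball_subset_closedBall hy.1, hy.2⟩) w
  -- points of the charts
  have hint : ∀ y ∈ tg n x, 0 < y 0 → (xc n x).symm y ∈ Mi n M₂ := by
    intro y hy hy0
    have h1 : (xc n x).symm y ∉ (𝓡∂ n).boundary M₂ := by
      rw [hbdry x _ ((xc n x).map_target hy), (xc n x).right_inv hy]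
      exact hy0.ne'
    change (xc n x).symm y ∈ (𝓡∂ n).interior M₂
    rw [← ModelWithCorners.compl_boundary]
    exact h1
  have hint' : ∀ m ∈ Mi n M₂, m ∈ (xc n x).source → 0 < xc n x m 0 := by
    intro m hm hms
    have h1 : m ∉ (𝓡∂ n).boundary M₂ := by
      rw [← ModelWithCorners.compl_interior]
      exact fun h => h hm
    rw [hbdry x m hms] at h1
    have h2 : 0 ≤ xc n x m 0 := (hrel x).subset ((xc n x).map_source hms)
    exact lt_of_le_of_ne h2 (Ne.symm h1)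
  have hΦc : ∀ m ∈ W₀ ∩ Mi n M₂, ContinuousAt Φ m := by
    intro m hm
    obtain ⟨O, hO, hm'⟩ := hΦ m hm
    exact (hm'.smφ.continuousOn).continuousAt (hm'.isOpen.mem_nhds hO)
  -- the estimate
  intro W hW
  have hWn : (xc n x').symm ⁻¹' W ∈ 𝓝 z' := by
    rw [hz']
    exact (continuousAt_extChartAt_symm x').preimage_mem_nhds (by
      rw [extChartAt_to_inv]
      exact hW)
  obtain ⟨ε₁, hε₁, hWε⟩ := Metric.nhds_basis_closedBall.mem_iff.1 hWn
  obtain ⟨ε, hε, hεS, hεε₁⟩ : ∃ ε : ℝ, 0 < ε ∧ ε ≤ S ∧ ε ≤ ε₁ :=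
    ⟨min S ε₁, lt_min hS hε₁, min_le_left _ _, min_le_right _ _⟩
  obtain ⟨K, hKdef⟩ : ∃ K : Set M₁, K = (xc n x').symm '' (Metric.closedBall z' ε ∩ Hs n) :=
    ⟨_, rfl⟩
  have hεsub : Metric.closedBall z' ε ∩ Hs n ⊆ tg n x' :=
    (inter_subset_inter_left _ (Metric.closedBall_subset_closedBall hεS)).trans hSs
  have hKc : IsClosed K := by
    rw [hKdef]
    refine ((cCont_compact z' ε).image_of_continuousOn ?_).isClosed
    exact (continuousOn_extChartAt_symm x').mono hεsub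
  have hKW : K ⊆ W := by
    rw [hKdef]
    rintro _ ⟨w, hw, rfl⟩
    exact hWε (Metric.closedBall_subset_closedBall hεε₁ hw.1)
  have hKs : K ⊆ (xc n x').source := by
    rw [hKdef]
    rintro _ ⟨w, hw, rfl⟩
    exact (xc n x').map_target (hεsub hw)
  have hKmem : ∀ m ∈ (xc n x').source, ‖xc n x' m - z'‖ ≤ ε → m ∈ K := by
    intro m hm hmε
    rw [hKdef]
    refine ⟨xc n x' m, ⟨?_, (hrel₁ x').subset ((xc n x').map_source hm)⟩, (xc n x').left_inv hm⟩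
    rwa [Metric.mem_closedBall, dist_eq_norm]
  obtain ⟨δ, hδ, hδR, hδL⟩ : ∃ δ : ℝ, 0 < δ ∧ δ ≤ R ∧ L * (2 * δ) < ε / 2 := by
    refine ⟨min R (ε / (8 * (L + 1))), lt_min hR (by positivity), min_le_left _ _, ?_⟩
    calc L * (2 * min R (ε / (8 * (L + 1)))) ≤ (L + 1) * (2 * (ε / (8 * (L + 1)))) := by
          gcongr
          · linarith
          · exact min_le_right _ _
      _ = ε / 4 := by
          field_simp
          norm_num
      _ < ε / 2 := by linarith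
  -- the base point
  have hnear : ∀ᶠ m in 𝓝[Mi n M₂] x, m ∈ (xc n x).source ∧ xc n x m ∈ Metric.ball z δ ∧
      m ∈ Mi n M₂ := by
    have h1 : ∀ᶠ m in 𝓝[Mi n M₂] x, m ∈ (xc n x).source :=
      mem_nhdsWithin_of_mem_nhds (extChartAt_source_mem_nhds x)
    have h2 : ∀ᶠ m in 𝓝[Mi n M₂] x, xc n x m ∈ Metric.ball z δ := by
      refine mem_nhdsWithin_of_mem_nhds ?_
      refine (continuousAt_extChartAt x).preimage_mem_nhds ?_
      rw [← hz]
      exact Metric.ball_mem_nhds z hδ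
    exact h1.and (h2.and self_mem_nhdsWithin)
  have hU' : (xc n x').source ∩ (xc n x') ⁻¹' Metric.ball z' (ε / 2) ∈ 𝓝 x' := by
    refine inter_mem (extChartAt_source_mem_nhds x') ?_
    refine (continuousAt_extChartAt x').preimage_mem_nhds ?_
    rw [← hz']
    exact Metric.ball_mem_nhds z' (half_pos hε)
  obtain ⟨m₀, hm₀, hm₀s, hm₀b, hm₀M⟩ := ((hclus _ hU').and_eventually hnear).exists
  -- all points near `x`
  have hall : ∀ᶠ m in 𝓝[Mi n M₂] x, Φ m ∈ W := by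
    filter_upwards [hnear] with m hm
    apply hKW
    obtain ⟨hms, hmb, hmM⟩ := hm
    obtain ⟨y₀, hy₀⟩ : ∃ y₀ : E n, y₀ = xc n x m₀ := ⟨_, rfl⟩
    obtain ⟨y₁, hy₁⟩ : ∃ y₁ : E n, y₁ = xc n x m := ⟨_, rfl⟩
    have hy₀0 : 0 < y₀ 0 := by
      rw [hy₀]
      exact hint' m₀ hm₀M hm₀s
    have hy₁0 : 0 < y₁ 0 := by
      rw [hy₁]
      exact hint' m hmM hms
    rw [← hy₀] at hm₀b
    rw [← hy₁] at hmb
    obtain ⟨γ, hγ⟩ : ∃ γ : ℝ → E n, γ = fun t => y₀ + t • (y₁ - y₀) := ⟨_, rfl⟩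
    have hγ0 : γ 0 = y₀ := by simp [hγ]
    have hγ1 : γ 1 = y₁ := by simp [hγ]
    have hγc : Continuous γ := by
      rw [hγ]
      fun_prop
    have hγD : ∀ t ∈ Icc (0 : ℝ) 1, γ t ∈ Metric.ball z δ ∧ 0 < γ t 0 := by
      intro t ht
      constructor
      · have := (convex_ball z δ).add_smul_sub_mem hm₀b hmb ht
        rw [hγ]
        exact this
      · rw [hγ]
        simp only [PiLp.add_apply, PiLp.smul_apply, PiLp.sub_apply, smul_eq_mul]
        rcases eq_or_lt_of_le ht.1 with h | h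
        · rw [← h]
          simpa using hy₀0
        · nlinarith [mul_pos h hy₁0, mul_nonneg (sub_nonneg.2 ht.2) hy₀0.le]
    have hγt : ∀ t ∈ Icc (0 : ℝ) 1, γ t ∈ tg n x := by
      intro t ht
      apply hRs
      refine ⟨?_, (hγD t ht).2.le⟩
      exact Metric.ball_subset_closedBall (Metric.ball_subset_ball hδR (hγD t ht).1)
    have hγM : ∀ t ∈ Icc (0 : ℝ) 1, (xc n x).symm (γ t) ∈ W₀ ∩ Mi n M₂ := fun t ht =>
      ⟨(hRs₀ ⟨Metric.ball_subset_closedBall (Metric.ball_subset_ball hδR (hγD t ht).1),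
        (hγD t ht).2.le⟩).2, hint _ (hγt t ht) (hγD t ht).2⟩
    have hcc : ContinuousOn (fun t => Φ ((xc n x).symm (γ t))) (Icc 0 1) := by
      intro t ht
      have h1 : ContinuousWithinAt (fun t => (xc n x).symm (γ t)) (Icc 0 1) t :=
        ((continuousOn_extChartAt_symm x).comp hγc.continuousOn hγt) t ht
      exact ContinuousAt.comp_continuousWithinAt (g := Φ) (f := fun t => (xc n x).symm (γ t))
        (hΦc _ (hγM t ht)) h1
    have hdist : ‖y₁ - y₀‖ < 2 * δ := by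
      rw [Metric.mem_ball, dist_eq_norm] at hm₀b hmb
      calc ‖y₁ - y₀‖ = ‖(y₁ - z) - (y₀ - z)‖ := by
            congr 1
            abel
        _ ≤ ‖y₁ - z‖ + ‖y₀ - z‖ := norm_sub_le _ _
        _ < 2 * δ := by linarith
    have hs0 : (xc n x).symm (γ 0) = m₀ := by
      rw [hγ0, hy₀]
      exact (xc n x).left_inv hm₀s
    have hs1 : (xc n x).symm (γ 1) = m := by
      rw [hγ1, hy₁]
      exact (xc n x).left_inv hms
    have hm₀' : ‖xc n x' (Φ m₀) - z'‖ < ε / 2 := by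
      have := hm₀.2
      rwa [mem_preimage, Metric.mem_ball, dist_eq_norm] at this
    have hfin := cCont_curve (c := fun t => Φ ((xc n x).symm (γ t))) hcc hKc
      (η := fun m => xc n x' m) ((continuousOn_extChartAt x').mono hKs) (z := z') (ε := ε)
      (B := L * ‖y₁ - y₀‖) (mul_nonneg hL0 (norm_nonneg _))
      (by
        rw [hs0]
        have h2 : L * ‖y₁ - y₀‖ ≤ L * (2 * δ) := mul_le_mul_of_nonneg_left hdist.le hL0
        linarith)
      (by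
        rw [hs0]
        exact hKmem _ hm₀.1 (by linarith))
      (by
        intro t ht htK htε
        have htI : t ∈ Icc (0 : ℝ) 1 := ⟨ht.1, ht.2.le⟩
        have h3 := wCont_step hUnm hΦ (x := x) (x' := x') (z' := z') (ε := ε)
          (U := Metric.ball z R) Metric.isOpen_ball hl (by positivity)
          (fun y hy => hlow y ⟨Metric.closedBall_subset_closedBall hεS
            (Metric.ball_subset_closedBall hy.1), hy.2⟩) hup (hγt t htI)
          (Metric.ball_subset_ball hδR (hγD t htI).1) (hγM t htI) (hKs htK) htε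
        have h4 := (hγc.tendsto t).eventually h3
        filter_upwards [mem_nhdsWithin_of_mem_nhds h4, self_mem_nhdsWithin] with t' ht' ht''
        refine ⟨hKmem _ ht'.1 ht'.2.2.1.le, ?_⟩
        refine ht'.2.2.2.trans (le_of_eq ?_)
        rw [← hLdef]
        have h5 : γ t' - γ t = (t' - t) • (y₁ - y₀) := by
          rw [hγ]
          simp only
          module
        rw [h5, norm_smul, Real.norm_of_nonneg (sub_nonneg.2 (le_of_lt ht''))]
        ring)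
    have h6 := hfin 1 (right_mem_Icc.2 zero_le_one)
    rwa [hs1] at h6
  exact hall

/-- Smooth extension of a match on `W₀` to the boundary points of `W₀`. -/
theorem wReg (hA : AExtSys_statement) (hB : BChr_statement) (hUnm : TM.CUnm_statement.{u})
    (hLoc : CLoc_statement.{u}) {n N : ℕ} [NeZero n] {M₁ M₂ : Type u}
    [TopologicalSpace M₁] [ChartedSpace (EuclideanHalfSpace n) M₁]
    [IsManifold (𝓡∂ n) ∞ M₁] [T2Space M₁] [CompactSpace M₁] [ConnectedSpace M₁]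
    [MeasurableSpace M₁] [BorelSpace M₁] [TopologicalSpace M₂]
    [ChartedSpace (EuclideanHalfSpace n) M₂]
    [IsManifold (𝓡∂ n) ∞ M₂] [T2Space M₂] [CompactSpace M₂] [ConnectedSpace M₂]
    [MeasurableSpace M₂] [BorelSpace M₂]
    (P : One n N M₁) (Q : One n N M₂) (G : Gl M₁ M₂) {W₀ : Set M₂} (hW₀ : IsOpen W₀)
    (Φ : M₂ → M₁) (V : M₂ → EndF N)
    (hmatch : ∀ x ∈ W₀ ∩ Mi n M₂, ∃ O, x ∈ O ∧ TM.LMatch P Q G O Φ V) (x : M₂) (x' : M₁)
    (hxW : x ∈ W₀) (hT : Tendsto Φ (𝓝[Mi n M₂] x) (𝓝 x')) :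
    ∃ (O : Set M₂) (Φ' : M₂ → M₁) (V' : M₂ → EndF N), IsOpen O ∧
        x ∈ O ∧ ContMDiffOn (𝓡∂ n) (𝓡∂ n) ∞ Φ' O ∧ ContMDiffOn (𝓡∂ n) 𝓘(ℝ, EndF N) ∞ V' O ∧
        ∀ m ∈ O ∩ Mi n M₂, Φ' m = Φ m ∧ V' m = V m := by
  obtain ⟨hrel₁, hok₁, -, -⟩ := hLoc n N M₁
  obtain ⟨hrel, hok, hbd, -⟩ := hLoc n N M₂
  have hint : ∀ (p m : M₂), m ∈ (xc n p).source → 0 < xc n p m 0 → m ∈ Mi n M₂ := by
    intro p m hm h0
    have : m ∉ (𝓡∂ n).boundary M₂ := fun hb => h0.ne' ((hbd p m hm).1 hb)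
    rcases (𝓡∂ n).isInteriorPoint_or_isBoundaryPoint m with h | h
    · exact h
    · exact absurd h this
  have hpos : ∀ (p m : M₂), m ∈ (xc n p).source → m ∈ Mi n M₂ → 0 < xc n p m 0 := by
    intro p m hm hi
    have hmem : xc n p m ∈ tg n p := (xc n p).map_source hm
    have h0 : (0 : ℝ) ≤ xc n p m 0 := (hrel p).subset hmem
    refine lt_of_le_of_ne h0 fun h => ?_
    have hb : m ∈ (𝓡∂ n).boundary M₂ := (hbd p m hm).2 h.symm
    have hd := (ModelWithCorners.disjoint_interior_boundary (I := 𝓡∂ n) (M := M₂))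
    exact Set.disjoint_left.1 hd hi hb
  -- radii
  have hxs : x ∈ (xc n x).source := mem_extChartAt_source x
  have hxs' : x' ∈ (xc n x').source := mem_extChartAt_source x'
  set z : E n := xc n x x with hz
  set z' : E n := xc n x' x' with hz'
  have hzt : z ∈ tg n x := (xc n x).map_source hxs
  have hzt' : z' ∈ tg n x' := (xc n x').map_source hxs'
  obtain ⟨O₂, hO₂, hO₂e⟩ := hrel x
  obtain ⟨O₁, hO₁, hO₁e⟩ := hrel₁ x'
  obtain ⟨ε', hε', hb'⟩ := Metric.isOpen_iff.1 hO₁ z' (by rw [hO₁e] at hzt'; exact hzt'.1)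
  set r' : ℝ := ε' / 2 with hr'
  set r'' : ℝ := ε' / 4 with hr''
  have hN' : (xc n x').source ∩ (xc n x') ⁻¹' (Metric.ball z' r'') ∈ 𝓝 x' := by
    refine ((continuousOn_extChartAt x').isOpen_inter_preimage (isOpen_extChartAt_source x')
      Metric.isOpen_ball).mem_nhds ⟨hxs', ?_⟩
    exact Metric.mem_ball_self (by positivity)
  have hU : ∀ᶠ m in 𝓝 x, m ∈ Mi n M₂ → Φ m ∈ (xc n x').source ∩
      (xc n x') ⁻¹' (Metric.ball z' r'') := eventually_nhdsWithin_iff.1 (hT hN')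
  have hsz : (xc n x).symm z = x := (xc n x).left_inv hxs
  have hU' : ∀ᶠ y in 𝓝 z, (xc n x).symm y ∈ Mi n M₂ → Φ ((xc n x).symm y) ∈ (xc n x').source ∩
      (xc n x') ⁻¹' (Metric.ball z' r'') := by
    have hc : ContinuousAt (xc n x).symm z := continuousAt_extChartAt_symm x
    have hc' : Tendsto (xc n x).symm (𝓝 z) (𝓝 x) := by
      have := hc.tendsto
      rwa [hsz] at this
    exact hc'.eventually hU
  have hUW : ∀ᶠ y in 𝓝 z, (xc n x).symm y ∈ W₀ := by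
    have hc : ContinuousAt (xc n x).symm z := continuousAt_extChartAt_symm x
    have hc' : Tendsto (xc n x).symm (𝓝 z) (𝓝 x) := by
      have := hc.tendsto
      rwa [hsz] at this
    exact hc'.eventually (hW₀.mem_nhds hxW)
  obtain ⟨ε, hε, hb⟩ := Metric.mem_nhds_iff.1
    (Filter.inter_mem (Filter.inter_mem (hO₂.mem_nhds (by rw [hO₂e] at hzt; exact hzt.1)) hUW) hU')
  set r : ℝ := ε / 2 with hr
  have hr0 : 0 < r := by positivity
  have hcb : Metric.closedBall z r ⊆ Metric.ball z ε :=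
    Metric.closedBall_subset_ball (by rw [hr]; linarith)
  have hcQ : Metric.closedBall z r ∩ Hs n ⊆ tg n x := by
    intro y hy
    rw [hO₂e]
    exact ⟨(hb (hcb hy.1)).1.1, hy.2⟩
  have hcP : Metric.closedBall z' r' ∩ Hs n ⊆ tg n x' := by
    intro y hy
    rw [hO₁e]
    exact ⟨hb' (Metric.closedBall_subset_ball (by rw [hr']; linarith) hy.1), hy.2⟩
  have hHB : HB z r ⊆ tg n x := fun y hy => hcQ ⟨Metric.ball_subset_closedBall hy.1, hy.2⟩
  set D : Set (E n) := Metric.ball z r ∩ {y | 0 < y 0} with hD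
  have hDt : D ⊆ tg n x := fun y hy =>
    hHB ⟨hy.1, le_of_lt (show 0 < y 0 from hy.2)⟩
  have hDo : IsOpen D := Metric.isOpen_ball.inter (isOpen_lt continuous_const (continuous_coord 0))
  have hDi : ∀ y ∈ D, (xc n x).symm y ∈ Mi n M₂ := fun y hy =>
    hint x _ ((xc n x).map_target (hDt hy)) (by rw [(xc n x).right_inv (hDt hy)]; exact hy.2)
  have hDN : ∀ y ∈ D, Φ ((xc n x).symm y) ∈ (xc n x').source ∩
      (xc n x') ⁻¹' (Metric.ball z' r'') := fun y hy =>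
    (hb (hcb (Metric.ball_subset_closedBall hy.1))).2 (hDi y hy)
  set τ : E n → E n := fun y => xc n x' (Φ ((xc n x).symm y)) with hτ
  set W : E n → EndF N := fun y => V ((xc n x).symm y) with hW
  have hloc : ∀ y ∈ D, ∃ ρ > 0, 0 < τ y 0 ∧ W y ∈ unitary (EndF N) ∧
      ContDiffOn ℝ ∞ τ (Metric.ball y ρ) ∧ ContDiffOn ℝ ∞ W (Metric.ball y ρ) ∧
      ((Q.loc x).g y = (Jac τ y).transpose * (P.loc x').g (τ y) * Jac τ y) ∧
      ∀ j, pd j W y + (Q.loc x).B j y * W y = W y * ∑ k, Jac τ y k j • (P.loc x').B k (τ y) := by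
    intro y hy
    obtain ⟨O, hxO, hL⟩ := hmatch _ ⟨(hb (hcb (Metric.ball_subset_closedBall hy.1))).1.2, hDi y hy⟩
    obtain ⟨ρ, hρ, -, h2, h3, h4, h5, h6⟩ := hUnm n N M₁ M₂ P Q G O Φ V hL x' x _ hxO
      ((xc n x).map_target (hDt hy)) (hDN y hy).1
    rw [(xc n x).right_inv (hDt hy)] at h2 h3 h4 h5 h6
    have hy0 : y ∈ Metric.ball y ρ := Metric.mem_ball_self hρ
    exact ⟨ρ, hρ, (h2 y hy0).2.2, hL.unit _ hxO, h3, h4, h5 y hy0, h6 y hy0⟩
  have hτs : ContDiffOn ℝ ∞ τ D := by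
    intro y hy
    obtain ⟨ρ, hρ, -, -, h3, -⟩ := hloc y hy
    exact (h3.contDiffAt (Metric.ball_mem_nhds y hρ)).contDiffWithinAt
  have hWs : ContDiffOn ℝ ∞ W D := by
    intro y hy
    obtain ⟨ρ, hρ, -, -, -, h4, -⟩ := hloc y hy
    exact (h4.contDiffAt (Metric.ball_mem_nhds y hρ)).contDiffWithinAt
  obtain ⟨s', s1, s2, s3⟩ := cReg_local hA hB (z := z) (z' := z') (r := r) (r' := r') (r'' := r'')
    hr0 (by rw [hr', hr'']; linarith) ((hrel x).subset hzt) (hrel x) (hrel₁ x') (hok Q x)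
    (hok₁ P x') hcQ hcP hτs hWs
    (fun y hy => ⟨Metric.ball_subset_closedBall (hDN y hy).2, by
      obtain ⟨ρ, hρ, h1, -⟩ := hloc y hy
      exact h1⟩)
    (fun y hy => by
      obtain ⟨ρ, hρ, -, h1, -⟩ := hloc y hy
      exact h1)
    (fun y hy => by
      obtain ⟨ρ, hρ, -, -, -, -, h1, -⟩ := hloc y hy
      exact h1)
    (fun y hy => by
      obtain ⟨ρ, hρ, -, -, -, -, -, h1⟩ := hloc y hy
      exact h1)
  have hs't : ∀ y ∈ HB z r, (s' y).1 ∈ tg n x' := fun y hy => by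
    have h := s3 y hy
    refine hcP ⟨Metric.closedBall_subset_closedBall ?_ h.1, h.2⟩
    rw [hr', hr'']
    linarith
  set O : Set M₂ := (xc n x).symm '' (HB z r) with hO
  have hOeq : O = (xc n x).source ∩ (xc n x) ⁻¹' (Metric.ball z r) := by
    rw [hO, (xc n x).symm_image_eq_source_inter_preimage hHB]
    ext m
    constructor
    · rintro ⟨h1, h2⟩
      exact ⟨h1, h2.1⟩
    · rintro ⟨h1, h2⟩
      exact ⟨h1, h2, (hrel x).subset ((xc n x).map_source h1)⟩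
  have hOm : ∀ m ∈ O, m ∈ (xc n x).source ∧ xc n x m ∈ HB z r := by
    intro m hm
    rw [hOeq] at hm
    exact ⟨hm.1, hm.2, (hrel x).subset ((xc n x).map_source hm.1)⟩
  have hxc : ContMDiffOn (𝓡∂ n) 𝓘(ℝ, E n) ∞ (xc n x) O :=
    (contMDiffOn_extChartAt (I := 𝓡∂ n) (x := x) (n := ∞)).mono (fun m hm => by
      rw [← extChartAt_source (𝓡∂ n)]; exact (hOm m hm).1)
  refine ⟨O, fun m => (xc n x').symm (s' (xc n x m)).1, fun m => (s' (xc n x m)).2, ?_, ?_, ?_,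
    ?_, ?_⟩
  · rw [hOeq]
    exact (continuousOn_extChartAt x).isOpen_inter_preimage (isOpen_extChartAt_source x)
      Metric.isOpen_ball
  · rw [hOeq]
    exact ⟨hxs, Metric.mem_ball_self hr0⟩
  · have f1 : ContDiffOn ℝ ∞ (fun y => (s' y).1) (HB z r) := contDiff_fst.comp_contDiffOn s1
    have e1 : ContMDiffOn (𝓡∂ n) 𝓘(ℝ, E n) ∞ (fun m => (s' (xc n x m)).1) O :=
      (contMDiffOn_iff_contDiffOn.2 f1).comp hxc (fun m hm => (hOm m hm).2)
    exact (contMDiffOn_extChartAt_symm x').comp e1 (fun m hm => hs't _ (hOm m hm).2)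
  · have f1 : ContDiffOn ℝ ∞ (fun y => (s' y).2) (HB z r) := contDiff_snd.comp_contDiffOn s1
    exact (contMDiffOn_iff_contDiffOn.2 f1).comp hxc (fun m hm => (hOm m hm).2)
  · rintro m ⟨hm, hmi⟩
    obtain ⟨hms, hmB⟩ := hOm m hm
    have h0 := hpos x m hms hmi
    have hyD : xc n x m ∈ D := ⟨hmB.1, h0⟩
    have h1 := s2 _ hmB h0
    have h2 : (xc n x).symm (xc n x m) = m := (xc n x).left_inv hms
    have h3 := (hDN _ hyD).1
    rw [h2] at h3
    refine ⟨?_, ?_⟩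
    · show (xc n x').symm (s' (xc n x m)).1 = Φ m
      rw [h1]
      show (xc n x').symm (xc n x' (Φ ((xc n x).symm (xc n x m)))) = Φ m
      rw [h2]
      exact (xc n x').left_inv h3
    · show (s' (xc n x m)).2 = V m
      rw [h1]
      show V ((xc n x).symm (xc n x m)) = V m
      rw [h2]

/-- Local extensions glue to an extension on `W`. -/
theorem wGlueExt {n : ℕ} [NeZero n] {M : Type u} [TopologicalSpace M]
    [ChartedSpace (EuclideanHalfSpace n) M] {H' : Type*} [TopologicalSpace H'] {E' : Type*}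
    [NormedAddCommGroup E'] [NormedSpace ℝ E'] (J : ModelWithCorners ℝ E' H') {Z : Type*}
    [TopologicalSpace Z] [ChartedSpace H' Z] [T2Space Z] {S W : Set M} (hW : IsOpen W)
    (hd : ∀ x : M, x ∈ closure S) (f : M → Z)
    (h : ∀ x ∈ W, ∃ (O : Set M) (f' : M → Z), IsOpen O ∧ x ∈ O ∧
      ContMDiffOn (𝓡∂ n) J ∞ f' O ∧ ∀ m ∈ O ∩ S, f' m = f m) :
    ∃ F : M → Z, ContMDiffOn (𝓡∂ n) J ∞ F W ∧ ∀ x ∈ W ∩ S, F x = f x := by
  haveI : Nonempty (M → Z) := ⟨f⟩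
  choose! O f' hO hx hs he using h
  have key : ∀ x ∈ W, ∀ m ∈ O x ∩ W, f' m m = f' x m := by
    intro x hxW m hmm
    obtain ⟨hm, hmW⟩ := hmm
    have hne : (𝓝[S] m).NeBot := mem_closure_iff_nhdsWithin_neBot.1 (hd m)
    have c1 : ContinuousAt (f' m) m :=
      ((hs m hmW).continuousOn).continuousAt ((hO m hmW).mem_nhds (hx m hmW))
    have c2 : ContinuousAt (f' x) m :=
      ((hs x hxW).continuousOn).continuousAt ((hO x hxW).mem_nhds hm)
    have c1' : Tendsto (f' m) (𝓝[S] m) (𝓝 (f' m m)) := c1.mono_left nhdsWithin_le_nhds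
    have c2' : Tendsto (f' x) (𝓝[S] m) (𝓝 (f' x m)) := c2.mono_left nhdsWithin_le_nhds
    refine tendsto_nhds_unique_of_eventuallyEq c1' c2' ?_
    have e1 : O m ∩ O x ∈ 𝓝[S] m :=
      mem_nhdsWithin_of_mem_nhds (inter_mem ((hO m hmW).mem_nhds (hx m hmW))
        ((hO x hxW).mem_nhds hm))
    filter_upwards [e1, self_mem_nhdsWithin] with y hy hyS
    rw [he m hmW y ⟨hy.1, hyS⟩, he x hxW y ⟨hy.2, hyS⟩]
  refine ⟨fun x => f' x x, fun x hxW => ?_, fun x hxS => he x hxS.1 x ⟨hx x hxS.1, hxS.2⟩⟩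
  refine (((hs x hxW).contMDiffAt ((hO x hxW).mem_nhds (hx x hxW))).congr_of_eventuallyEq
    ?_).contMDiffWithinAt
  filter_upwards [(hO x hxW).mem_nhds (hx x hxW), hW.mem_nhds hxW] with m hm hmW
  exact key x hxW m ⟨hm, hmW⟩

/-- Smooth extension of a match on `W₀` to all of `W₀`. -/
theorem wExt (hA : AExtSys_statement) (hB : BChr_statement) (hUnm : TM.CUnm_statement.{u})
    (hLoc : CLoc_statement.{u}) (hConn : CConn_statement.{u}) {n N : ℕ} [NeZero n] {M₁ M₂ : Type u}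
    [TopologicalSpace M₁] [ChartedSpace (EuclideanHalfSpace n) M₁]
    [IsManifold (𝓡∂ n) ∞ M₁] [T2Space M₁] [CompactSpace M₁] [ConnectedSpace M₁]
    [MeasurableSpace M₁] [BorelSpace M₁] [TopologicalSpace M₂]
    [ChartedSpace (EuclideanHalfSpace n) M₂]
    [IsManifold (𝓡∂ n) ∞ M₂] [T2Space M₂] [CompactSpace M₂] [ConnectedSpace M₂]
    [MeasurableSpace M₂] [BorelSpace M₂]
    (P : One n N M₁) (Q : One n N M₂) (G : Gl M₁ M₂) {W₀ : Set M₂} (hW₀ : IsOpen W₀)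
    (Φ : M₂ → M₁) (V : M₂ → EndF N)
    (h : ∀ x ∈ W₀ ∩ Mi n M₂, ∃ O, x ∈ O ∧ TM.LMatch P Q G O Φ V) :
    (∃ F : M₂ → M₁, ContMDiffOn (𝓡∂ n) (𝓡∂ n) ∞ F W₀ ∧ ∀ x ∈ W₀ ∩ Mi n M₂, F x = Φ x) ∧
    ∃ H : M₂ → EndF N, ContMDiffOn (𝓡∂ n) 𝓘(ℝ, EndF N) ∞ H W₀ ∧
      ∀ x ∈ W₀ ∩ Mi n M₂, H x = V x := by
  obtain ⟨-, -, hd⟩ := hConn n M₂
  have key : ∀ x ∈ W₀, ∃ (O : Set M₂) (Φ' : M₂ → M₁) (V' : M₂ → EndF N), IsOpen O ∧
        x ∈ O ∧ ContMDiffOn (𝓡∂ n) (𝓡∂ n) ∞ Φ' O ∧ ContMDiffOn (𝓡∂ n) 𝓘(ℝ, EndF N) ∞ V' O ∧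
        ∀ m ∈ O ∩ Mi n M₂, Φ' m = Φ m ∧ V' m = V m := by
    intro x hx
    obtain ⟨x', hx'⟩ := wCont hUnm hLoc hConn P Q G hW₀ Φ V h x hx
    exact wReg hA hB hUnm hLoc P Q G hW₀ Φ V h x x' hx hx'
  constructor
  · refine wGlueExt (𝓡∂ n) hW₀ hd Φ fun x hx => ?_
    obtain ⟨O, Φ', V', h1, h2, h3, h4, h5⟩ := key x hx
    exact ⟨O, Φ', h1, h2, h3, fun m hm => (h5 m hm).1⟩
  · refine wGlueExt 𝓘(ℝ, EndF N) hW₀ hd V fun x hx => ?_
    obtain ⟨O, Φ', V', h1, h2, h3, h4, h5⟩ := key x hx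
    exact ⟨O, V', h1, h2, h4, fun m hm => (h5 m hm).2⟩

theorem cCont : TM.CUnm_statement.{u} → CLoc_statement.{u} → CConn_statement.{u} →
    TM.CCont_statement.{u} := by
  intro hUnm hLoc hConn n N _ M₁ M₂ _ _ _ _ _ _ _ _ _ _ _ _ _ _ _ _ P Q G Φ V hΦ x
  exact wCont hUnm hLoc hConn P Q G isOpen_univ Φ V (fun x hx => hΦ x hx.2) x (mem_univ x)

theorem cReg : AExtSys_statement → BChr_statement → TM.CUnm_statement.{u} → CLoc_statement.{u} →
    CConn_statement.{u} → TM.CReg_statement.{u} := by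
  intro hA hB hUnm hLoc _ n N _ M₁ M₂ _ _ _ _ _ _ _ _ _ _ _ _ _ _ _ _ P Q G Φ V hΦ x x' hT
  exact wReg hA hB hUnm hLoc P Q G isOpen_univ Φ V (fun x hx => hΦ x hx.2) x x' (mem_univ x) hT

/-- Extension to all of `M₂`. -/
theorem cDiff_ext (hCont : TM.CCont_statement.{u}) (hReg : TM.CReg_statement.{u}) {n N : ℕ}
    [NeZero n] {M₁ M₂ : Type u}
    [TopologicalSpace M₁] [ChartedSpace (EuclideanHalfSpace n) M₁]
    [IsManifold (𝓡∂ n) ∞ M₁] [T2Space M₁] [CompactSpace M₁] [ConnectedSpace M₁]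
    [MeasurableSpace M₁] [BorelSpace M₁] [TopologicalSpace M₂]
    [ChartedSpace (EuclideanHalfSpace n) M₂]
    [IsManifold (𝓡∂ n) ∞ M₂] [T2Space M₂] [CompactSpace M₂] [ConnectedSpace M₂]
    [MeasurableSpace M₂] [BorelSpace M₂]
    (P : One n N M₁) (Q : One n N M₂) (G : Gl M₁ M₂) (Φ : M₂ → M₁) (V : M₂ → EndF N)
    (hd : ∀ x : M₂, x ∈ closure (Mi n M₂))
    (h : ∀ x ∈ Mi n M₂, ∃ O, x ∈ O ∧ TM.LMatch P Q G O Φ V) :
    (∃ F : M₂ → M₁, ContMDiff (𝓡∂ n) (𝓡∂ n) ∞ F ∧ ∀ x ∈ Mi n M₂, F x = Φ x) ∧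
    ∃ H : M₂ → EndF N, ContMDiff (𝓡∂ n) 𝓘(ℝ, EndF N) ∞ H ∧ ∀ x ∈ Mi n M₂, H x = V x := by
  have key : ∀ x : M₂, ∃ (O : Set M₂) (Φ' : M₂ → M₁) (V' : M₂ → EndF N), IsOpen O ∧
        x ∈ O ∧ ContMDiffOn (𝓡∂ n) (𝓡∂ n) ∞ Φ' O ∧ ContMDiffOn (𝓡∂ n) 𝓘(ℝ, EndF N) ∞ V' O ∧
        ∀ m ∈ O ∩ Mi n M₂, Φ' m = Φ m ∧ V' m = V m := by
    intro x
    obtain ⟨x', hx'⟩ := hCont n N M₁ M₂ P Q G Φ V h x
    exact hReg n N M₁ M₂ P Q G Φ V h x x' hx'
  constructor
  · refine cDiff_glue (𝓡∂ n) hd Φ fun x => ?_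
    obtain ⟨O, Φ', V', h1, h2, h3, h4, h5⟩ := key x
    exact ⟨O, Φ', h1, h2, h3, fun m hm => (h5 m hm).1⟩
  · refine cDiff_glue 𝓘(ℝ, EndF N) hd V fun x => ?_
    obtain ⟨O, Φ', V', h1, h2, h3, h4, h5⟩ := key x
    exact ⟨O, V', h1, h2, h4, fun m hm => (h5 m hm).2⟩

theorem cDiff : TM.CCont_statement.{u} → TM.CReg_statement.{u} → CConn_statement.{u} →
    TM.CDiff_statement.{u} := by
  intro hCont hReg hConn n N _ M₁ M₂ _ _ _ _ _ _ _ _ _ _ _ _ _ _ _ _ P Q G Φ Ψ V V' h1 h2 h3 h4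
  obtain ⟨-, -, hd⟩ := hConn n M₂
  obtain ⟨-, -, hd'⟩ := hConn n M₁
  obtain ⟨⟨F, hF, hFe⟩, ⟨H, hH, hHe⟩⟩ := cDiff_ext hCont hReg P Q G Φ V hd h1
  obtain ⟨⟨F', hF', hFe'⟩, -⟩ := cDiff_ext hCont hReg Q P G.symm Ψ V' hd' h2
  have hD : Dense (Mi n M₂) := hd
  have hD' : Dense (Mi n M₁) := hd'
  have m1 : ∀ x ∈ Mi n M₂, Φ x ∈ Mi n M₁ := by
    intro x hx
    obtain ⟨O, hxO, hL⟩ := h1 x hx
    exact hL.maps hxO
  have m2 : ∀ x ∈ Mi n M₁, Ψ x ∈ Mi n M₂ := by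
    intro x hx
    obtain ⟨O, hxO, hL⟩ := h2 x hx
    exact hL.maps hxO
  have e1 : (fun x => F (F' x)) = fun x => x := by
    refine Continuous.ext_on hD' (hF.continuous.comp hF'.continuous) continuous_id ?_
    intro x hx
    change F (F' x) = x
    rw [hFe' x hx, hFe _ (m2 x hx)]
    exact h3 x hx
  have e2 : (fun x => F' (F x)) = fun x => x := by
    refine Continuous.ext_on hD (hF'.continuous.comp hF.continuous) continuous_id ?_
    intro x hx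
    change F' (F x) = x
    rw [hFe x hx, hFe' _ (m1 x hx)]
    exact h4 x hx
  refine ⟨{ toEquiv := ⟨F, F', fun x => congrFun e2 x, fun x => congrFun e1 x⟩
            contMDiff_toFun := hF
            contMDiff_invFun := hF' }, H, hH, fun x hx => ⟨hFe x hx, hHe x hx⟩⟩

end Vale.Agent.P088.TM
end
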