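import Vale.Agent.P088.TM.H275N
import Vale.Agent.P088.TM.H332
import Vale.Agent.P088.TM.H823
import Vale.Agent.P088.TM.Br2

/-!
# P088: two manifolds, assembly
-/

namespace Vale.Agent.P088.TM

open Vale.Agent.P088 Vale.Agent.P088.EYM

universe u

theorem fData : CData_statement.{u} := cData fUniq fForm
theorem fUnm : CUnm_statement.{u} := cUnm cChart fLoc
theorem fLim : CLim_statement.{u} := cLim fRunge fData fLoc fConn
theorem fCoord : CCoord_statement.{u} := cCoord fRunge fUnm fData fUniq fLoc fConn
theorem fModEq : CModEq_statement.{u} := cModEq fUnm bIntr bSymm bComp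
theorem fClosed : CClosed_statement.{u} :=
  cClosed fLim fCoord fModEq bModel fRigInt fLinInt bSol fMatch fHarm fUniq fLoc
theorem fGlobal : CGlobal_statement.{u} := cGlobal cNear fClosed fRunge fData fConn fUniq
theorem fCont : CCont_statement.{u} := cCont fUnm fLoc fConn
theorem fReg : CReg_statement.{u} := cReg aExtSys bChr fUnm fLoc fConn
theorem fDiff : CDiff_statement.{u} := cDiff fCont fReg fConn
theorem fTensor : CTensor_statement.{u} := cTensor cChart fConn fLoc

/-- The main theorem for two manifolds, in abstract form. -/
theorem fMain : CMain_statement.{u} := cMain fGlobal fDiff fTensor fConn fData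

end Vale.Agent.P088.TM

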