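import Vale.Agent.P088.Bdl.B12

/-!
# P088: two manifolds which share a boundary patch, abstract statements
-/

open Bundle Manifold MeasureTheory Set Filter Topology
open scoped ContDiff

noncomputable section

namespace Vale.Agent.P088.TM

open Vale.Agent.P088.EYM

universe u

set_option linter.all false

/-- Patches `Γ₁ ⊆ ∂M₁`, `Γ₂ ⊆ ∂M₂` and maps `ψ : M₂ → M₁`, `χ : M₁ → M₂` (only their values on
the patches matter). -/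
structure Gl (M₁ M₂ : Type u) where
  Γ₁ : Set M₁
  Γ₂ : Set M₂
  ψ : M₂ → M₁
  χ : M₁ → M₂

/-- exchange of the two manifolds -/
def Gl.symm {M₁ M₂ : Type u} (G : Gl M₁ M₂) : Gl M₂ M₁ := ⟨G.Γ₂, G.Γ₁, G.χ, G.ψ⟩

section

variable {n N : ℕ} [NeZero n] {M₁ M₂ : Type u}
  [TopologicalSpace M₁] [ChartedSpace (EuclideanHalfSpace n) M₁] [IsManifold (𝓡∂ n) ∞ M₁]
  [TopologicalSpace M₂] [ChartedSpace (EuclideanHalfSpace n) M₂] [IsManifold (𝓡∂ n) ∞ M₂]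

variable (n N) in
/-- `ψ : Γ₂ → Γ₁` is a diffeomorphism with inverse `χ`: the pull backs of boundary data are
boundary data. -/
structure Gl.Ok (G : Gl M₁ M₂) : Prop where
  rel₁ : RelBd n G.Γ₁
  rel₂ : RelBd n G.Γ₂
  ne₁ : G.Γ₁.Nonempty
  ne₂ : G.Γ₂.Nonempty
  maps : MapsTo G.ψ G.Γ₂ G.Γ₁
  maps' : MapsTo G.χ G.Γ₁ G.Γ₂
  inv : ∀ x ∈ G.Γ₂, G.χ (G.ψ x) = x
  inv' : ∀ x ∈ G.Γ₁, G.ψ (G.χ x) = x
  ext : ∀ f₁ : M₁ → Fib N, IsBdryData (𝓡∂ n) G.Γ₁ f₁ →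
    ∃ f₂ : M₂ → Fib N, IsBdryData (𝓡∂ n) G.Γ₂ f₂ ∧ ∀ x ∈ G.Γ₂, f₂ x = f₁ (G.ψ x)
  ext' : ∀ f₂ : M₂ → Fib N, IsBdryData (𝓡∂ n) G.Γ₂ f₂ →
    ∃ f₁ : M₁ → Fib N, IsBdryData (𝓡∂ n) G.Γ₁ f₁ ∧ ∀ x ∈ G.Γ₁, f₁ x = f₂ (G.χ x)

omit [IsManifold (𝓡∂ n) ∞ M₁] [IsManifold (𝓡∂ n) ∞ M₂] in
theorem Gl.Ok.symm {G : Gl M₁ M₂} (h : G.Ok n N) : G.symm.Ok n N :=
  ⟨h.rel₂, h.rel₁, h.ne₂, h.ne₁, h.maps', h.maps, h.inv', h.inv, h.ext', h.ext⟩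

variable (n) in
/-- matched boundary data: `f₂ = f₁ ∘ ψ` on `Γ₂` -/
structure MD (G : Gl M₁ M₂) (f₁ : M₁ → Fib N) (f₂ : M₂ → Fib N) : Prop where
  h₁ : IsBdryData (𝓡∂ n) G.Γ₁ f₁
  h₂ : IsBdryData (𝓡∂ n) G.Γ₂ f₂
  eq : ∀ x ∈ G.Γ₂, f₂ x = f₁ (G.ψ x)

omit [IsManifold (𝓡∂ n) ∞ M₁] [IsManifold (𝓡∂ n) ∞ M₂] in
theorem MD.symm {G : Gl M₁ M₂} (hG : G.Ok n N) {f₁ : M₁ → Fib N} {f₂ : M₂ → Fib N}
    (h : MD n G f₁ f₂) : MD n G.symm f₂ f₁ :=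
  ⟨h.h₂, h.h₁, fun x hx => by
    have h1 := h.eq (G.χ x) (hG.maps' hx)
    rw [hG.inv' x hx] at h1
    exact h1.symm⟩

variable [MeasurableSpace M₁] [MeasurableSpace M₂]

/-- Pairs of solutions with matched boundary data. -/
def PP (P : One n N M₁) (Q : One n N M₂) (G : Gl M₁ M₂) :
    Set ((M₁ → Fib N) × (M₂ → Fib N)) :=
  {u | ∃ f₁ f₂, MD n G f₁ f₂ ∧ P.Harm f₁ u.1 ∧ Q.Harm f₂ u.2}

/-- A local match: near `O`, `Q` is the pull back of `P` by `φ` and the gauge `V`, and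
corresponding solutions are matched. -/
structure LMatch (P : One n N M₁) (Q : One n N M₂) (G : Gl M₁ M₂) (O : Set M₂) (φ : M₂ → M₁)
    (V : M₂ → EndF N) : Prop where
  isOpen : IsOpen O
  sub : O ⊆ Mi n M₂
  maps : MapsTo φ O (Mi n M₁)
  smφ : ContMDiffOn (𝓡∂ n) (𝓡∂ n) ∞ φ O
  smV : ContMDiffOn (𝓡∂ n) 𝓘(ℝ, EndF N) ∞ V O
  unit : ∀ x ∈ O, V x ∈ unitary (EndF N)
  met : ∀ x ∈ O, ∀ v w : TangentSpace (𝓡∂ n) x, Q.g.inner x v w =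
    P.g.inner (φ x) (mfderiv (𝓡∂ n) (𝓡∂ n) φ x v) (mfderiv (𝓡∂ n) (𝓡∂ n) φ x w)
  con : ∀ x ∈ O, ∀ v : TangentSpace (𝓡∂ n) x,
    dmap (𝓡∂ n) V x v + Q.A.form x v ∘L V x =
      V x ∘L P.A.form (φ x) (mfderiv (𝓡∂ n) (𝓡∂ n) φ x v)
  sol : ∀ u ∈ PP P Q G, ∀ x ∈ O, u.2 x = V x (u.1 (φ x))

/-- The equality of the data. -/
def SameD (P : One n N M₁) (Q : One n N M₂) (G : Gl M₁ M₂) : Prop :=
  ∀ (f₁ h₁ : M₁ → Fib N) (f₂ h₂ : M₂ → Fib N), MD n G f₁ f₂ → MD n G h₁ h₂ →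
    ∃ (u₁ v₁ : M₁ → Fib N) (u₂ v₂ : M₂ → Fib N), P.Harm f₁ u₁ ∧ P.Harm h₁ v₁ ∧
      Q.Harm f₂ u₂ ∧ Q.Harm h₂ v₂ ∧ P.E u₁ v₁ = Q.E u₂ v₂

theorem PP_swap {P : One n N M₁} {Q : One n N M₂} {G : Gl M₁ M₂} (hG : G.Ok n N)
    {u : (M₁ → Fib N) × (M₂ → Fib N)} (hu : u ∈ PP P Q G) : u.swap ∈ PP Q P G.symm := by
  obtain ⟨f₁, f₂, hf, h1, h2⟩ := hu
  exact ⟨f₂, f₁, hf.symm hG, h2, h1⟩

/-- The set of good points. -/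
def Gd (P : One n N M₁) (Q : One n N M₂) (G : Gl M₁ M₂) : Set M₂ :=
  {x | ∃ (O : Set M₂) (φ : M₂ → M₁) (V : M₂ → EndF N), LMatch P Q G O φ V ∧ x ∈ O}

end

/-- Consequence of the equality of the data. -/
def CData_statement : Prop :=
  ∀ (n N : ℕ) [NeZero n] (M₁ M₂ : Type u)
    [TopologicalSpace M₁] [ChartedSpace (EuclideanHalfSpace n) M₁]
    [IsManifold (𝓡∂ n) ∞ M₁] [T2Space M₁] [CompactSpace M₁] [ConnectedSpace M₁] [MeasurableSpace M₁]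
    [BorelSpace M₁] [TopologicalSpace M₂] [ChartedSpace (EuclideanHalfSpace n) M₂]
    [IsManifold (𝓡∂ n) ∞ M₂] [T2Space M₂] [CompactSpace M₂] [ConnectedSpace M₂] [MeasurableSpace M₂]
    [BorelSpace M₂] (P : One n N M₁) (Q : One n N M₂) (G : Gl M₁ M₂), G.Ok n N → SameD P Q G →
    (P.HasSol G.Γ₁ ∧ Q.HasSol G.Γ₂ ∧ SameD Q P G.symm) ∧
    ∀ u ∈ PP P Q G, ∀ (w : M₁ → Fib N) (w' : M₂ → Fib N), MD n G w w' →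
      P.E w u.1 = Q.E w' u.2

/-- From equal models to a local match. -/
def CMatch_statement : Prop :=
  ∀ (n N : ℕ) [NeZero n] (M₁ M₂ : Type u)
    [TopologicalSpace M₁] [ChartedSpace (EuclideanHalfSpace n) M₁]
    [IsManifold (𝓡∂ n) ∞ M₁] [T2Space M₁] [MeasurableSpace M₁] [BorelSpace M₁]
    [TopologicalSpace M₂] [ChartedSpace (EuclideanHalfSpace n) M₂]
    [IsManifold (𝓡∂ n) ∞ M₂] [T2Space M₂] [MeasurableSpace M₂] [BorelSpace M₂]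
    (P : One n N M₁) (Q : One n N M₂)
    (G : Gl M₁ M₂) (q₁ : M₁) (q₂ : M₂) (z : E n) (r : ℝ) (L₁ L₂ : LD n N) (D₁ D₂ : Set (E n))
    (X₁ Y₁ X₂ Y₂ : E n → E n) (S₁ S₂ : E n → EndF N), RelOpen D₁ → RelOpen D₂ → D₁ ⊆ tg n q₁ →
    D₂ ⊆ tg n q₂ → IsPull (P.loc q₁) L₁ D₁ (HB z r) X₁ Y₁ S₁ →
    IsPull (Q.loc q₂) L₂ D₂ (HB z r) X₂ Y₂ S₂ → (∀ x ∈ HB z r, L₁.g x = L₂.g x) →
    (∀ x ∈ HB z r, ∀ j, L₁.B j x = L₂.B j x) → (∀ x ∈ HB z r, L₁.h x = L₂.h x) →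
    (∀ u ∈ PP P Q G, ∀ x ∈ HB z r, Ring.inverse (S₁ (Y₁ x)) (lu (𝓡∂ n) q₁ u.1 (Y₁ x)) =
      Ring.inverse (S₂ (Y₂ x)) (lu (𝓡∂ n) q₂ u.2 (Y₂ x))) →
    ∃ (O : Set M₂) (φ : M₂ → M₁) (V : M₂ → EndF N), LMatch P Q G O φ V ∧
      ∀ x ∈ D₂, 0 < x 0 → (xc n q₂).symm x ∈ O

/-- Match near the boundary. -/
def CNear_statement : Prop :=
  ∀ (n N : ℕ) [NeZero n] (M₁ M₂ : Type u)
    [TopologicalSpace M₁] [ChartedSpace (EuclideanHalfSpace n) M₁]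
    [IsManifold (𝓡∂ n) ∞ M₁] [T2Space M₁] [CompactSpace M₁] [ConnectedSpace M₁] [MeasurableSpace M₁]
    [BorelSpace M₁] [TopologicalSpace M₂] [ChartedSpace (EuclideanHalfSpace n) M₂]
    [IsManifold (𝓡∂ n) ∞ M₂] [T2Space M₂] [CompactSpace M₂] [ConnectedSpace M₂] [MeasurableSpace M₂]
    [BorelSpace M₂] (P : One n N M₁) (Q : One n N M₂) (G : Gl M₁ M₂) (κ₁ κ₂ α β : ℝ),
    3 ≤ n → 0 < N → G.Ok n N → SameD P Q G → EYMm κ₁ α β P.g P.A → EYMm κ₂ α β Q.g Q.A →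
    κ₁ = κ₂ ∧ ∃ (O : Set M₂) (φ : M₂ → M₁) (V : M₂ → EndF N), LMatch P Q G O φ V ∧ O.Nonempty

/-- The relation of a local match in charts. -/
def CUnm_statement : Prop :=
  ∀ (n N : ℕ) [NeZero n] (M₁ M₂ : Type u)
    [TopologicalSpace M₁] [ChartedSpace (EuclideanHalfSpace n) M₁]
    [IsManifold (𝓡∂ n) ∞ M₁] [T2Space M₁] [MeasurableSpace M₁] [BorelSpace M₁]
    [TopologicalSpace M₂] [ChartedSpace (EuclideanHalfSpace n) M₂]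
    [IsManifold (𝓡∂ n) ∞ M₂] [T2Space M₂] [MeasurableSpace M₂] [BorelSpace M₂]
    (P : One n N M₁) (Q : One n N M₂)
    (G : Gl M₁ M₂) (O : Set M₂) (φ : M₂ → M₁) (V : M₂ → EndF N), LMatch P Q G O φ V →
    ∀ (q₁ : M₁) (q₂ : M₂), ∀ x ∈ O,
    x ∈ (xc n q₂).source → φ x ∈ (xc n q₁).source → ∃ r > 0,
      Metric.ball (xc n q₂ x) r ⊆ tg n q₂ ∩ {y | 0 < y 0} ∧
      (∀ y ∈ Metric.ball (xc n q₂ x) r, (xc n q₂).symm y ∈ O ∧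
        φ ((xc n q₂).symm y) ∈ (xc n q₁).source ∧ 0 < xc n q₁ (φ ((xc n q₂).symm y)) 0) ∧
      ContDiffOn ℝ ∞ (fun y => xc n q₁ (φ ((xc n q₂).symm y))) (Metric.ball (xc n q₂ x) r) ∧
      ContDiffOn ℝ ∞ (fun y => V ((xc n q₂).symm y)) (Metric.ball (xc n q₂ x) r) ∧
      (∀ y ∈ Metric.ball (xc n q₂ x) r, (Q.loc q₂).g y =
        (Jac (fun y => xc n q₁ (φ ((xc n q₂).symm y))) y).transpose *
          (P.loc q₁).g (xc n q₁ (φ ((xc n q₂).symm y))) *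
          Jac (fun y => xc n q₁ (φ ((xc n q₂).symm y))) y) ∧
      ∀ y ∈ Metric.ball (xc n q₂ x) r, ∀ j,
        pd j (fun y => V ((xc n q₂).symm y)) y +
          (Q.loc q₂).B j y * V ((xc n q₂).symm y) =
        V ((xc n q₂).symm y) * ∑ k, Jac (fun y => xc n q₁ (φ ((xc n q₂).symm y))) y k j •
          (P.loc q₁).B k (xc n q₁ (φ ((xc n q₂).symm y)))

/-- Limits of good points, part 1. -/
def CLim_statement : Prop :=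
  ∀ (n N : ℕ) [NeZero n] (M₁ M₂ : Type u)
    [TopologicalSpace M₁] [ChartedSpace (EuclideanHalfSpace n) M₁]
    [IsManifold (𝓡∂ n) ∞ M₁] [T2Space M₁] [CompactSpace M₁] [ConnectedSpace M₁] [MeasurableSpace M₁]
    [BorelSpace M₁] [TopologicalSpace M₂] [ChartedSpace (EuclideanHalfSpace n) M₂]
    [IsManifold (𝓡∂ n) ∞ M₂] [T2Space M₂] [CompactSpace M₂] [ConnectedSpace M₂] [MeasurableSpace M₂]
    [BorelSpace M₂] (P : One n N M₁) (Q : One n N M₂) (G : Gl M₁ M₂), 3 ≤ n → 0 < N →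
    G.Ok n N → SameD P Q G → ∀ x₀ ∈ Mi n M₂, x₀ ∈ closure (Gd P Q G) →
    ∃ (x₀' : M₁) (V₀ : EndF N) (x : ℕ → M₂) (O : ℕ → Set M₂) (φ : ℕ → M₂ → M₁)
      (V : ℕ → M₂ → EndF N), x₀' ∈ Mi n M₁ ∧ V₀ ∈ unitary (EndF N) ∧
      (∀ k, LMatch P Q G (O k) (φ k) (V k) ∧ x k ∈ O k) ∧ Tendsto x atTop (𝓝 x₀) ∧
      Tendsto (fun k => φ k (x k)) atTop (𝓝 x₀') ∧ Tendsto (fun k => V k (x k)) atTop (𝓝 V₀) ∧
      ∀ u ∈ PP P Q G, u.2 x₀ = V₀ (u.1 x₀')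

/-- Solution coordinates at the limit points. -/
def CCoord_statement : Prop :=
  ∀ (n N : ℕ) [NeZero n] (M₁ M₂ : Type u)
    [TopologicalSpace M₁] [ChartedSpace (EuclideanHalfSpace n) M₁]
    [IsManifold (𝓡∂ n) ∞ M₁] [T2Space M₁] [CompactSpace M₁] [ConnectedSpace M₁] [MeasurableSpace M₁]
    [BorelSpace M₁] [TopologicalSpace M₂] [ChartedSpace (EuclideanHalfSpace n) M₂]
    [IsManifold (𝓡∂ n) ∞ M₂] [T2Space M₂] [CompactSpace M₂] [ConnectedSpace M₂] [MeasurableSpace M₂]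
    [BorelSpace M₂] (P : One n N M₁) (Q : One n N M₂) (G : Gl M₁ M₂) (x₀ : M₂) (x₀' : M₁)
    (V₀ : EndF N) (x : ℕ → M₂)
    (O : ℕ → Set M₂) (φ : ℕ → M₂ → M₁) (V : ℕ → M₂ → EndF N), 3 ≤ n → 0 < N → G.Ok n N →
    SameD P Q G → x₀ ∈ Mi n M₂ → x₀' ∈ Mi n M₁ → V₀ ∈ unitary (EndF N) →
    (∀ k, LMatch P Q G (O k) (φ k) (V k) ∧ x k ∈ O k) → Tendsto x atTop (𝓝 x₀) →
    Tendsto (fun k => φ k (x k)) atTop (𝓝 x₀') → Tendsto (fun k => V k (x k)) atTop (𝓝 V₀) →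
    (∀ u ∈ PP P Q G, u.2 x₀ = V₀ (u.1 x₀')) →
    ∃ (j0 : Fin N) (s : Fin N → (M₁ → Fib N) × (M₂ → Fib N))
      (t : Fin n → (M₁ → Fib N) × (M₂ → Fib N)), (∀ j, s j ∈ PP P Q G) ∧ (∀ a, t a ∈ PP P Q G) ∧
      IsUnit (frm n x₀' (fun j => (s j).1) (xc n x₀' x₀')) ∧
      IsUnit (frm n x₀ (fun j => (s j).2) (xc n x₀ x₀)) ∧
      (Jac (Xco j0 (frm n x₀' fun j => (s j).1) (fun a => lu (𝓡∂ n) x₀' (t a).1))
        (xc n x₀' x₀')).det ≠ 0 ∧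
      (Jac (Xco j0 (frm n x₀ fun j => (s j).2) (fun a => lu (𝓡∂ n) x₀ (t a).2))
        (xc n x₀ x₀)).det ≠ 0 ∧
      0 < Xco j0 (frm n x₀' fun j => (s j).1) (fun a => lu (𝓡∂ n) x₀' (t a).1)
        (xc n x₀' x₀') 0 ∧
      Xco j0 (frm n x₀' fun j => (s j).1) (fun a => lu (𝓡∂ n) x₀' (t a).1) (xc n x₀' x₀') =
        Xco j0 (frm n x₀ fun j => (s j).2) (fun a => lu (𝓡∂ n) x₀ (t a).2) (xc n x₀ x₀)

/-- Equality of the models near a matched point. -/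
def CModEq_statement : Prop :=
  ∀ (n N : ℕ) [NeZero n] (M₁ M₂ : Type u)
    [TopologicalSpace M₁] [ChartedSpace (EuclideanHalfSpace n) M₁]
    [IsManifold (𝓡∂ n) ∞ M₁] [T2Space M₁] [CompactSpace M₁] [ConnectedSpace M₁] [MeasurableSpace M₁]
    [BorelSpace M₁] [TopologicalSpace M₂] [ChartedSpace (EuclideanHalfSpace n) M₂]
    [IsManifold (𝓡∂ n) ∞ M₂] [T2Space M₂] [CompactSpace M₂] [ConnectedSpace M₂] [MeasurableSpace M₂]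
    [BorelSpace M₂] (P : One n N M₁) (Q : One n N M₂) (G : Gl M₁ M₂) (j0 : Fin N)
    (s : Fin N → (M₁ → Fib N) × (M₂ → Fib N)) (t : Fin n → (M₁ → Fib N) × (M₂ → Fib N))
    (q₁ : M₁) (q₂ : M₂) (z : E n) (r : ℝ) (W₁ W₂ : Model n N) (D₁ D₂ : Set (E n))
    (Y₁ Y₂ : E n → E n),
    (∀ j, s j ∈ PP P Q G) → (∀ a, t a ∈ PP P Q G) → RelOpen D₁ → RelOpen D₂ → D₁ ⊆ tg n q₁ →
    D₂ ⊆ tg n q₂ →
    IsPull (P.loc q₁) W₁.toLD D₁ (HB z r)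
      (Xco j0 (frm n q₁ fun j => (s j).1) (fun a => lu (𝓡∂ n) q₁ (t a).1)) Y₁
      (frm n q₁ fun j => (s j).1) →
    IsPull (Q.loc q₂) W₂.toLD D₂ (HB z r)
      (Xco j0 (frm n q₂ fun j => (s j).2) (fun a => lu (𝓡∂ n) q₂ (t a).2)) Y₂
      (frm n q₂ fun j => (s j).2) →
    (∀ x ∈ D₁, ∀ a, lu (𝓡∂ n) q₁ (t a).1 x = frm n q₁ (fun j => (s j).1) x (W₁.c a
      (Xco j0 (frm n q₁ fun j => (s j).1) (fun a => lu (𝓡∂ n) q₁ (t a).1) x))) →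
    (∀ x ∈ D₂, ∀ a, lu (𝓡∂ n) q₂ (t a).2 x = frm n q₂ (fun j => (s j).2) x (W₂.c a
      (Xco j0 (frm n q₂ fun j => (s j).2) (fun a => lu (𝓡∂ n) q₂ (t a).2) x))) →
    ∀ (O : Set M₂) (φ : M₂ → M₁) (V : M₂ → EndF N), LMatch P Q G O φ V → ∀ x ∈ O,
      x ∈ (xc n q₂).source → xc n q₂ x ∈ D₂ → φ x ∈ (xc n q₁).source → xc n q₁ (φ x) ∈ D₁ →
      ∃ U : Set (E n), IsOpen U ∧ U ⊆ HB z r ∧ U.Nonempty ∧ EqOnM W₁ W₂ U ∧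
        ∀ u ∈ PP P Q G, ∀ y ∈ U,
          Ring.inverse (frm n q₁ (fun j => (s j).1) (Y₁ y)) (lu (𝓡∂ n) q₁ u.1 (Y₁ y)) =
          Ring.inverse (frm n q₂ (fun j => (s j).2) (Y₂ y)) (lu (𝓡∂ n) q₂ u.2 (Y₂ y))

/-- Limits of good points, part 2: good points are closed in the interior. -/
def CClosed_statement : Prop :=
  ∀ (n N : ℕ) [NeZero n] (M₁ M₂ : Type u)
    [TopologicalSpace M₁] [ChartedSpace (EuclideanHalfSpace n) M₁]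
    [IsManifold (𝓡∂ n) ∞ M₁] [T2Space M₁] [CompactSpace M₁] [ConnectedSpace M₁] [MeasurableSpace M₁]
    [BorelSpace M₁] [TopologicalSpace M₂] [ChartedSpace (EuclideanHalfSpace n) M₂]
    [IsManifold (𝓡∂ n) ∞ M₂] [T2Space M₂] [CompactSpace M₂] [ConnectedSpace M₂] [MeasurableSpace M₂]
    [BorelSpace M₂] (P : One n N M₁) (Q : One n N M₂) (G : Gl M₁ M₂) (κ α β : ℝ), 3 ≤ n → 0 < N →
    G.Ok n N → SameD P Q G → EYMm κ α β P.g P.A → EYMm κ α β Q.g Q.A →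
    ∀ x₀ ∈ Mi n M₂, x₀ ∈ closure (Gd P Q G) → x₀ ∈ Gd P Q G

/-- The global match on the interior. -/
def CGlobal_statement : Prop :=
  ∀ (n N : ℕ) [NeZero n] (M₁ M₂ : Type u)
    [TopologicalSpace M₁] [ChartedSpace (EuclideanHalfSpace n) M₁]
    [IsManifold (𝓡∂ n) ∞ M₁] [T2Space M₁] [CompactSpace M₁] [ConnectedSpace M₁] [MeasurableSpace M₁]
    [BorelSpace M₁] [TopologicalSpace M₂] [ChartedSpace (EuclideanHalfSpace n) M₂]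
    [IsManifold (𝓡∂ n) ∞ M₂] [T2Space M₂] [CompactSpace M₂] [ConnectedSpace M₂] [MeasurableSpace M₂]
    [BorelSpace M₂] (P : One n N M₁) (Q : One n N M₂) (G : Gl M₁ M₂) (κ₁ κ₂ α β : ℝ),
    3 ≤ n → 0 < N → G.Ok n N → SameD P Q G → EYMm κ₁ α β P.g P.A → EYMm κ₂ α β Q.g Q.A →
    κ₁ = κ₂ ∧ ∃ (Φ : M₂ → M₁) (Ψ : M₁ → M₂) (V : M₂ → EndF N) (V' : M₁ → EndF N),
      (∀ x ∈ Mi n M₂, ∃ O, x ∈ O ∧ LMatch P Q G O Φ V) ∧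
      (∀ x ∈ Mi n M₁, ∃ O, x ∈ O ∧ LMatch Q P G.symm O Ψ V') ∧
      (∀ x ∈ Mi n M₁, Φ (Ψ x) = x) ∧ ∀ x ∈ Mi n M₂, Ψ (Φ x) = x

/-- Continuous extension to the boundary. -/
def CCont_statement : Prop :=
  ∀ (n N : ℕ) [NeZero n] (M₁ M₂ : Type u)
    [TopologicalSpace M₁] [ChartedSpace (EuclideanHalfSpace n) M₁]
    [IsManifold (𝓡∂ n) ∞ M₁] [T2Space M₁] [CompactSpace M₁] [ConnectedSpace M₁] [MeasurableSpace M₁]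
    [BorelSpace M₁] [TopologicalSpace M₂] [ChartedSpace (EuclideanHalfSpace n) M₂]
    [IsManifold (𝓡∂ n) ∞ M₂] [T2Space M₂] [CompactSpace M₂] [ConnectedSpace M₂] [MeasurableSpace M₂]
    [BorelSpace M₂] (P : One n N M₁) (Q : One n N M₂) (G : Gl M₁ M₂) (Φ : M₂ → M₁)
    (V : M₂ → EndF N),
    (∀ x ∈ Mi n M₂, ∃ O, x ∈ O ∧ LMatch P Q G O Φ V) → ∀ x : M₂, ∃ x' : M₁,
      Tendsto Φ (𝓝[Mi n M₂] x) (𝓝 x')

/-- Smooth extension to the boundary, local. -/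
def CReg_statement : Prop :=
  ∀ (n N : ℕ) [NeZero n] (M₁ M₂ : Type u)
    [TopologicalSpace M₁] [ChartedSpace (EuclideanHalfSpace n) M₁]
    [IsManifold (𝓡∂ n) ∞ M₁] [T2Space M₁] [CompactSpace M₁] [ConnectedSpace M₁] [MeasurableSpace M₁]
    [BorelSpace M₁] [TopologicalSpace M₂] [ChartedSpace (EuclideanHalfSpace n) M₂]
    [IsManifold (𝓡∂ n) ∞ M₂] [T2Space M₂] [CompactSpace M₂] [ConnectedSpace M₂] [MeasurableSpace M₂]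
    [BorelSpace M₂] (P : One n N M₁) (Q : One n N M₂) (G : Gl M₁ M₂) (Φ : M₂ → M₁)
    (V : M₂ → EndF N),
    (∀ x ∈ Mi n M₂, ∃ O, x ∈ O ∧ LMatch P Q G O Φ V) → ∀ (x : M₂) (x' : M₁),
      Tendsto Φ (𝓝[Mi n M₂] x) (𝓝 x') → ∃ (O : Set M₂) (Φ' : M₂ → M₁) (V' : M₂ → EndF N),
        IsOpen O ∧
        x ∈ O ∧ ContMDiffOn (𝓡∂ n) (𝓡∂ n) ∞ Φ' O ∧ ContMDiffOn (𝓡∂ n) 𝓘(ℝ, EndF N) ∞ V' O ∧
        ∀ m ∈ O ∩ Mi n M₂, Φ' m = Φ m ∧ V' m = V m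

/-- Global smooth extension. -/
def CDiff_statement : Prop :=
  ∀ (n N : ℕ) [NeZero n] (M₁ M₂ : Type u)
    [TopologicalSpace M₁] [ChartedSpace (EuclideanHalfSpace n) M₁]
    [IsManifold (𝓡∂ n) ∞ M₁] [T2Space M₁] [CompactSpace M₁] [ConnectedSpace M₁] [MeasurableSpace M₁]
    [BorelSpace M₁] [TopologicalSpace M₂] [ChartedSpace (EuclideanHalfSpace n) M₂]
    [IsManifold (𝓡∂ n) ∞ M₂] [T2Space M₂] [CompactSpace M₂] [ConnectedSpace M₂] [MeasurableSpace M₂]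
    [BorelSpace M₂] (P : One n N M₁) (Q : One n N M₂) (G : Gl M₁ M₂) (Φ : M₂ → M₁) (Ψ : M₁ → M₂)
    (V : M₂ → EndF N) (V' : M₁ → EndF N),
    (∀ x ∈ Mi n M₂, ∃ O, x ∈ O ∧ LMatch P Q G O Φ V) →
    (∀ x ∈ Mi n M₁, ∃ O, x ∈ O ∧ LMatch Q P G.symm O Ψ V') →
    (∀ x ∈ Mi n M₁, Φ (Ψ x) = x) → (∀ x ∈ Mi n M₂, Ψ (Φ x) = x) →
    ∃ (F : Diffeomorph (𝓡∂ n) (𝓡∂ n) M₂ M₁ ∞) (H : M₂ → EndF N),
      ContMDiff (𝓡∂ n) 𝓘(ℝ, EndF N) ∞ H ∧ ∀ x ∈ Mi n M₂, F x = Φ x ∧ H x = V x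

/-- The derivative of a map in charts; coordinate vectors span. -/
def CChart_statement : Prop :=
  ∀ (n : ℕ) [NeZero n] (M₁ M₂ : Type u)
    [TopologicalSpace M₁] [ChartedSpace (EuclideanHalfSpace n) M₁] [IsManifold (𝓡∂ n) ∞ M₁]
    [TopologicalSpace M₂] [ChartedSpace (EuclideanHalfSpace n) M₂] [IsManifold (𝓡∂ n) ∞ M₂]
    (O : Set M₂) (φ : M₂ → M₁), IsOpen O →
    ContMDiffOn (𝓡∂ n) (𝓡∂ n) ∞ φ O → ∀ (q₁ : M₁) (q₂ : M₂), ∀ x ∈ O, x ∈ (xc n q₂).source →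
    φ x ∈ (xc n q₁).source →
    (∀ j, mfderiv (𝓡∂ n) (𝓡∂ n) φ x (coordVec (𝓡∂ n) q₂ x j) =
      ∑ k, Jac (fun y => xc n q₁ (φ ((xc n q₂).symm y))) (xc n q₂ x) k j •
        coordVec (𝓡∂ n) q₁ (φ x) k) ∧
    ∀ v : TangentSpace (𝓡∂ n) x, ∃ c : Fin n → ℝ, v = ∑ j, c j • coordVec (𝓡∂ n) q₂ x j

/-- The relations of the global match hold up to the boundary. -/
def CTensor_statement : Prop :=
  ∀ (n N : ℕ) [NeZero n] (M₁ M₂ : Type u)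
    [TopologicalSpace M₁] [ChartedSpace (EuclideanHalfSpace n) M₁]
    [IsManifold (𝓡∂ n) ∞ M₁] [T2Space M₁] [CompactSpace M₁] [ConnectedSpace M₁] [MeasurableSpace M₁]
    [BorelSpace M₁] [TopologicalSpace M₂] [ChartedSpace (EuclideanHalfSpace n) M₂]
    [IsManifold (𝓡∂ n) ∞ M₂] [T2Space M₂] [CompactSpace M₂] [ConnectedSpace M₂] [MeasurableSpace M₂]
    [BorelSpace M₂] (P : One n N M₁) (Q : One n N M₂) (G : Gl M₁ M₂)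
    (F : Diffeomorph (𝓡∂ n) (𝓡∂ n) M₂ M₁ ∞)
    (H : M₂ → EndF N), ContMDiff (𝓡∂ n) 𝓘(ℝ, EndF N) ∞ H →
    (∀ x ∈ Mi n M₂, ∃ O, x ∈ O ∧ LMatch P Q G O F H) →
    (∀ (x : M₂) (v w : TangentSpace (𝓡∂ n) x), Q.g.inner x v w =
      P.g.inner (F x) (mfderiv (𝓡∂ n) (𝓡∂ n) F x v) (mfderiv (𝓡∂ n) (𝓡∂ n) F x w)) ∧
    (∀ (x : M₂) (v : TangentSpace (𝓡∂ n) x),
      dmap (𝓡∂ n) H x v + Q.A.form x v ∘L H x =
        H x ∘L P.A.form (F x) (mfderiv (𝓡∂ n) (𝓡∂ n) F x v)) ∧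
    (∀ x, H x ∈ unitary (EndF N)) ∧ ∀ u ∈ PP P Q G, ∀ x, u.2 x = H x (u.1 (F x))

end Vale.Agent.P088.TM
end
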