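import Vale.Agent.P088.TM.Data

/-!
# P088, two manifolds: charts, local matches in charts, from equal models to a local match, the
relations of the global match up to the boundary
-/

set_option linter.all false

open Bundle Manifold MeasureTheory Set Filter Topology
open scoped ContDiff

noncomputable section

namespace Vale.Agent.P088.TM

open Vale.Agent.P088 Vale.Agent.P088.EYM

universe u

section Chart

variable {n : ℕ} [NeZero n] {M₁ M₂ : Type u} [TopologicalSpace M₁]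
  [ChartedSpace (EuclideanHalfSpace n) M₁] [IsManifold (𝓡∂ n) ∞ M₁] [TopologicalSpace M₂]
  [ChartedSpace (EuclideanHalfSpace n) M₂] [IsManifold (𝓡∂ n) ∞ M₂]

/-- the derivative on the model space -/
def cChart_D (φ : M₂ → M₁) (x : M₂) : E n →L[ℝ] E n := mfderiv (𝓡∂ n) (𝓡∂ n) φ x

set_option backward.isDefEq.respectTransparency false in
theorem cChart_eq {φ : M₂ → M₁} {x : M₂} (h : MDifferentiableAt (𝓡∂ n) (𝓡∂ n) φ x) :
    cChart_D φ x = fderivWithin ℝ (writtenInExtChartAt (𝓡∂ n) (𝓡∂ n) x φ) (range (𝓡∂ n))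
      (extChartAt (𝓡∂ n) x x) := by
  unfold cChart_D
  rw [mfderiv, if_pos h]

theorem cChart_mf {φ : M₂ → M₁} {x : M₂} (h : MDifferentiableAt (𝓡∂ n) (𝓡∂ n) φ x) :
    HasFDerivWithinAt (writtenInExtChartAt (𝓡∂ n) (𝓡∂ n) x φ) (cChart_D φ x) (range (𝓡∂ n))
      (extChartAt (𝓡∂ n) x x) := by
  have h0 := h.differentiableWithinAt_writtenInExtChartAt.hasFDerivWithinAt
  rw [← cChart_eq h] at h0
  exact h0

theorem cChart_chain {φ : M₂ → M₁} {q₁ : M₁} {x q₂ : M₂} (h : MDifferentiableAt (𝓡∂ n) (𝓡∂ n) φ x)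
    (h2 : x ∈ (xc n q₂).source) (h1 : φ x ∈ (xc n q₁).source) :
    HasFDerivWithinAt (fun y => xc n q₁ (φ ((xc n q₂).symm y)))
      ((tangentCoordChange (𝓡∂ n) (φ x) q₁ (φ x)) ∘L ((cChart_D φ x) ∘L (cc (𝓡∂ n) q₂ x)))
      (range (𝓡∂ n)) (xc n q₂ x) := by
  have e1 := cChart_mf h
  have e2 := hasFDerivWithinAt_tangentCoordChange (I := 𝓡∂ n) (x := q₂) (y := x) (z := x)
    ⟨h2, mem_extChartAt_source x⟩
  have e3 := hasFDerivWithinAt_tangentCoordChange (I := 𝓡∂ n) (x := φ x) (y := q₁) (z := φ x)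
    ⟨mem_extChartAt_source (φ x), h1⟩
  have e1' : HasFDerivWithinAt (writtenInExtChartAt (𝓡∂ n) (𝓡∂ n) x φ) (cChart_D φ x)
      (range (𝓡∂ n)) (((extChartAt (𝓡∂ n) x) ∘ (extChartAt (𝓡∂ n) q₂).symm)
        (extChartAt (𝓡∂ n) q₂ x)) := by
    rw [Function.comp_apply, (extChartAt (𝓡∂ n) q₂).left_inv h2]
    exact e1
  have e4 := HasFDerivWithinAt.comp (extChartAt (𝓡∂ n) q₂ x) e1' e2 (t := range (𝓡∂ n)) ?_
  · have e3' : HasFDerivWithinAt (extChartAt (𝓡∂ n) q₁ ∘ (extChartAt (𝓡∂ n) (φ x)).symm)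
        (tangentCoordChange (𝓡∂ n) (φ x) q₁ (φ x)) (range (𝓡∂ n))
        ((writtenInExtChartAt (𝓡∂ n) (𝓡∂ n) x φ ∘ ((extChartAt (𝓡∂ n) x) ∘
          (extChartAt (𝓡∂ n) q₂).symm)) (extChartAt (𝓡∂ n) q₂ x)) := by
      simp only [writtenInExtChartAt, Function.comp_apply]
      rw [(extChartAt (𝓡∂ n) q₂).left_inv h2, extChartAt_to_inv x]
      exact e3
    have e5 := HasFDerivWithinAt.comp (extChartAt (𝓡∂ n) q₂ x) e3' e4 (t := range (𝓡∂ n)) ?_
    · have key : ∀ y : E n, (extChartAt (𝓡∂ n) q₂).symm y ∈ (extChartAt (𝓡∂ n) x).source →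
          φ ((extChartAt (𝓡∂ n) q₂).symm y) ∈ (extChartAt (𝓡∂ n) (φ x)).source →
          xc n q₁ (φ ((xc n q₂).symm y)) =
          ((extChartAt (𝓡∂ n) q₁ ∘ (extChartAt (𝓡∂ n) (φ x)).symm) ∘
          (writtenInExtChartAt (𝓡∂ n) (𝓡∂ n) x φ ∘ ((extChartAt (𝓡∂ n) x) ∘
          (extChartAt (𝓡∂ n) q₂).symm))) y := by
        intro y hy1 hy2
        simp only [writtenInExtChartAt, Function.comp_apply]
        rw [(extChartAt (𝓡∂ n) x).left_inv hy1, (extChartAt (𝓡∂ n) (φ x)).left_inv hy2]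
      refine e5.congr_of_eventuallyEq ?_ ?_
      · have hmem : (extChartAt (𝓡∂ n) x).source ∩ φ ⁻¹' (extChartAt (𝓡∂ n) (φ x)).source ∈ 𝓝 x :=
          inter_mem (extChartAt_source_mem_nhds x)
            (h.continuousAt.preimage_mem_nhds (extChartAt_source_mem_nhds (φ x)))
        have := extChartAt_preimage_mem_nhds' (I := 𝓡∂ n) h2 hmem
        filter_upwards [mem_nhdsWithin_of_mem_nhds this] with y hy
        exact key y hy.1 hy.2
      · refine key _ ?_ ?_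
        · rw [(extChartAt (𝓡∂ n) q₂).left_inv h2]
          exact mem_extChartAt_source x
        · rw [(extChartAt (𝓡∂ n) q₂).left_inv h2]
          exact mem_extChartAt_source (φ x)
    · intro y _
      simp only [writtenInExtChartAt, Function.comp_apply, extChartAt_coe]
      exact mem_range_self _
  · intro y _
    simp only [Function.comp_apply, extChartAt_coe]
    exact mem_range_self _

theorem cChart : CChart_statement.{u} := by
  intro n _ M₁ M₂ _ _ _ _ _ _ O φ hO hφ q₁ q₂ x hx h2 h1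
  have hd : MDifferentiableAt (𝓡∂ n) (𝓡∂ n) φ x :=
    (hφ.contMDiffAt (hO.mem_nhds hx)).mdifferentiableAt (by simp)
  have hch := cChart_chain hd h2 h1
  rw [cChart_range] at hch
  have hxH : xc n q₂ x ∈ Hs n := by
    rw [← cChart_range, extChartAt_coe]
    exact mem_range_self _
  constructor
  · intro j
    have hJ : ∀ k, Jac (fun y => xc n q₁ (φ ((xc n q₂).symm y))) (xc n q₂ x) k j =
        ((tangentCoordChange (𝓡∂ n) (φ x) q₁ (φ x)) (cChart_D φ x (cc (𝓡∂ n) q₂ x (ev j)))) k := by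
      intro k
      unfold Jac
      rw [Matrix.of_apply]
      have h3 := ((EuclideanSpace.proj (𝕜 := ℝ) k : E n →L[ℝ] ℝ).hasFDerivAt
        (x := xc n q₁ (φ ((xc n q₂).symm (xc n q₂ x))))).comp_hasFDerivWithinAt (xc n q₂ x) hch
      exact pd_of_has hxH h3 j
    have h4 : ∑ k, Jac (fun y => xc n q₁ (φ ((xc n q₂).symm y))) (xc n q₂ x) k j •
        cc (𝓡∂ n) q₁ (φ x) (EuclideanSpace.single k (1 : ℝ) : E n) =
        cChart_D φ x (cc (𝓡∂ n) q₂ x (ev j)) := by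
      simp only [hJ]
      rw [← cChart_cc_sum, ← cChart_expand]
      exact cc_inv_right (𝓡∂ n) h1 _
    exact h4.symm
  · intro v
    refine ⟨fun j => (tangentCoordChange (𝓡∂ n) x q₂ x v : E n) j, ?_⟩
    have h4 : (v : E n) = ∑ j, (tangentCoordChange (𝓡∂ n) x q₂ x v : E n) j •
        cc (𝓡∂ n) q₂ x (EuclideanSpace.single j (1 : ℝ) : E n) := by
      rw [← cChart_cc_sum, ← cChart_expand]
      exact (cc_inv_right (𝓡∂ n) h2 _).symm
    exact h4


end Chart

theorem cUnm : CChart_statement.{u} → CLoc_statement.{u} → CUnm_statement.{u} := by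
  intro hChart hLoc n N _ M₁ M₂ _ _ _ _ _ _ _ _ _ _ _ _ P Q G O φ V hL q₁ q₂ x hxO hx2 hx1
  obtain ⟨h1, -, h3, -⟩ := hLoc n N M₂
  obtain ⟨h1', -, h3', -⟩ := hLoc n N M₁
  obtain ⟨Oq, hOq, hOqe⟩ := h1 q₂
  set y₀ : E n := xc n q₂ x with hy₀
  have hy₀t : y₀ ∈ tg n q₂ := (xc n q₂).map_source hx2
  have hy₀p : 0 < y₀ 0 := cUnm_pos h1 h3 hx2 (hL.sub hxO)
  -- the open set of good coordinates
  have hO' : IsOpen (O ∩ φ ⁻¹' (xc n q₁).source) :=
    hL.smφ.continuousOn.isOpen_inter_preimage hL.isOpen (isOpen_extChartAt_source q₁)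
  have hT : IsOpen (Oq ∩ {y : E n | 0 < y 0}) :=
    hOq.inter (isOpen_lt continuous_const (continuous_coord 0))
  have hTs : (Oq ∩ {y : E n | 0 < y 0}) ⊆ tg n q₂ := by
    intro y hy
    rw [hOqe]
    exact ⟨hy.1, interior_subset (open_pos_subset hy.2)⟩
  have hc : ContinuousOn (xc n q₂).symm (Oq ∩ {y : E n | 0 < y 0}) :=
    (continuousOn_extChartAt_symm q₂).mono hTs
  have hU : IsOpen ((Oq ∩ {y : E n | 0 < y 0}) ∩
      (xc n q₂).symm ⁻¹' (O ∩ φ ⁻¹' (xc n q₁).source)) :=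
    hc.isOpen_inter_preimage hT hO'
  have hyU : y₀ ∈ ((Oq ∩ {y : E n | 0 < y 0}) ∩
      (xc n q₂).symm ⁻¹' (O ∩ φ ⁻¹' (xc n q₁).source)) := by
    have hs : (xc n q₂).symm y₀ = x := (xc n q₂).left_inv hx2
    refine ⟨⟨?_, hy₀p⟩, ?_⟩
    · rw [hOqe] at hy₀t
      exact hy₀t.1
    · rw [mem_preimage, hs]
      exact ⟨hxO, hx1⟩
  obtain ⟨r, hr, hball⟩ := Metric.isOpen_iff.1 hU y₀ hyU
  have hbt : ∀ y ∈ Metric.ball y₀ r, y ∈ tg n q₂ := fun y hy => hTs (hball hy).1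
  have hbO : ∀ y ∈ Metric.ball y₀ r, (xc n q₂).symm y ∈ O := fun y hy => (hball hy).2.1
  have hbφ : ∀ y ∈ Metric.ball y₀ r, φ ((xc n q₂).symm y) ∈ (xc n q₁).source :=
    fun y hy => (hball hy).2.2
  have hbs : ∀ y ∈ Metric.ball y₀ r, (xc n q₂).symm y ∈ (xc n q₂).source :=
    fun y hy => (xc n q₂).map_target (hbt y hy)
  have hbr : ∀ y ∈ Metric.ball y₀ r, xc n q₂ ((xc n q₂).symm y) = y :=
    fun y hy => (xc n q₂).right_inv (hbt y hy)
  have hbl : ∀ y ∈ Metric.ball y₀ r, (xc n q₁).symm (xc n q₁ (φ ((xc n q₂).symm y))) =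
      φ ((xc n q₂).symm y) := fun y hy => (xc n q₁).left_inv (hbφ y hy)
  refine ⟨r, hr, ?_, ?_, ?_, ?_, ?_, ?_⟩
  · intro y hy
    exact ⟨hbt y hy, (hball hy).1.2⟩
  · intro y hy
    exact ⟨hbO y hy, hbφ y hy, cUnm_pos h1' h3' (hbφ y hy) (hL.maps (hbO y hy))⟩
  · rw [← contMDiffOn_iff_contDiffOn]
    have ha : ContMDiffOn 𝓘(ℝ, E n) (𝓡∂ n) ∞ (xc n q₂).symm (Metric.ball y₀ r) :=
      (contMDiffOn_extChartAt_symm q₂).mono hbt
    have hb : ContMDiffOn 𝓘(ℝ, E n) (𝓡∂ n) ∞ (fun y => φ ((xc n q₂).symm y))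
        (Metric.ball y₀ r) := hL.smφ.comp ha hbO
    have hcc : ContMDiffOn (𝓡∂ n) 𝓘(ℝ, E n) ∞ (xc n q₁)
        (chartAt (EuclideanHalfSpace n) q₁).source := contMDiffOn_extChartAt
    refine hcc.comp hb ?_
    intro y hy
    have := hbφ y hy
    rwa [extChartAt_source] at this
  · rw [← contMDiffOn_iff_contDiffOn]
    have ha : ContMDiffOn 𝓘(ℝ, E n) (𝓡∂ n) ∞ (xc n q₂).symm (Metric.ball y₀ r) :=
      (contMDiffOn_extChartAt_symm q₂).mono hbt
    exact hL.smV.comp ha hbO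
  · intro y hy
    obtain ⟨hder, -⟩ := hChart n M₁ M₂ O φ hL.isOpen hL.smφ q₁ q₂ ((xc n q₂).symm y) (hbO y hy)
      (hbs y hy) (hbφ y hy)
    rw [hbr y hy] at hder
    have hg : (P.loc q₁).g (xc n q₁ (φ ((xc n q₂).symm y))) =
        gram P.g q₁ (φ ((xc n q₂).symm y)) := by
      change gram P.g q₁ ((xc n q₁).symm (xc n q₁ (φ ((xc n q₂).symm y)))) = _
      rw [hbl y hy]
    rw [hg]
    change gram Q.g q₂ ((xc n q₂).symm y) = _
    ext i j
    have hm := hL.met _ (hbO y hy) (coordVec (𝓡∂ n) q₂ ((xc n q₂).symm y) i)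
      (coordVec (𝓡∂ n) q₂ ((xc n q₂).symm y) j)
    rw [hder i, hder j, cUnm_jac_expand] at hm
    change Q.g.inner ((xc n q₂).symm y) (coordVec (𝓡∂ n) q₂ ((xc n q₂).symm y) i)
      (coordVec (𝓡∂ n) q₂ ((xc n q₂).symm y) j) = _
    rw [hm, Matrix.mul_apply]
    refine Finset.sum_congr rfl fun l _ => ?_
    rw [Matrix.mul_apply]
    rfl
  · intro y hy j
    obtain ⟨hder, -⟩ := hChart n M₁ M₂ O φ hL.isOpen hL.smφ q₁ q₂ ((xc n q₂).symm y) (hbO y hy)
      (hbs y hy) (hbφ y hy)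
    rw [hbr y hy] at hder
    have hV : MDifferentiableAt (𝓡∂ n) 𝓘(ℝ, EndF N) V ((xc n q₂).symm y) :=
      ((hL.smV.contMDiffAt (hL.isOpen.mem_nhds (hbO y hy))).mdifferentiableAt (by simp))
    have hd := dmap_coordVec (𝓡∂ n) (hbs y hy) hV j
    rw [hbr y hy, cUnm_range] at hd
    have hm := hL.con _ (hbO y hy) (coordVec (𝓡∂ n) q₂ ((xc n q₂).symm y) j)
    rw [hd, hder j] at hm
    have hs : P.A.form (φ ((xc n q₂).symm y))
        (∑ k, Jac (fun y => xc n q₁ (φ ((xc n q₂).symm y))) y k j •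
          coordVec (𝓡∂ n) q₁ (φ ((xc n q₂).symm y)) k) =
        ∑ k, Jac (fun y => xc n q₁ (φ ((xc n q₂).symm y))) y k j •
          (P.loc q₁).B k (xc n q₁ (φ ((xc n q₂).symm y))) := by
      refine (map_sum (P.A.form (φ ((xc n q₂).symm y))) _ _).trans
        (Finset.sum_congr rfl fun k _ => ?_)
      refine (map_smul (P.A.form (φ ((xc n q₂).symm y))) _ _).trans ?_
      congr 1
      change _ = P.A.form ((xc n q₁).symm (xc n q₁ (φ ((xc n q₂).symm y))))
        (coordVec (𝓡∂ n) q₁ ((xc n q₁).symm (xc n q₁ (φ ((xc n q₂).symm y)))) k)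
      rw [hbl y hy]
    rw [hs] at hm
    exact hm


theorem cMatch : BSymm_statement → BComp_statement → BIntr_statement → CChart_statement.{u} →
    CLoc_statement.{u} → CMatch_statement.{u} := by
  intro hSymm hComp hIntr hChart hLoc
  intro n N _ M₁ M₂ _ _ _ _ _ _ _ _ _ _ _ _ P Q G q₁ q₂ z r L₁ L₂ D₁ D₂ X₁ Y₁ X₂ Y₂ S₁ S₂ hD₁ hD₂ hs₁ hs₂ h₁ h₂
    hg hB hh hsol
  obtain ⟨-, -, hbd₁, -⟩ := hLoc n N M₁
  obtain ⟨-, -, hbd₂, -⟩ := hLoc n N M₂
  have hHB := cMatch_HB z r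
  have h₂' : IsPull (Q.loc q₂) L₁ D₂ (HB z r) X₂ Y₂ S₂ := cMatch_pull h₂ hg hB hh
  have h₁' := hSymm n N (P.loc q₁) L₁ D₁ (HB z r) X₁ Y₁ S₁ hD₁ hHB h₁
  have hC := hComp n N (Q.loc q₂) L₁ (P.loc q₁) D₂ (HB z r) D₁ X₂ Y₂ Y₁ X₁ S₂
    (fun y => Ring.inverse (S₁ (Y₁ y))) hD₂ hHB hD₁ h₂' h₁'
  set A : Set (E n) := D₂ ∩ {x : E n | 0 < x 0} with hA
  have hAo : IsOpen A := cMatch_isOpen hD₂
  have hAr : RelOpen A := cMatch_relOpen hD₂
  have hAD : A ⊆ D₂ := inter_subset_left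
  have hAt : A ⊆ tg n q₂ := hAD.trans hs₂
  set τ : E n → E n := fun x => Y₁ (X₂ x) with hτ
  set W : E n → EndF N := fun x => S₂ x * Ring.inverse (S₁ (Y₁ (X₂ x))) with hW
  set O : Set M₂ := (xc n q₂).symm '' A with hO
  have hOeq : O = (xc n q₂).source ∩ (xc n q₂) ⁻¹' A :=
    (xc n q₂).symm_image_eq_source_inter_preimage hAt
  have hOo : IsOpen O := by
    rw [hOeq]
    exact (continuousOn_extChartAt q₂).isOpen_inter_preimage (isOpen_extChartAt_source q₂) hAo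
  have hτD : ∀ x ∈ A, τ x ∈ D₁ := fun x hx => h₁.diffeo.mapsY (h₂.diffeo.mapsX (hAD hx))
  have hτp : ∀ x ∈ A, 0 < τ x 0 := by
    intro x hx
    have e1 := hIntr n D₂ (HB z r) X₂ Y₂ hD₂ hHB h₂.diffeo x (hAD hx) hx.2
    exact hIntr n (HB z r) D₁ Y₁ X₁ hHB hD₁ (cMatch_symmD h₁.diffeo) _
      (h₂.diffeo.mapsX (hAD hx)) e1
  set φ : M₂ → M₁ := fun m => (xc n q₁).symm (τ (xc n q₂ m)) with hφ
  set V : M₂ → EndF N := fun m => W (xc n q₂ m) with hV
  have hOm : ∀ m ∈ O, m ∈ (xc n q₂).source ∧ xc n q₂ m ∈ A := by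
    intro m hm
    rw [hOeq] at hm
    exact hm
  have hint₁ : ∀ (p m : M₁), m ∈ (xc n p).source → 0 < xc n p m 0 → m ∈ Mi n M₁ := by
    intro p m hm h0
    have : m ∉ (𝓡∂ n).boundary M₁ := fun hb => h0.ne' ((hbd₁ p m hm).1 hb)
    rcases (𝓡∂ n).isInteriorPoint_or_isBoundaryPoint m with h | h
    · exact h
    · exact absurd h this
  have hint₂ : ∀ (p m : M₂), m ∈ (xc n p).source → 0 < xc n p m 0 → m ∈ Mi n M₂ := by
    intro p m hm h0
    have : m ∉ (𝓡∂ n).boundary M₂ := fun hb => h0.ne' ((hbd₂ p m hm).1 hb)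
    rcases (𝓡∂ n).isInteriorPoint_or_isBoundaryPoint m with h | h
    · exact h
    · exact absurd h this
  have hφs : ∀ m ∈ O, φ m ∈ (xc n q₁).source ∧ xc n q₁ (φ m) = τ (xc n q₂ m) := by
    intro m hm
    have e1 := hs₁ (hτD _ (hOm m hm).2)
    exact ⟨(xc n q₁).map_target e1, (xc n q₁).right_inv e1⟩
  have hτsm : ContDiffOn ℝ ∞ τ A := (h₁.diffeo.smY.comp h₂.diffeo.smX h₂.diffeo.mapsX).mono hAD
  have hWsm : ContDiffOn ℝ ∞ W A := hC.smS.mono hAD
  have hxc : ContMDiffOn (𝓡∂ n) 𝓘(ℝ, E n) ∞ (xc n q₂) O :=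
    (contMDiffOn_extChartAt (I := 𝓡∂ n) (x := q₂) (n := ∞)).mono (fun m hm => by
      rw [← extChartAt_source (𝓡∂ n)]; exact (hOm m hm).1)
  have smφ : ContMDiffOn (𝓡∂ n) (𝓡∂ n) ∞ φ O := by
    have e1 : ContMDiffOn (𝓡∂ n) 𝓘(ℝ, E n) ∞ (fun m => τ (xc n q₂ m)) O :=
      (contMDiffOn_iff_contDiffOn.2 hτsm).comp hxc (fun m hm => (hOm m hm).2)
    exact (contMDiffOn_extChartAt_symm q₁).comp e1 (fun m hm => hs₁ (hτD _ (hOm m hm).2))
  have smV : ContMDiffOn (𝓡∂ n) 𝓘(ℝ, EndF N) ∞ V O :=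
    (contMDiffOn_iff_contDiffOn.2 hWsm).comp hxc (fun m hm => (hOm m hm).2)
  -- the Jacobian
  have hJac : ∀ m ∈ O, Jac (fun y => xc n q₁ (φ ((xc n q₂).symm y))) (xc n q₂ m) =
      Jac (Y₁ ∘ X₂) (xc n q₂ m) := by
    intro m hm
    ext i j
    simp only [Jac, Matrix.of_apply]
    refine hAr.pd_congr ?_ (hOm m hm).2 j
    intro y hy
    have e1 : (xc n q₂).symm y ∈ O := mem_image_of_mem _ hy
    have e2 := (hφs _ e1).2
    simp only [Function.comp_apply]
    rw [e2, (xc n q₂).right_inv (hAt hy)]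
  have key : ∀ m ∈ O, (∀ j, mfderiv (𝓡∂ n) (𝓡∂ n) φ m (coordVec (𝓡∂ n) q₂ m j) =
      ∑ k, Jac (Y₁ ∘ X₂) (xc n q₂ m) k j • coordVec (𝓡∂ n) q₁ (φ m) k) ∧
      ∀ v : TangentSpace (𝓡∂ n) m, ∃ c : Fin n → ℝ, v = ∑ j, c j • coordVec (𝓡∂ n) q₂ m j := by
    intro m hm
    have := hChart n M₁ M₂ O φ hOo smφ q₁ q₂ m hm (hOm m hm).1 (hφs m hm).1
    rw [hJac m hm] at this
    exact this
  have hloc : ∀ m ∈ O, (xc n q₂).symm (xc n q₂ m) = m := fun m hm => (xc n q₂).left_inv (hOm m hm).1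
  refine ⟨O, φ, V, ?_, fun x hx h0 => mem_image_of_mem _ ⟨hx, h0⟩⟩
  refine ⟨hOo, ?_, ?_, smφ, smV, ?_, ?_, ?_, ?_⟩
  · intro m hm
    exact hint₂ q₂ m (hOm m hm).1 (hOm m hm).2.2
  · intro m hm
    refine hint₁ q₁ _ (hφs m hm).1 ?_
    rw [(hφs m hm).2]
    exact hτp _ (hOm m hm).2
  · -- unitary
    intro m hm
    have hx := hAD (hOm m hm).2
    refine cMatch_unitary (hC.unit _ hx) ?_
    have h1 : ContinuousLinearMap.adjoint (V m) * (1 : EndF N) * V m = 1 := hC.h_eq _ hx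
    rwa [mul_one] at h1
  · -- metric
    intro m hm v w
    obtain ⟨k1, k2⟩ := key m hm
    obtain ⟨c, rfl⟩ := k2 v
    obtain ⟨d, rfl⟩ := k2 w
    have hge := hC.g_eq _ (hAD (hOm m hm).2)
    have hge' : ∀ i j, Q.g.inner m (coordVec (𝓡∂ n) q₂ m i) (coordVec (𝓡∂ n) q₂ m j) =
        P.g.inner (φ m) (mfderiv (𝓡∂ n) (𝓡∂ n) φ m (coordVec (𝓡∂ n) q₂ m i))
          (mfderiv (𝓡∂ n) (𝓡∂ n) φ m (coordVec (𝓡∂ n) q₂ m j)) := by
      intro i j
      have e1 := congrFun (congrFun hge i) j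
      have e2 : (Q.loc q₂).g (xc n q₂ m) i j =
          Q.g.inner m (coordVec (𝓡∂ n) q₂ m i) (coordVec (𝓡∂ n) q₂ m j) := by
        simp only [One.loc, locM, gram, Matrix.of_apply]
        rw [hloc m hm]
      have e3 : ∀ k l, (P.loc q₁).g ((Y₁ ∘ X₂) (xc n q₂ m)) k l =
          P.g.inner (φ m) (coordVec (𝓡∂ n) q₁ (φ m) k) (coordVec (𝓡∂ n) q₁ (φ m) l) := by
        intro k l
        rfl
      rw [← e2, e1, k1 i, k1 j]
      simp only [Matrix.mul_apply, Matrix.transpose_apply, e3, Finset.sum_mul, map_sum, map_smul, sum_apply, smul_apply, smul_eq_mul, Finset.mul_sum]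
      refine Finset.sum_congr rfl fun k _ => Finset.sum_congr rfl fun l _ => ?_
      ring
    simp only [map_sum, map_smul, sum_apply, smul_apply, hge']
  · -- connection
    intro m hm v
    obtain ⟨k1, k2⟩ := key m hm
    obtain ⟨c, rfl⟩ := k2 v
    have hsm : MDifferentiableAt (𝓡∂ n) 𝓘(ℝ, EndF N) V m :=
      ((smV m hm).contMDiffAt (hOo.mem_nhds hm)).mdifferentiableAt (by simp)
    have hj : ∀ j, dmap (𝓡∂ n) V m (coordVec (𝓡∂ n) q₂ m j) +
        Q.A.form m (coordVec (𝓡∂ n) q₂ m j) ∘L V m =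
        V m ∘L P.A.form (φ m) (mfderiv (𝓡∂ n) (𝓡∂ n) φ m (coordVec (𝓡∂ n) q₂ m j)) := by
      intro j
      have hx := (hOm m hm).2
      have e1 := hC.B_eq _ (hAD hx) j
      have e2 : dmap (𝓡∂ n) V m (coordVec (𝓡∂ n) q₂ m j) = pd j W (xc n q₂ m) := by
        rw [dmap_coordVec (𝓡∂ n) (hOm m hm).1 hsm j]
        have : fderivWithin ℝ (lu (𝓡∂ n) q₂ V) (range (𝓡∂ n)) (xc n q₂ m)
            (EuclideanSpace.single j 1) = pd j (lu (𝓡∂ n) q₂ V) (xc n q₂ m) := by
          unfold pd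
          rw [cMatch_range]
        rw [this]
        refine hAr.pd_congr ?_ hx j
        intro y hy
        simp only [lu, hV]
        rw [(xc n q₂).right_inv (hAt hy)]
      have e3 : Q.A.form m (coordVec (𝓡∂ n) q₂ m j) = (Q.loc q₂).B j (xc n q₂ m) := by
        simp only [One.loc, locM]
        rw [hloc m hm]
      have e6 : (P.A.form (φ m)) (∑ k, Jac (Y₁ ∘ X₂) (xc n q₂ m) k j • coordVec (𝓡∂ n) q₁ (φ m) k) =
          ∑ k, Jac (Y₁ ∘ X₂) (xc n q₂ m) k j • (P.loc q₁).B k ((Y₁ ∘ X₂) (xc n q₂ m)) := by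
        rw [map_sum]
        exact Finset.sum_congr rfl fun k _ => map_smul _ _ _
      rw [e2, e3, k1 j, e6]
      exact e1
    have e4 : ∀ (T : EndF N) (S : Fin n → EndF N), (∑ j, c j • S j) ∘L T =
        ∑ j, c j • (S j ∘L T) := by
      intro T S
      ext1 w
      simp only [ContinuousLinearMap.comp_apply, sum_apply, smul_apply]
    have e5 : ∀ (T : EndF N) (S : Fin n → EndF N), T ∘L (∑ j, c j • S j) =
        ∑ j, c j • (T ∘L S j) := by
      intro T S
      ext1 w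
      simp only [ContinuousLinearMap.comp_apply, sum_apply, smul_apply, map_sum]
      exact Finset.sum_congr rfl fun k _ => ContinuousLinearMap.map_smul_of_tower T (c k) _
    simp only [map_sum, map_smul]
    rw [e4, e5, ← Finset.sum_add_distrib]
    refine Finset.sum_congr rfl fun j _ => ?_
    exact (smul_add (c j) _ _).symm.trans (congrArg (fun T : EndF N => c j • T) (hj j))
  · -- solutions
    intro u hu m hm
    have hx := hAD (hOm m hm).2
    have e1 := hsol u hu (X₂ (xc n q₂ m)) (h₂.diffeo.mapsX hx)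
    rw [h₂.diffeo.inv1 _ hx] at e1
    simp only [hV, hW, hφ, hτ]
    have e2 : lu (𝓡∂ n) q₂ u.2 (xc n q₂ m) = u.2 m := by
      simp only [lu]
      rw [hloc m hm]
    rw [mul_apply_eq_comp]
    have e3 : lu (𝓡∂ n) q₁ u.1 (Y₁ (X₂ (xc n q₂ m))) =
      u.1 ((xc n q₁).symm (Y₁ (X₂ (xc n q₂ m)))) := rfl
    rw [← e3, e1, e2, ← mul_apply_eq_comp, Ring.mul_inverse_cancel _ (h₂.unit _ hx)]
    rfl


section Tens

variable {n : ℕ} [NeZero n] {M₁ M₂ : Type u} [TopologicalSpace M₁]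
  [ChartedSpace (EuclideanHalfSpace n) M₁] [IsManifold (𝓡∂ n) ∞ M₁] [TopologicalSpace M₂]
  [ChartedSpace (EuclideanHalfSpace n) M₂] [IsManifold (𝓡∂ n) ∞ M₂]

theorem cTensor_jac (hrel : ∀ p : M₂, RelOpen (tg n p)) {F : M₂ → M₁}
    (hF : ContMDiff (𝓡∂ n) (𝓡∂ n) ∞ F) (q₁ : M₁) (q₂ x : M₂) (hx2 : x ∈ (xc n q₂).source)
    (hx1 : F x ∈ (xc n q₁).source) (k j : Fin n) :
    ContinuousAt (fun m => Jac (fun y => xc n q₁ (F ((xc n q₂).symm y))) (xc n q₂ m) k j) x := by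
  -- the open neighbourhood of `x`
  set O' : Set M₂ := (xc n q₂).source ∩ F ⁻¹' (xc n q₁).source with hO'
  have hO'o : IsOpen O' :=
    (isOpen_extChartAt_source q₂).inter ((isOpen_extChartAt_source q₁).preimage hF.continuous)
  obtain ⟨Oq, hOq, hOqe⟩ := hrel q₂
  obtain ⟨Ou, hOu, hOue⟩ := (continuousOn_iff'.1 (continuousOn_extChartAt_symm (I := 𝓡∂ n) q₂))
    O' hO'o
  set D : Set (E n) := (xc n q₂).symm ⁻¹' O' ∩ tg n q₂ with hD
  have hDrel : RelOpen D := by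
    refine ⟨Ou ∩ Oq, hOu.inter hOq, ?_⟩
    have hOqe' : (extChartAt (𝓡∂ n) q₂).target = Oq ∩ Hs n := hOqe
    refine hOue.trans ?_
    rw [hOqe', inter_assoc]
  have hDt : ∀ y ∈ D, y ∈ tg n q₂ := fun y hy => hy.2
  have hτ : ContDiffOn ℝ ∞ (fun y => xc n q₁ (F ((xc n q₂).symm y))) D := by
    rw [← contMDiffOn_iff_contDiffOn]
    have ha : ContMDiffOn 𝓘(ℝ, E n) (𝓡∂ n) ∞ (xc n q₂).symm D :=
      (contMDiffOn_extChartAt_symm q₂).mono hDt
    have hb : ContMDiffOn 𝓘(ℝ, E n) (𝓡∂ n) ∞ (fun y => F ((xc n q₂).symm y)) D :=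
      hF.comp_contMDiffOn ha
    have hcc : ContMDiffOn (𝓡∂ n) 𝓘(ℝ, E n) ∞ (xc n q₁)
        (chartAt (EuclideanHalfSpace n) q₁).source := contMDiffOn_extChartAt
    refine hcc.comp hb ?_
    intro y hy
    have := hy.1.2
    rw [mem_preimage, extChartAt_source] at this
    exact this
  have hpd : ContinuousOn (pd j fun y => xc n q₁ (F ((xc n q₂).symm y)) k) D :=
    (hDrel.pd_smooth (coord_smooth hτ k) j).continuousOn
  have hmaps : MapsTo (xc n q₂) O' D := by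
    intro m hm
    refine ⟨?_, (xc n q₂).map_source hm.1⟩
    rw [mem_preimage, (xc n q₂).left_inv hm.1]
    exact hm
  have hcont : ContinuousOn (fun m => (pd j fun y => xc n q₁ (F ((xc n q₂).symm y)) k)
      (xc n q₂ m)) O' :=
    hpd.comp ((continuousOn_extChartAt q₂).mono inter_subset_left) hmaps
  exact hcont.continuousAt (hO'o.mem_nhds ⟨hx2, hx1⟩)

end Tens

theorem cTensor : CChart_statement.{u} → CConn_statement.{u} → CLoc_statement.{u} →
    CTensor_statement.{u} := by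
  intro hChart hConn hLoc n N _ M₁ M₂ _ _ _ _ _ _ _ _ _ _ _ _ _ _ _ _ P Q Gm F G hG hL
  obtain ⟨h1, -, -, -⟩ := hLoc n N M₂
  obtain ⟨-, -, hd⟩ := hConn n M₂
  have hFs : ContMDiff (𝓡∂ n) (𝓡∂ n) ∞ F := F.contMDiff
  have hFc : Continuous F := hFs.continuous
  -- continuity facts at `x` in the charts at `x` and `F x`
  have hsrc : ∀ x : M₂, x ∈ (xc n x).source := fun x => mem_extChartAt_source x
  have hsrc₁ : ∀ x : M₁, x ∈ (xc n x).source := fun x => mem_extChartAt_source x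
  have hgood : ∀ x : M₂, (xc n x).source ∩ F ⁻¹' (xc n (F x)).source ∈ 𝓝 x := fun x =>
    ((isOpen_extChartAt_source x).inter
      ((isOpen_extChartAt_source (F x)).preimage hFc)).mem_nhds ⟨hsrc x, hsrc₁ (F x)⟩
  have hder : ∀ x m : M₂, m ∈ (xc n x).source ∩ F ⁻¹' (xc n (F x)).source → ∀ j,
      mfderiv (𝓡∂ n) (𝓡∂ n) F m (coordVec (𝓡∂ n) x m j) =
      ∑ k, Jac (fun y => xc n (F x) (F ((xc n x).symm y))) (xc n x m) k j •
        coordVec (𝓡∂ n) (F x) (F m) k := fun x m hm =>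
    (hChart n M₁ M₂ univ F isOpen_univ hFs.contMDiffOn (F x) x m (mem_univ _) hm.1 hm.2).1
  have hspan : ∀ (x : M₂) (v : TangentSpace (𝓡∂ n) x), ∃ c : Fin n → ℝ,
      v = ∑ j, c j • coordVec (𝓡∂ n) x x j := fun x =>
    (hChart n M₁ M₂ univ F isOpen_univ hFs.contMDiffOn (F x) x x (mem_univ _) (hsrc x)
      (hsrc₁ (F x))).2
  have hJ : ∀ (x : M₂) (k j : Fin n), ContinuousAt
      (fun m => Jac (fun y => xc n (F x) (F ((xc n x).symm y))) (xc n x m) k j) x :=
    fun x k j => cTensor_jac h1 hFs (F x) x x (hsrc x) (hsrc₁ (F x)) k j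
  refine ⟨?_, ?_, ?_, ?_⟩
  · -- metric
    intro x v w
    have key : ∀ i j : Fin n, Q.g.inner x (coordVec (𝓡∂ n) x x i) (coordVec (𝓡∂ n) x x j) =
        P.g.inner (F x) (mfderiv (𝓡∂ n) (𝓡∂ n) F x (coordVec (𝓡∂ n) x x i))
          (mfderiv (𝓡∂ n) (𝓡∂ n) F x (coordVec (𝓡∂ n) x x j)) := by
      intro i j
      have hr : ∀ m : M₂, m ∈ (xc n x).source ∩ F ⁻¹' (xc n (F x)).source →
          P.g.inner (F m) (mfderiv (𝓡∂ n) (𝓡∂ n) F m (coordVec (𝓡∂ n) x m i))
            (mfderiv (𝓡∂ n) (𝓡∂ n) F m (coordVec (𝓡∂ n) x m j)) =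
          ∑ l, (∑ k, Jac (fun y => xc n (F x) (F ((xc n x).symm y))) (xc n x m) k i *
            gram P.g (F x) (F m) k l) *
            Jac (fun y => xc n (F x) (F ((xc n x).symm y))) (xc n x m) l j := by
        intro m hm
        rw [hder x m hm i, hder x m hm j, cTensor_expand]
      rw [hr x ⟨hsrc x, hsrc₁ (F x)⟩]
      refine cTensor_lim (f := fun m => Q.g.inner m (coordVec (𝓡∂ n) x m i)
        (coordVec (𝓡∂ n) x m j)) (g := fun m => ∑ l, (∑ k,
          Jac (fun y => xc n (F x) (F ((xc n x).symm y))) (xc n x m) k i *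
            gram P.g (F x) (F m) k l) *
            Jac (fun y => xc n (F x) (F ((xc n x).symm y))) (xc n x m) l j)
        (hd x) (hgood x) ?_ ?_ ?_
      · exact (Q.g.smooth x i j).continuousOn.continuousAt
          ((isOpen_extChartAt_source x).mem_nhds (hsrc x))
      · have hgr : ∀ k l : Fin n, ContinuousAt (fun m => gram P.g (F x) (F m) k l) x := by
          intro k l
          have h2 : ContinuousAt (fun m => gram P.g (F x) m k l) (F x) :=
            (P.g.smooth (F x) k l).continuousOn.continuousAt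
              ((isOpen_extChartAt_source (F x)).mem_nhds (hsrc₁ (F x)))
          exact h2.comp_of_eq hFc.continuousAt rfl
        have : ContinuousAt (fun m => ∑ l : Fin n, (∑ k : Fin n,
            Jac (fun y => xc n (F x) (F ((xc n x).symm y))) (xc n x m) k i *
            gram P.g (F x) (F m) k l) *
            Jac (fun y => xc n (F x) (F ((xc n x).symm y))) (xc n x m) l j) x := by
          refine tendsto_finsetSum _ fun l _ => ?_
          refine Tendsto.mul (tendsto_finsetSum _ fun k _ => ?_) (hJ x l j)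
          exact (hJ x k i).mul (hgr k l)
        exact this
      · intro m hm hmi
        obtain ⟨O, hmO, hO⟩ := hL m hmi
        rw [← hr m hm]
        exact hO.met m hmO _ _
    obtain ⟨a, rfl⟩ := hspan x v
    obtain ⟨b, rfl⟩ := hspan x w
    have e1 : ∀ (c : Fin n → ℝ), mfderiv (𝓡∂ n) (𝓡∂ n) F x
        (∑ j, c j • coordVec (𝓡∂ n) x x j) =
        ∑ j, c j • mfderiv (𝓡∂ n) (𝓡∂ n) F x (coordVec (𝓡∂ n) x x j) := fun c =>
      (map_sum (mfderiv (𝓡∂ n) (𝓡∂ n) F x) _ _).trans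
        (Finset.sum_congr rfl fun i _ => map_smul (mfderiv (𝓡∂ n) (𝓡∂ n) F x) _ _)
    rw [e1 a, e1 b]
    have e2 : ∀ (m : M₂) (R : One n N M₂) (X Y : Fin n → TangentSpace (𝓡∂ n) m),
        R.g.inner m (∑ i, a i • X i) (∑ j, b j • Y j) =
          ∑ j, b j * ∑ i, a i * R.g.inner m (X i) (Y j) := by
      intro m R X Y
      have h1' : R.g.inner m (∑ k, a k • X k) = ∑ k, a k • R.g.inner m (X k) :=
        (map_sum (R.g.inner m) _ _).trans
          (Finset.sum_congr rfl fun i _ => map_smul (R.g.inner m) _ _)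
      have h2' : ∀ T : TangentSpace (𝓡∂ n) m →L[ℝ] ℝ,
          T (∑ l, b l • Y l) = ∑ l, b l * T (Y l) := fun T =>
        (map_sum T _ _).trans (Finset.sum_congr rfl fun i _ => map_smul T _ _)
      rw [h2', h1']
      refine Finset.sum_congr rfl fun l _ => ?_
      congr 1
      rw [_root_.sum_apply]
      refine Finset.sum_congr rfl fun k _ => ?_
      rfl
    have e2' : ∀ (m : M₁) (R : One n N M₁) (X Y : Fin n → TangentSpace (𝓡∂ n) m),
        R.g.inner m (∑ i, a i • X i) (∑ j, b j • Y j) =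
          ∑ j, b j * ∑ i, a i * R.g.inner m (X i) (Y j) := by
      intro m R X Y
      have h1' : R.g.inner m (∑ k, a k • X k) = ∑ k, a k • R.g.inner m (X k) :=
        (map_sum (R.g.inner m) _ _).trans
          (Finset.sum_congr rfl fun i _ => map_smul (R.g.inner m) _ _)
      have h2' : ∀ T : TangentSpace (𝓡∂ n) m →L[ℝ] ℝ,
          T (∑ l, b l • Y l) = ∑ l, b l * T (Y l) := fun T =>
        (map_sum T _ _).trans (Finset.sum_congr rfl fun i _ => map_smul T _ _)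
      rw [h2', h1']
      refine Finset.sum_congr rfl fun l _ => ?_
      congr 1
      rw [_root_.sum_apply]
      refine Finset.sum_congr rfl fun k _ => ?_
      rfl
    rw [e2, e2']
    refine Finset.sum_congr rfl fun j _ => ?_
    congr 1
    refine Finset.sum_congr rfl fun i _ => ?_
    rw [key i j]
  · -- connection
    intro x v
    have key : ∀ j : Fin n,
        dmap (𝓡∂ n) G x (coordVec (𝓡∂ n) x x j) +
          Q.A.form x (coordVec (𝓡∂ n) x x j) * G x =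
        G x * P.A.form (F x) (mfderiv (𝓡∂ n) (𝓡∂ n) F x (coordVec (𝓡∂ n) x x j)) := by
      intro j
      have hr : ∀ m : M₂, m ∈ (xc n x).source ∩ F ⁻¹' (xc n (F x)).source →
          P.A.form (F m) (mfderiv (𝓡∂ n) (𝓡∂ n) F m (coordVec (𝓡∂ n) x m j)) =
          ∑ k, Jac (fun y => xc n (F x) (F ((xc n x).symm y))) (xc n x m) k j •
            P.A.form (F m) (coordVec (𝓡∂ n) (F x) (F m) k) := by
        intro m hm
        rw [hder x m hm j]
        exact (map_sum (P.A.form (F m)) _ _).trans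
          (Finset.sum_congr rfl fun k _ => map_smul (P.A.form (F m)) _ _)
      rw [hr x ⟨hsrc x, hsrc₁ (F x)⟩]
      refine cTensor_lim (f := fun m => dmap (𝓡∂ n) G m (coordVec (𝓡∂ n) x m j) +
          Q.A.form m (coordVec (𝓡∂ n) x m j) * G m)
        (g := fun m => G m * ∑ k,
          Jac (fun y => xc n (F x) (F ((xc n x).symm y))) (xc n x m) k j •
            P.A.form (F m) (coordVec (𝓡∂ n) (F x) (F m) k))
        (hd x) (hgood x) ?_ ?_ ?_
      · have c1 : ContinuousAt (fun m => dmap (𝓡∂ n) G m (coordVec (𝓡∂ n) x m j)) x :=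
          (contMDiffOn_dmap_coordVec hG x j).continuousOn.continuousAt
            ((isOpen_extChartAt_source x).mem_nhds (hsrc x))
        have c2 : ContinuousAt (fun m => Q.A.form m (coordVec (𝓡∂ n) x m j)) x :=
          (Q.A.smooth x j).continuousOn.continuousAt
            ((isOpen_extChartAt_source x).mem_nhds (hsrc x))
        exact c1.add (c2.mul hG.continuous.continuousAt)
      · have hA : ∀ k : Fin n, ContinuousAt
            (fun m => P.A.form (F m) (coordVec (𝓡∂ n) (F x) (F m) k)) x := by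
          intro k
          have h2 : ContinuousAt (fun m => P.A.form m (coordVec (𝓡∂ n) (F x) m k)) (F x) :=
            (P.A.smooth (F x) k).continuousOn.continuousAt
              ((isOpen_extChartAt_source (F x)).mem_nhds (hsrc₁ (F x)))
          exact h2.comp_of_eq hFc.continuousAt rfl
        refine hG.continuous.continuousAt.mul ?_
        refine tendsto_finsetSum _ fun k _ => ?_
        exact (hJ x k j).smul (hA k)
      · intro m hm hmi
        obtain ⟨O, hmO, hO⟩ := hL m hmi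
        show _ = G m * ∑ k, _
        rw [← hr m hm]
        exact hO.con m hmO _
    obtain ⟨a, rfl⟩ := hspan x v
    have e1 : ∀ (c : Fin n → ℝ), mfderiv (𝓡∂ n) (𝓡∂ n) F x
        (∑ j, c j • coordVec (𝓡∂ n) x x j) =
        ∑ j, c j • mfderiv (𝓡∂ n) (𝓡∂ n) F x (coordVec (𝓡∂ n) x x j) := fun c =>
      (map_sum (mfderiv (𝓡∂ n) (𝓡∂ n) F x) _ _).trans
        (Finset.sum_congr rfl fun i _ => map_smul (mfderiv (𝓡∂ n) (𝓡∂ n) F x) _ _)
    rw [e1 a]
    have e2 : ∀ (m : M₂) (T : TangentSpace (𝓡∂ n) m →L[ℝ] EndF N)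
        (X : Fin n → TangentSpace (𝓡∂ n) m),
        T (∑ i, a i • X i) = ∑ i, a i • T (X i) := fun m T X =>
      (map_sum T _ _).trans (Finset.sum_congr rfl fun i _ => map_smul T _ _)
    have e2' : ∀ (m : M₁) (T : TangentSpace (𝓡∂ n) m →L[ℝ] EndF N)
        (X : Fin n → TangentSpace (𝓡∂ n) m),
        T (∑ i, a i • X i) = ∑ i, a i • T (X i) := fun m T X =>
      (map_sum T _ _).trans (Finset.sum_congr rfl fun i _ => map_smul T _ _)
    have e3 : dmap (𝓡∂ n) G x (∑ j, a j • coordVec (𝓡∂ n) x x j) =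
        ∑ j, a j • dmap (𝓡∂ n) G x (coordVec (𝓡∂ n) x x j) := e2 x _ _
    have e4 : Q.A.form x (∑ j, a j • coordVec (𝓡∂ n) x x j) =
        ∑ j, a j • Q.A.form x (coordVec (𝓡∂ n) x x j) := e2 x _ _
    have e5 : P.A.form (F x) (∑ j, a j • mfderiv (𝓡∂ n) (𝓡∂ n) F x (coordVec (𝓡∂ n) x x j)) =
        ∑ j, a j • P.A.form (F x) (mfderiv (𝓡∂ n) (𝓡∂ n) F x (coordVec (𝓡∂ n) x x j)) :=
      e2' (F x) _ _
    rw [e3, e4, e5]
    show _ + (∑ j, a j • Q.A.form x (coordVec (𝓡∂ n) x x j)) * G x = G x * ∑ j, _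
    rw [Finset.sum_mul, Finset.mul_sum, ← Finset.sum_add_distrib]
    refine Finset.sum_congr rfl fun j _ => ?_
    rw [smul_mul_assoc, mul_smul_comm]
    exact (smul_add (a j) (dmap (𝓡∂ n) G x (coordVec (𝓡∂ n) x x j) : EndF N)
      (Q.A.form x (coordVec (𝓡∂ n) x x j) * G x : EndF N)).symm.trans
      (congrArg (fun T : EndF N => a j • T) (key j))
  · -- unitarity
    intro x
    have hadj : Continuous (fun T : EndF N => ContinuousLinearMap.adjoint T) :=
      ContinuousLinearMap.adjoint.continuous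
    have hcl : IsClosed (unitary (EndF N) : Set (EndF N)) :=
      (isClosed_eq (hadj.mul continuous_id) continuous_const).inter
        (isClosed_eq (continuous_id.mul hadj) continuous_const)
    have hx : G x ∈ closure (unitary (EndF N) : Set (EndF N)) := by
      have h2 : G x ∈ closure (G '' Mi n M₂) :=
        image_closure_subset_closure_image hG.continuous ⟨x, hd x, rfl⟩
      refine closure_mono ?_ h2
      rintro _ ⟨m, hm, rfl⟩
      obtain ⟨O, hmO, hO⟩ := hL m hm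
      exact hO.unit m hmO
    rw [hcl.closure_eq] at hx
    exact hx
  · -- solutions
    intro u hu x
    obtain ⟨f, f', hf, hu1, hu2⟩ := hu
    have c1 : Continuous u.1 := hu1.smooth.continuous
    have c2 : Continuous u.2 := hu2.smooth.continuous
    refine cTensor_lim (f := fun m => u.2 m) (g := fun m => G m (u.1 (F m))) (hd x)
      (univ_mem) c2.continuousAt
      ((hG.continuous.clm_apply (c1.comp hFc)).continuousAt) ?_
    intro m _ hm
    obtain ⟨O, hmO, hO⟩ := hL m hm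
    exact hO.sol u ⟨f, f', hf, hu1, hu2⟩ m hmO


end Vale.Agent.P088.TM
end
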