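import Vale.Agent.P088.TM.H275St

/-!
# P088, two manifolds: both models near the boundary point, in common coordinates
-/

set_option linter.all false

open Bundle Manifold MeasureTheory Set Filter Topology
open scoped ContDiff

noncomputable section

namespace Vale.Agent.P088.TM

open Vale.Agent.P088 Vale.Agent.P088.EYM

universe u

/-- The model of a pair near a boundary point, of radius `r`, in the coordinates `e`. -/
structure BdE {n N : ℕ} [NeZero n] {M : Type u} (e : E n → M) (L : LD n N) (D₀ : Set (E n))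
    (z : E n) (r κ α β : ℝ) (j0 : Fin N) (W : Model n N) (D : Set (E n)) (X Y : E n → E n)
    (S : E n → EndF N) (s : Fin N → M → Fib N) (t : Fin n → M → Fib N) : Prop where
  rel : RelOpen D
  sub : D ⊆ D₀
  z0 : z 0 = 0
  rpos : 0 < r
  pull : IsPull L W.toLD D (HB z r) X Y S
  model : IsModel κ α β j0 W (HB z r)
  bd : ∀ y ∈ HB z r, y 0 = 0 → y ∈ D ∧ X y = y ∧ Y y = y ∧ S y = 1
  bdD : ∀ x ∈ D, x 0 = 0 → x ∈ HB z r
  frame : ∀ x ∈ D, ∀ v : Fib N, S x v = ∑ j, v j • s j (e x)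
  coord : ∀ x ∈ D, ∀ a, t a (e x) = S x (W.c a (X x))

section One

variable {n N : ℕ} [NeZero n] {M : Type u}
  [TopologicalSpace M] [ChartedSpace (EuclideanHalfSpace n) M] [IsManifold (𝓡∂ n) ∞ M]

omit [NeZero n] [TopologicalSpace M] [ChartedSpace (EuclideanHalfSpace n) M]
  [IsManifold (𝓡∂ n) ∞ M] in
theorem fr_apply (s : Fin N → M → Fib N) (x : M) (v : Fib N) :
    fr s x v = ∑ j, v j • s j x := by
  unfold fr
  rw [_root_.sum_apply]
  simp only [rk_apply, inner_eN]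

omit [NeZero n] [TopologicalSpace M] [ChartedSpace (EuclideanHalfSpace n) M]
  [IsManifold (𝓡∂ n) ∞ M] in
theorem fr_one (s : Fin N → M → Fib N) (x : M)
    (h : ∀ j, s j x = EuclideanSpace.single j 1) : fr s x = 1 := by
  refine endF_ext fun i => ?_
  rw [fr_apply]
  have h1 : ∀ j, s j x = eN N j := fun j => h j
  simp only [h1]
  exact (eN_expand _).symm

omit [TopologicalSpace M] [ChartedSpace (EuclideanHalfSpace n) M] [IsManifold (𝓡∂ n) ∞ M] in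
theorem fr_smooth {e : E n → M} {s : Fin N → M → Fib N} {D : Set (E n)}
    (h : ∀ j, ContDiffOn ℝ ∞ (fun y => s j (e y)) D) : ContDiffOn ℝ ∞ (fun y => fr s (e y)) D := by
  have h1 : (fun y => fr s (e y)) = fun y => ∑ j, rk (eN N j) (s j (e y)) := by
    funext y
    rfl
  rw [h1]
  exact ContDiffOn.sum fun j _ => (rk (eN N j)).contDiff.comp_contDiffOn (h j)

variable [T2Space M] [CompactSpace M] [ConnectedSpace M] [MeasurableSpace M] [BorelSpace M]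

/-- One model near a boundary point. -/
theorem pcSetup_one (P : One n N M) {e : E n → M} {L : LD n N} {D₀ : Set (E n)}
    (b : BC P e L D₀) (κ α β : ℝ) (hbd : ((𝓡∂ n).boundary M).Nonempty) (j0 : Fin N)
    (z : E n) (r : ℝ) (s : Fin N → M → Fib N) (t : Fin n → M → Fib N) (hz : z 0 = 0)
    (hr : 0 < r) (hsub : HB z r ⊆ D₀)
    (hs : ∀ j, ∃ f, P.Harm f (s j)) (ht : ∀ a, ∃ f, P.Harm f (t a))
    (hvs : ∀ y ∈ HB z r, y 0 = 0 → ∀ j, s j (e y) = EuclideanSpace.single j 1)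
    (hvt : ∀ y ∈ HB z r, y 0 = 0 → ∀ a,
      t a (e y) = EuclideanSpace.single j0 (y a : ℂ))
    (hpos : 0 < (pd 0 (fun y => t 0 (e y)) z j0).re) (hE : EYMeq κ α β L D₀) :
    ∃ (W : Model n N) (X Y : E n → E n) (S : E n → EndF N) (r₀ : ℝ), 0 < r₀ ∧
      ∀ r, 0 < r → r ≤ r₀ → ∃ D : Set (E n), BdE e L D₀ z r κ α β j0 W D X Y S s t := by
  have hD : RelOpen D₀ := b.rel
  have hlok : L.Ok D₀ := b.ok
  have hsS : ∀ j, ContDiffOn ℝ ∞ (fun y => s j (e y)) D₀ := fun j => by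
    obtain ⟨f, hf⟩ := hs j
    exact b.sm (s j) hf.smooth
  have hS : ContDiffOn ℝ ∞ (fun y => fr s (e y)) D₀ := fr_smooth hsS
  have hSv : ∀ v : Fib N, Sol L D₀ (fun x => fr s (e x) v) := by
    intro v
    obtain ⟨g, hg⟩ := cSetup_harm_sum P (fUniq n N M P hbd).2.1 hs v j0 Finset.univ
    have h1 := b.sol g _ hg
    have h2 : (fun y => (∑ j, v j • s j) (e y)) = fun x => fr s (e x) v := by
      funext x
      rw [fr_apply, Finset.sum_apply]
      rfl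
    rw [h2] at h1
    exact h1
  have hTs : ∀ a, Sol L D₀ (fun y => t a (e y)) := fun a => by
    obtain ⟨f, hf⟩ := ht a
    exact b.sol f _ hf
  have hzm := cSetup_mem_HB hz hr
  have hS1 : ∀ y ∈ HB z r, y 0 = 0 → fr s (e y) = 1 := fun y hy h0 =>
    fr_one s (e y) (hvs y hy h0)
  obtain ⟨hX, hdet, h00⟩ := cSetup_local (j0 := j0) (T := fun a y => t a (e y)) hD hS
    (fun a => (hTs a).1) hr hz hsub hS1 (fun y hy h0 a => hvt y hy h0 a) hpos
  set X : E n → E n := Xco j0 (fun y => fr s (e y)) (fun a y => t a (e y)) with hXdef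
  have hXz : X z = z := hX z hzm hz
  obtain ⟨Y, W, r₁, hr₁, hmod⟩ := bModel n N L D₀ κ α β j0 hD hlok hE (fun y => fr s (e y))
    (fun a y => t a (e y)) hS hSv hTs z (hsub hzm)
    (by show IsUnit (fr s (e z)); rw [hS1 z hzm hz]; exact isUnit_one) hdet
    (Or.inr ⟨hz, h00, r, hr, fun x hx h0 => by
      show X x 0 = 0
      rw [hX x hx h0, h0]⟩)
  rw [← hXdef, hXz] at hmod
  obtain ⟨D1, hD1D, hD1r, hzD1, hpull1, -, -⟩ := hmod r₁ hr₁ le_rfl
  obtain ⟨O, hO, hDO⟩ := hD1r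
  have hzO : z ∈ O := by
    have : z ∈ O ∩ Hs n := by rw [← hDO]; exact hzD1
    exact this.1
  obtain ⟨ε, hε, hεO⟩ := Metric.isOpen_iff.1 hO z hzO
  have hεD : HB z ε ⊆ D1 := by
    rw [hDO]
    exact inter_subset_inter_left _ hεO
  have hYflat : ∀ y, y ∈ HB z ε → y ∈ HB z r → y 0 = 0 → Y y = y := by
    intro y hy hy' h0
    have h1 := hpull1.diffeo.inv1 y (hεD hy)
    rw [hX y hy' h0] at h1
    exact h1
  have hYz : Y z = z := hYflat z (cSetup_mem_HB hz hε) hzm hz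
  have hYc : ContinuousWithinAt Y (HB z r₁) z :=
    hpull1.diffeo.smY.continuousOn z (cSetup_mem_HB hz hr₁)
  have hev : ∀ᶠ y in 𝓝[HB z r₁] z, Y y ∈ Metric.ball z r := by
    have h1 : Metric.ball z r ∈ 𝓝 (Y z) := by
      rw [hYz]
      exact Metric.ball_mem_nhds z hr
    exact hYc.eventually h1
  obtain ⟨δ, hδ, hδY⟩ := Metric.mem_nhdsWithin_iff.1 hev
  refine ⟨W, X, Y, (fun y => fr s (e y)), min (min r r₁) (min ε δ), by (clear * - hr hr₁ hε hδ; positivity), ?_⟩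
  intro ρ hρ hρle
  have hρr : ρ ≤ r := hρle.trans ((min_le_left _ _).trans (min_le_left _ _))
  have hρ1 : ρ ≤ r₁ := hρle.trans ((min_le_left _ _).trans (min_le_right _ _))
  have hρε : ρ ≤ ε := hρle.trans ((min_le_right _ _).trans (min_le_left _ _))
  have hρδ : ρ ≤ δ := hρle.trans ((min_le_right _ _).trans (min_le_right _ _))
  obtain ⟨D, hDD, hDr, hzD, hpull, hmodel, hcoord⟩ := hmod ρ hρ hρ1
  have hmono : ∀ {a b : ℝ}, a ≤ b → HB z a ⊆ HB z b := fun hab =>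
    inter_subset_inter_left _ (Metric.ball_subset_ball hab)
  refine ⟨D, ?_⟩
  refine
    { rel := hDr
      sub := hDD
      z0 := hz
      rpos := hρ
      pull := hpull
      model := hmodel
      bd := ?_
      bdD := ?_
      frame := fun x _ v => fr_apply s (e x) v
      coord := hcoord }
  · intro y hy h0
    have hyr := hmono hρr hy
    have hyY : Y y = y := hYflat y (hmono hρε hy) hyr h0
    refine ⟨?_, hX y hyr h0, hyY, hS1 y hyr h0⟩
    have h1 := hpull.diffeo.mapsY hy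
    rw [hyY] at h1
    exact h1
  · intro x hx h0
    have hXx : X x ∈ HB z ρ := hpull.diffeo.mapsX hx
    have hYX : Y (X x) = x := hpull.diffeo.inv1 x hx
    have hxb : x ∈ Metric.ball z r := by
      have h1 : X x ∈ Metric.ball z δ ∩ HB z r₁ :=
        ⟨Metric.ball_subset_ball hρδ hXx.1, hmono hρ1 hXx⟩
      have h2 : Y (X x) ∈ Metric.ball z r := hδY h1
      rw [hYX] at h2
      exact h2
    have hxr : x ∈ HB z r := ⟨hxb, hDr.subset hx⟩
    rw [hX x hxr h0] at hXx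
    exact hXx

end One

section Two

variable {n N : ℕ} [NeZero n] {M₁ M₂ : Type u}
  [TopologicalSpace M₁] [ChartedSpace (EuclideanHalfSpace n) M₁] [IsManifold (𝓡∂ n) ∞ M₁]
  [TopologicalSpace M₂] [ChartedSpace (EuclideanHalfSpace n) M₂] [IsManifold (𝓡∂ n) ∞ M₂]
  [MeasurableSpace M₁] [MeasurableSpace M₂]
  {P : One n N M₁} {Q : One n N M₂} {G : Gl M₁ M₂} {e₁ : E n → M₁} {e₂ : E n → M₂}
  {L₁ L₂ : LD n N} {D₀ : Set (E n)}
  [T2Space M₁] [CompactSpace M₁] [ConnectedSpace M₁] [BorelSpace M₁]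
  [T2Space M₂] [CompactSpace M₂] [ConnectedSpace M₂] [BorelSpace M₂]

/-- Both models near the boundary point. -/
theorem pcSetup (hP : PC P Q G e₁ e₂ L₁ L₂ D₀) (hG : G.Ok n N) (hS : SameD P Q G) (hn : 2 ≤ n)
    (hN : 0 < N) {z₀ : E n} (hz₀t : z₀ ∈ D₀) (hz₀0 : z₀ 0 = 0) (κ₁ κ₂ α β : ℝ)
    (hE₁ : EYMeq κ₁ α β L₁ D₀) (hE₂ : EYMeq κ₂ α β L₂ D₀) :
    ∃ (j0 : Fin N) (z : E n) (r₀ : ℝ) (s : Fin N → (M₁ → Fib N) × (M₂ → Fib N))
      (t : Fin n → (M₁ → Fib N) × (M₂ → Fib N)) (W₁ W₂ : Model n N) (X₁ Y₁ X₂ Y₂ : E n → E n)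
      (S₁ S₂ : E n → EndF N), 0 < r₀ ∧ (∀ j, s j ∈ PP P Q G) ∧ (∀ a, t a ∈ PP P Q G) ∧
      ∀ r, 0 < r → r ≤ r₀ → ∃ D₁ D₂ : Set (E n),
        BdE e₁ L₁ D₀ z r κ₁ α β j0 W₁ D₁ X₁ Y₁ S₁ (fun j => (s j).1) (fun a => (t a).1) ∧
        BdE e₂ L₂ D₀ z r κ₂ α β j0 W₂ D₂ X₂ Y₂ S₂ (fun j => (s j).2) (fun a => (t a).2) := by
  obtain ⟨j0, z, r, s, t, hz, hr, hsub, hs, ht, hval, hp₁, hp₂⟩ :=
    pcStart hP hG hS hn hN hz₀t hz₀0
  have hbd₁ : ((𝓡∂ n).boundary M₁).Nonempty := bne hG.rel₁ hG.ne₁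
  have hbd₂ : ((𝓡∂ n).boundary M₂).Nonempty := bne hG.rel₂ hG.ne₂
  obtain ⟨W₁, X₁, Y₁, S₁, r₁, hr₁, h₁⟩ := pcSetup_one P hP.b1 κ₁ α β hbd₁ j0 z r
    (fun j => (s j).1) (fun a => (t a).1) hz hr hsub
    (fun j => by obtain ⟨f, f', -, h, -⟩ := hs j; exact ⟨f, h⟩)
    (fun a => by obtain ⟨f, f', -, h, -⟩ := ht a; exact ⟨f, h⟩)
    (fun y hy h0 j => ((hval y hy h0).1 j).1) (fun y hy h0 a => ((hval y hy h0).2 a).1) hp₁ hE₁
  obtain ⟨W₂, X₂, Y₂, S₂, r₂, hr₂, h₂⟩ := pcSetup_one Q hP.b2 κ₂ α β hbd₂ j0 z r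
    (fun j => (s j).2) (fun a => (t a).2) hz hr hsub
    (fun j => by obtain ⟨f, f', -, -, h⟩ := hs j; exact ⟨f', h⟩)
    (fun a => by obtain ⟨f, f', -, -, h⟩ := ht a; exact ⟨f', h⟩)
    (fun y hy h0 j => ((hval y hy h0).1 j).2) (fun y hy h0 a => ((hval y hy h0).2 a).2) hp₂ hE₂
  refine ⟨j0, z, min r₁ r₂, s, t, W₁, W₂, X₁, Y₁, X₂, Y₂, S₁, S₂, lt_min hr₁ hr₂, hs, ht, ?_⟩
  intro ρ hρ hle
  obtain ⟨D₁, hD₁⟩ := h₁ ρ hρ (hle.trans (min_le_left _ _))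
  obtain ⟨D₂, hD₂⟩ := h₂ ρ hρ (hle.trans (min_le_right _ _))
  exact ⟨D₁, D₂, hD₁, hD₂⟩

end Two

end Vale.Agent.P088.TM
end
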