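import Vale.Agent.P088.TM.Data

/-!
# P088: two manifolds, adapted coordinates at the patches
-/

open Bundle Manifold MeasureTheory Set Filter Topology
open scoped ContDiff

noncomputable section

namespace Vale.Agent.P088.TM

open Vale.Agent.P088.EYM

universe u

set_option linter.all false

variable {n N : ℕ} [NeZero n]

/-- boundary data with prescribed values near a point of `Γ` and small support -/
theorem data2 {M : Type u} [TopologicalSpace M] [ChartedSpace (EuclideanHalfSpace n) M]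
    [IsManifold (𝓡∂ n) ∞ M] [T2Space M] (hExt : CExt_statement.{u}) {O Γ : Set M}
    (hΓ : Γ = O ∩ (𝓡∂ n).boundary M) {q : M} {D : Set (E n)} (hD : RelOpen D) (hDt : D ⊆ tg n q)
    (hDO : ∀ y ∈ D, (xc n q).symm y ∈ O) {z : E n} {ρ : ℝ} (hρ : 0 < ρ)
    (hz : Metric.closedBall z ρ ∩ Hs n ⊆ D) {c : E n → Fib N} (hc : ContDiff ℝ ∞ c) :
    ∃ f : M → Fib N, IsBdryData (𝓡∂ n) Γ f ∧
      (∀ y ∈ HB z (ρ / 2), f ((xc n q).symm y) = c y) ∧
      (∀ y ∈ D, y ∉ Metric.closedBall z ρ → f ((xc n q).symm y) = 0) ∧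
      ∀ x, f x ≠ 0 → ∃ y ∈ Metric.closedBall z ρ ∩ Hs n, x = (xc n q).symm y := by
  set χ : ContDiffBump z := ⟨ρ / 2, ρ, by positivity, by linarith only [hρ]⟩ with hχ
  have hs : ContDiff ℝ ∞ (fun y => χ y • c y) := χ.contDiff.smul hc
  set K : Set (E n) := Metric.closedBall z ρ ∩ Hs n with hK
  have hKc : IsCompact K := (isCompact_closedBall z ρ).inter_right isClosed_Hs
  have h0 : ∀ y ∈ D, y ∉ K → χ y • c y = 0 := by
    intro y hy hyK
    have h1 : y ∉ Metric.closedBall z ρ := fun h => hyK ⟨h, hD.subset hy⟩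
    have h2 : χ y = 0 := by
      refine χ.zero_of_le_dist ?_
      rw [Metric.mem_closedBall, not_le] at h1
      exact h1.le
    rw [h2, zero_smul]
  obtain ⟨f, hf, hfD, hf0, hfs⟩ := hExt n N M q (fun y => χ y • c y) D K hD hDt hs.contDiffOn hKc
    hz h0
  refine ⟨f, ⟨hf, ?_⟩, ?_, ?_, ?_⟩
  · have hcl : IsClosed ((𝓡∂ n).boundary M) :=
      ModelWithCorners.isClosed_boundary (n := ∞) (I := 𝓡∂ n) (M := M) (by simp)
    intro x hx
    have h1 : x ∈ (𝓡∂ n).boundary M := by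
      have : closure {x ∈ (𝓡∂ n).boundary M | f x ≠ 0} ⊆ closure ((𝓡∂ n).boundary M) :=
        closure_mono fun y hy => hy.1
      rw [hcl.closure_eq] at this
      exact this hx
    have h2 : x ∈ tsupport f := by
      have : closure {x ∈ (𝓡∂ n).boundary M | f x ≠ 0} ⊆ closure (Function.support f) :=
        closure_mono fun y hy => hy.2
      exact this hx
    obtain ⟨y, hy, rfl⟩ := hfs h2
    rw [hΓ]
    exact ⟨hDO y (hz hy), h1⟩
  · intro y hy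
    have hyK : y ∈ K := ⟨Metric.mem_closedBall.2 ((Metric.mem_ball.1 hy.1).le.trans (by linarith only [hρ])),
      hy.2⟩
    rw [hfD y (hz hyK)]
    have h1 : χ y = 1 := χ.one_of_mem_closedBall (Metric.ball_subset_closedBall hy.1)
    show χ y • c y = c y
    rw [h1, one_smul]
  · intro y hy hyK
    rw [hfD y hy]
    exact h0 y hy fun h => hyK h.1
  · intro x hx
    by_contra hcon
    refine hx (hf0 x ?_)
    rintro ⟨y, hy, rfl⟩
    exact hcon ⟨y, hy, rfl⟩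

theorem coordC (j0 : Fin N) (i : Fin n) : ContDiff ℝ ∞
    (fun y : E n => (EuclideanSpace.single j0 ((y i : ℝ) : ℂ) : Fib N)) := by
  have h1 : ContDiff ℝ ∞ (fun y : E n => ((y i : ℝ) : ℂ)) :=
    Complex.ofRealCLM.contDiff.comp (EuclideanSpace.proj (𝕜 := ℝ) i).contDiff
  have h2 : (fun y : E n => (EuclideanSpace.single j0 ((y i : ℝ) : ℂ) : Fib N)) =
      fun y : E n => ((y i : ℝ) : ℂ) • (EuclideanSpace.single j0 (1 : ℂ) : Fib N) := by
    funext y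
    ext k
    by_cases hk : k = j0
    · subst hk; simp
    · simp only [ne_eq, hk, not_false_eq_true, PiLp.single_eq_of_ne, Complex.coe_smul,
        PiLp.smul_apply, smul_zero]
  rw [h2]
  exact h1.smul contDiff_const

/-- a half ball in the chart around a point of the target, in the patch and in an open set -/
theorem halfball {M : Type u} [TopologicalSpace M] [ChartedSpace (EuclideanHalfSpace n) M]
    [IsManifold (𝓡∂ n) ∞ M] {q : M} (hRO : RelOpen (tg n q)) {z : E n} (hz : z ∈ tg n q)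
    {O : Set M} (hO : O ∈ 𝓝 ((xc n q).symm z)) :
    ∃ R > 0, HB z R ⊆ tg n q ∧ ∀ y ∈ HB z R, (xc n q).symm y ∈ O := by
  have h1 : tg n q ∩ (xc n q).symm ⁻¹' O ∈ 𝓝[tg n q] z := by
    refine inter_mem self_mem_nhdsWithin ?_
    have hcont : ContinuousWithinAt (xc n q).symm (tg n q) z :=
      continuousOn_extChartAt_symm q z hz
    exact hcont hO
  rw [hRO.nhdsWithin hz, Metric.mem_nhdsWithin_iff] at h1
  obtain ⟨R, hR, h2⟩ := h1
  exact ⟨R, hR, fun y hy => (h2 hy).1, fun y hy => (h2 hy).2⟩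

variable {M₁ M₂ : Type u}
  [TopologicalSpace M₁] [ChartedSpace (EuclideanHalfSpace n) M₁] [IsManifold (𝓡∂ n) ∞ M₁]
  [T2Space M₁] [MeasurableSpace M₁]
  [TopologicalSpace M₂] [ChartedSpace (EuclideanHalfSpace n) M₂] [IsManifold (𝓡∂ n) ∞ M₂]
  [T2Space M₂] [MeasurableSpace M₂]

/-- `ψ` in charts extends to a smooth map of half balls which preserves the coordinate `0`. -/
theorem bmap (hExt : CExt_statement.{u}) (hLoc : CLoc_statement.{u}) (hN : 0 < N)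
    {G : Gl M₁ M₂} (hG : G.Ok n N) {q₁ : M₁} {q₂ : M₂} {z₁ z₂ : E n} (hz₁ : z₁ ∈ tg n q₁)
    (hz₂ : z₂ ∈ tg n q₂) (hp₁ : (xc n q₁).symm z₁ ∈ G.Γ₁) (hp₂ : (xc n q₂).symm z₂ ∈ G.Γ₂)
    (hp : G.ψ ((xc n q₂).symm z₂) = (xc n q₁).symm z₁) :
    ∃ R > 0, HB z₂ R ⊆ tg n q₂ ∧ ∃ b : E n → E n, ContDiffOn ℝ ∞ b (HB z₂ R) ∧
      (∀ y, b y 0 = y 0) ∧ b z₂ = z₁ ∧
      ∀ y ∈ HB z₂ R, y 0 = 0 → (xc n q₂).symm y ∈ G.Γ₂ ∧ b y ∈ tg n q₁ ∧
        (xc n q₁).symm (b y) = G.ψ ((xc n q₂).symm y) := by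
  obtain ⟨hRO₁, -, hbd₁, hsm₁⟩ := hLoc n N M₁
  obtain ⟨hRO₂, -, hbd₂, hsm₂⟩ := hLoc n N M₂
  obtain ⟨O₁, hO₁, hΓO₁⟩ := id hG.rel₁
  obtain ⟨O₂, hO₂, hΓO₂⟩ := id hG.rel₂
  have hp₁O : (xc n q₁).symm z₁ ∈ O₁ := by rw [hΓO₁] at hp₁; exact hp₁.1
  have hp₂O : (xc n q₂).symm z₂ ∈ O₂ := by rw [hΓO₂] at hp₂; exact hp₂.1
  have hp₁b : (xc n q₁).symm z₁ ∈ (𝓡∂ n).boundary M₁ := sub_bd hG.rel₁ hp₁
  have hp₂b : (xc n q₂).symm z₂ ∈ (𝓡∂ n).boundary M₂ := sub_bd hG.rel₂ hp₂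
  have hz₁0 : z₁ 0 = 0 := by
    have := (hbd₁ q₁ _ ((xc n q₁).map_target hz₁)).1 hp₁b
    rwa [(xc n q₁).right_inv hz₁] at this
  have hz₂0 : z₂ 0 = 0 := by
    have := (hbd₂ q₂ _ ((xc n q₂).map_target hz₂)).1 hp₂b
    rwa [(xc n q₂).right_inv hz₂] at this
  -- a half ball on the first manifold
  obtain ⟨R₁, hR₁, hR₁t, hR₁O⟩ := halfball (hRO₁ q₁) hz₁ (hO₁.mem_nhds hp₁O)
  set ρ : ℝ := R₁ / 8 with hρdef
  have hρ : 0 < ρ := by rw [hρdef]; positivity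
  have hro₁ : RelOpen (HB z₁ R₁) := cStart_relOpen_HB z₁ R₁
  have hcb : ∀ t, t < R₁ → Metric.closedBall z₁ t ∩ Hs n ⊆ HB z₁ R₁ := fun t ht y hy =>
    ⟨Metric.mem_ball.2 ((Metric.mem_closedBall.1 hy.1).trans_lt ht), hy.2⟩
  have j₀ : Fin N := ⟨0, hN⟩
  obtain ⟨f, hf, hf1, -, hfs⟩ := data2 hExt hΓO₁ hro₁ hR₁t hR₁O hρ
    (hcb ρ (by rw [hρdef]; linarith))
    (c := fun _ => (EuclideanSpace.single j₀ (1 : ℂ) : Fib N)) contDiff_const
  have hex : ∀ a : Fin n, ∃ f : M₁ → Fib N, IsBdryData (𝓡∂ n) G.Γ₁ f ∧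
      ∀ y ∈ HB z₁ (2 * ρ), f ((xc n q₁).symm y) = EuclideanSpace.single j₀ ((y a : ℝ) : ℂ) := by
    intro a
    obtain ⟨f', hf', hf1', -, -⟩ := data2 (ρ := 4 * ρ) hExt hΓO₁ hro₁ hR₁t hR₁O (by positivity)
      (hcb (4 * ρ) (by rw [hρdef]; linarith)) (coordC j₀ a)
    refine ⟨f', hf', fun y hy => hf1' y ?_⟩
    have : 4 * ρ / 2 = 2 * ρ := by ring
    rw [this]
    exact hy
  choose F hF hF1 using hex
  obtain ⟨f', hf', hff'⟩ := hG.ext f hf
  choose F' hF' hFF' using fun a => hG.ext (F a) (hF a)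
  -- the half ball on the second manifold
  have hfp : f' ((xc n q₂).symm z₂) ≠ 0 := by
    rw [hff' _ hp₂, hp, hf1 z₁ ⟨Metric.mem_ball_self (by positivity), by
      show 0 ≤ z₁ 0; rw [hz₁0]⟩]
    intro h2
    have h3 := congrArg (fun v : Fib N => v j₀) h2
    simp at h3
  have hUn : {x | f' x ≠ 0} ∩ O₂ ∈ 𝓝 ((xc n q₂).symm z₂) := by
    have hc : Continuous f' := hf'.smooth.continuous
    exact inter_mem ((isOpen_ne_fun hc continuous_const).mem_nhds hfp) (hO₂.mem_nhds hp₂O)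
  obtain ⟨R, hR, hRt, hRU⟩ := halfball (hRO₂ q₂) hz₂ hUn
  set b : E n → E n := fun y => WithLp.toLp 2 fun a =>
    if a = 0 then y 0 else (F' a ((xc n q₂).symm y) j₀).re with hb
  have hb0 : ∀ y, b y 0 = y 0 := fun y => by
    rw [hb]
    simp only [if_true]
  have hba : ∀ y a, a ≠ 0 → b y a = (F' a ((xc n q₂).symm y) j₀).re := fun y a ha => by
    rw [hb]
    simp only [if_neg ha]
  have hkey : ∀ y ∈ HB z₂ R, y 0 = 0 → (xc n q₂).symm y ∈ G.Γ₂ ∧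
      b y ∈ tg n q₁ ∧ (xc n q₁).symm (b y) = G.ψ ((xc n q₂).symm y) := by
    intro y hy hy0
    have hx : (xc n q₂).symm y ∈ G.Γ₂ := by
      rw [hΓO₂]
      refine ⟨(hRU y hy).2, ?_⟩
      rw [hbd₂ q₂ _ ((xc n q₂).map_target (hRt hy)), (xc n q₂).right_inv (hRt hy)]
      exact hy0
    have hne : f (G.ψ ((xc n q₂).symm y)) ≠ 0 := by
      rw [← hff' _ hx]
      exact (hRU y hy).1
    obtain ⟨y', hy', hxy'⟩ := hfs _ hne
    have hy't : y' ∈ tg n q₁ := hR₁t (hcb ρ (by rw [hρdef]; linarith) hy')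
    have hy'0 : y' 0 = 0 := by
      have h1 : (xc n q₁).symm y' ∈ (𝓡∂ n).boundary M₁ := by
        rw [← hxy']
        exact sub_bd hG.rel₁ (hG.maps hx)
      have h2 := (hbd₁ q₁ _ ((xc n q₁).map_target hy't)).1 h1
      rwa [(xc n q₁).right_inv hy't] at h2
    have hbe : b y = y' := by
      ext a
      by_cases ha : a = 0
      · subst ha
        rw [hb0, hy0, hy'0]
      · rw [hba y a ha, hFF' a _ hx, hxy', hF1 a y' ⟨?_, hy'.2⟩]
        · simp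
        · exact Metric.mem_ball.2 ((Metric.mem_closedBall.1 hy'.1).trans_lt (by linarith))
    rw [hbe]
    exact ⟨hx, hy't, hxy'.symm⟩
  refine ⟨R, hR, hRt, b, ?_, hb0, ?_, hkey⟩
  · rw [contDiffOn_euclidean]
    intro a
    by_cases ha : a = 0
    · have h1 : (fun y => (b y) a) = fun y : E n => y 0 := by
        funext y
        rw [ha, hb0]
      rw [h1]
      exact (EuclideanSpace.proj (𝕜 := ℝ) (0 : Fin n)).contDiff.contDiffOn
    · have h1 : (fun y => (b y) a) = fun y : E n => (lu (𝓡∂ n) q₂ (F' a) y j₀).re := by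
        funext y
        rw [hba y a ha]
        rfl
      rw [h1]
      have h2 : ContDiffOn ℝ ∞ (lu (𝓡∂ n) q₂ (F' a)) (HB z₂ R) :=
        (hsm₂ _ (hF' a).smooth q₂).mono hRt
      have h3 : ContDiff ℝ ∞ (fun v : Fib N => (v j₀).re) :=
        (Complex.reCLM.comp
          ((EuclideanSpace.proj (𝕜 := ℂ) j₀ : Fib N →L[ℂ] ℂ).restrictScalars ℝ)).contDiff
      exact h3.comp_contDiffOn h2
  · have hzm : z₂ ∈ HB z₂ R := ⟨Metric.mem_ball_self hR, by show 0 ≤ z₂ 0; rw [hz₂0]⟩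
    obtain ⟨-, h2, h3⟩ := hkey z₂ hzm hz₂0
    rw [hp] at h3
    have h4 := congrArg (xc n q₁) h3
    rwa [(xc n q₁).right_inv h2, (xc n q₁).right_inv hz₁] at h4

/-- Adapted coordinates on the second manifold. -/
theorem theta (hExt : CExt_statement.{u}) (hLoc : CLoc_statement.{u}) (hN : 0 < N)
    {G : Gl M₁ M₂} (hG : G.Ok n N) {q₁ : M₁} {z : E n} (hz : z ∈ tg n q₁) (hp : (xc n q₁).symm z ∈ G.Γ₁) :
    ∃ (q₂ : M₂) (θ τ : E n → E n) (r₀ : ℝ), 0 < r₀ ∧ z 0 = 0 ∧ ∀ r, 0 < r → r ≤ r₀ →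
      HB z r ⊆ tg n q₁ ∧ ∃ D : Set (E n), RelOpen D ∧ D ⊆ tg n q₂ ∧ IsDiffeo D (HB z r) θ τ ∧
      (∀ y, θ y 0 = y 0) ∧ ∀ y ∈ HB z r, y 0 = 0 → τ y 0 = 0 ∧
        (xc n q₂).symm (τ y) = G.χ ((xc n q₁).symm y) ∧ (xc n q₁).symm y ∈ G.Γ₁ ∧
        G.χ ((xc n q₁).symm y) ∈ G.Γ₂ := by
  obtain ⟨hRO₁, -, hbd₁, hsm₁⟩ := hLoc n N M₁
  obtain ⟨hRO₂, -, hbd₂, hsm₂⟩ := hLoc n N M₂
  set q₂ : M₂ := G.χ ((xc n q₁).symm z) with hq₂
  set z₂ : E n := xc n q₂ q₂ with hz₂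
  have hz₂t : z₂ ∈ tg n q₂ := mem_extChartAt_target q₂
  have hs₂ : (xc n q₂).symm z₂ = q₂ := extChartAt_to_inv q₂
  have hq₂Γ : q₂ ∈ G.Γ₂ := hG.maps' hp
  have hψ : G.ψ q₂ = (xc n q₁).symm z := hG.inv' _ hp
  have hz0 : z 0 = 0 := by
    have := (hbd₁ q₁ _ ((xc n q₁).map_target hz)).1 (sub_bd hG.rel₁ hp)
    rwa [(xc n q₁).right_inv hz] at this
  have hz₂0 : z₂ 0 = 0 := (hbd₂ q₂ q₂ (mem_extChartAt_source q₂)).1 (sub_bd hG.rel₂ hq₂Γ)
  obtain ⟨R, hR, hRt, b, hbs, hb0, hbz, hb⟩ := bmap hExt hLoc hN hG hz hz₂t hp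
    (by rw [hs₂]; exact hq₂Γ) (by rw [hs₂]; exact hψ)
  obtain ⟨R', hR', hRt', b', hbs', hb0', hbz', hb'⟩ := bmap (G := G.symm) hExt hLoc hN hG.symm hz₂t hz
    (by rw [hs₂]; exact hq₂Γ) hp (by rw [hs₂]; rfl)
  have hzm : z ∈ HB z R' := ⟨Metric.mem_ball_self hR', by show 0 ≤ z 0; rw [hz0]⟩
  have hz₂m : z₂ ∈ HB z₂ R := ⟨Metric.mem_ball_self hR, by show 0 ≤ z₂ 0; rw [hz₂0]⟩
  have hroR : RelOpen (HB z₂ R) := cStart_relOpen_HB z₂ R
  have hroR' : RelOpen (HB z R') := cStart_relOpen_HB z R'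
  -- a smaller half ball mapped into the domain of `b`
  obtain ⟨r', hr', hr'R, hmap⟩ : ∃ r' > 0, r' ≤ R' ∧ MapsTo b' (HB z r') (HB z₂ R) := by
    have hc : ContinuousWithinAt b' (HB z R') z := hbs'.continuousOn z hzm
    have h1 : ∀ᶠ y in 𝓝[HB z R'] z, b' y ∈ Metric.ball z₂ R := by
      refine hc.eventually ?_
      rw [hbz']
      exact Metric.ball_mem_nhds z₂ hR
    obtain ⟨δ, hδ, hδ'⟩ := Metric.mem_nhdsWithin_iff.1 h1
    refine ⟨min δ R', lt_min hδ hR', min_le_right _ _, fun y hy => ⟨hδ' ⟨?_, ?_⟩, ?_⟩⟩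
    · exact Metric.ball_subset_ball (min_le_left _ _) hy.1
    · exact ⟨Metric.ball_subset_ball (min_le_right _ _) hy.1, hy.2⟩
    · show 0 ≤ b' y 0
      rw [hb0']
      exact hy.2
  have hsubr : HB z r' ⊆ HB z R' := inter_subset_inter_left _ (Metric.ball_subset_ball hr'R)
  have hror : RelOpen (HB z r') := cStart_relOpen_HB z r'
  have hzr : z ∈ HB z r' := ⟨Metric.mem_ball_self hr', hzm.2⟩
  have hbb : ∀ y ∈ HB z r', y 0 = 0 → b (b' y) = y := by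
    intro y hy hy0
    obtain ⟨h1, h2, h3⟩ := hb' y (hsubr hy) hy0
    obtain ⟨h4, h5, h6⟩ := hb (b' y) (hmap hy) (by rw [hb0', hy0])
    have h7 : (xc n q₂).symm (b' y) = G.χ ((xc n q₁).symm y) := h3
    have h8 : (xc n q₁).symm y ∈ G.Γ₁ := h1
    rw [h7, hG.inv' _ h8] at h6
    have h9 := congrArg (xc n q₁) h6
    rwa [(xc n q₁).right_inv h5, (xc n q₁).right_inv (hRt' (hsubr hy))] at h9
  have hF : ContDiffOn ℝ ∞ (fun y => b (b' y)) (HB z r') := hbs.comp (hbs'.mono hsubr) hmap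
  have hdet : (Jac b z₂).det ≠ 0 := by
    have h1 : Jac (fun y => b (b' y)) z = Jac b (b' z) * Jac b' z :=
      push_jac_comp hror hroR (hbs'.mono hsubr) hmap hbs hzr
    have h2 : (Jac (fun y => b (b' y)) z).det = Jac (fun y => b (b' y)) z 0 0 := by
      refine cSetup_det fun i j hj => ?_
      show pd j (fun y => b (b' y) i) z = _
      refine cSetup_pd_flat hr' hz0 hj (hror.hasD hzr (coord_smooth hF i) (by simp))
        fun y hy h0 => ?_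
      rw [hbb y hy h0]
    have h3 : Jac (fun y => b (b' y)) z 0 0 = 1 := by
      show pd 0 (fun y => b (b' y) 0) z = 1
      have h4 : (fun y => b (b' y) 0) = fun y : E n => y 0 := by
        funext y
        rw [hb0, hb0']
      rw [h4, dc_pd_coord (hror.subset hzr), if_pos rfl]
    rw [h3, h1, hbz', Matrix.det_mul] at h2
    intro h5
    rw [h5, zero_mul] at h2
    exact zero_ne_one h2
  obtain ⟨τ, r₀, hr₀, hτ⟩ := half_ift hroR hbs hz₂m hdet (Or.inr ⟨hz₂0, by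
    have h4 : (fun y => b y 0) = fun y : E n => y 0 := by
      funext y
      rw [hb0]
    rw [h4, dc_pd_coord (hroR.subset hz₂m), if_pos rfl]
    exact one_pos, R, hR, fun x _ h0 => by rw [hb0, h0]⟩)
  refine ⟨q₂, b, τ, min r₀ R', lt_min hr₀ hR', hz0, fun r hr hrle => ?_⟩
  have hrR' : r ≤ R' := hrle.trans (min_le_right _ _)
  obtain ⟨D, hDs, hD, hzD, hdf⟩ := hτ r hr (hrle.trans (min_le_left _ _))
  rw [hbz] at hdf
  have hsub : HB z r ⊆ HB z R' := inter_subset_inter_left _ (Metric.ball_subset_ball hrR')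
  refine ⟨hsub.trans hRt', D, hD, hDs.trans hRt, hdf, hb0, fun y hy hy0 => ?_⟩
  have h1 := hdf.mapsY hy
  have h2 : b (τ y) = y := hdf.inv2 y hy
  have h3 : τ y 0 = 0 := by rw [← hb0, h2, hy0]
  obtain ⟨h4, h5, h6⟩ := hb (τ y) (hDs h1) h3
  rw [h2] at h6
  have h7 : (xc n q₁).symm y ∈ G.Γ₁ := by
    rw [h6]
    exact hG.maps h4
  refine ⟨h3, ?_, h7, hG.maps' h7⟩
  rw [h6, hG.inv _ h4]

end Vale.Agent.P088.TM
end
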