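import Vale.Agent.P088.TM.H275BC
import Vale.Agent.P088.TM.Theta

/-!
# P088: two manifolds, common parametrisation of the patches
-/

open Bundle Manifold MeasureTheory Set Filter Topology
open scoped ContDiff

noncomputable section

namespace Vale.Agent.P088.TM

open Vale.Agent.P088 Vale.Agent.P088.EYM

universe u

set_option linter.all false

variable {n N : ℕ} [NeZero n] {M₁ M₂ : Type u}
  [TopologicalSpace M₁] [ChartedSpace (EuclideanHalfSpace n) M₁] [IsManifold (𝓡∂ n) ∞ M₁]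
  [T2Space M₁] [CompactSpace M₁] [MeasurableSpace M₁] [BorelSpace M₁]
  [TopologicalSpace M₂] [ChartedSpace (EuclideanHalfSpace n) M₂] [IsManifold (𝓡∂ n) ∞ M₂]
  [T2Space M₂] [CompactSpace M₂] [MeasurableSpace M₂] [BorelSpace M₂]

/-- Common parametrisation of the two manifolds near corresponding points of the patches. -/
theorem exists_pc (hN : 0 < N) (P : One n N M₁) (Q : One n N M₂) {G : Gl M₁ M₂}
    (hG : G.Ok n N) :
    ∃ (q₁ : M₁) (q₂ : M₂) (z : E n) (r : ℝ) (D : Set (E n)) (θ τ : E n → E n) (L₂ : LD n N),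
      z 0 = 0 ∧ 0 < r ∧ HB z r ⊆ tg n q₁ ∧ RelOpen D ∧ D ⊆ tg n q₂ ∧
      BC P (xc n q₁).symm (P.loc q₁) (HB z r) ∧
      BC Q (fun y => (xc n q₂).symm (τ y)) L₂ (HB z r) ∧
      IsPull (Q.loc q₂) L₂ D (HB z r) θ τ (fun _ => 1) ∧
      (∀ κ α β, EYMeq κ α β (Q.loc q₂) (tg n q₂) → EYMeq κ α β L₂ (HB z r)) ∧
      ∀ y ∈ HB z r, y 0 = 0 → (xc n q₁).symm y ∈ G.Γ₁ ∧
        (xc n q₂).symm (τ y) = G.χ ((xc n q₁).symm y) ∧ (xc n q₂).symm (τ y) ∈ G.Γ₂ ∧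
        G.ψ ((xc n q₂).symm (τ y)) = (xc n q₁).symm y := by
  obtain ⟨q₁, hq₁⟩ := id hG.ne₁
  have hz : xc n q₁ q₁ ∈ tg n q₁ := mem_extChartAt_target q₁
  have hs : (xc n q₁).symm (xc n q₁ q₁) = q₁ := extChartAt_to_inv q₁
  obtain ⟨q₂, θ, τ, r, hr, hz0, h⟩ := theta fExt fLoc hN hG hz (by rw [hs]; exact hq₁)
  obtain ⟨h1, D, hD, hDt, hd, hθ, hfl⟩ := h r hr le_rfl
  set z := xc n q₁ q₁ with hzdef
  have hro : RelOpen (HB z r) := cStart_relOpen_HB z r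
  have hiff : ∀ y ∈ HB z r, (τ y 0 = 0 ↔ y 0 = 0) := fun y hy => by
    rw [← hθ (τ y), hd.inv2 y hy]
  obtain ⟨L₂, hBC, hpull, heq⟩ := bc_trans (bc_chart Q q₂) hD hDt hro hd hiff
  refine ⟨q₁, q₂, z, r, D, θ, τ, L₂, hz0, hr, h1, hD, hDt, (bc_chart P q₁).mono hro h1, hBC, hpull,
    heq, fun y hy hy0 => ?_⟩
  obtain ⟨a1, a2, a3, a4⟩ := hfl y hy hy0
  refine ⟨a3, a2, ?_, ?_⟩
  · rw [a2]; exact a4
  · rw [a2]; exact hG.inv' _ a3

end Vale.Agent.P088.TM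
end
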