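import Vale.Agent.P088.TM.H275B

/-!
# P088, two manifolds: the energy relation for one pair, in the coordinates `e`
-/

set_option linter.all false

open Bundle Manifold MeasureTheory Set Filter Topology
open scoped ContDiff

noncomputable section

namespace Vale.Agent.P088.TM

open Vale.Agent.P088 Vale.Agent.P088.EYM

universe u

variable {n N : ℕ} [NeZero n] {M : Type u}
  [TopologicalSpace M] [ChartedSpace (EuclideanHalfSpace n) M] [IsManifold (𝓡∂ n) ∞ M]
  [MeasurableSpace M]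

theorem pcZ {P : One n N M} {e : E n → M} {L : LD n N} {D₀ : Set (E n)} (b : BC P e L D₀)
    {z : E n} {r₀ κ α β : ℝ} {j0 : Fin N} {W : Model n N} {D : Set (E n)} {X Y : E n → E n}
    {S : E n → EndF N} {s : Fin N → M → Fib N} {t : Fin n → M → Fib N}
    (h : BdE e L D₀ z r₀ κ α β j0 W D X Y S s t) (r : ℝ) (hr₀ : r < r₀) (c : E n → Fib N)
    (hc : TstH z r c) :
    ∃ u : M → Fib N, SmS n u ∧ tsupport u ⊆ e '' D ∧
      (∀ x ∈ D, u (e x) = S x (CRel1_ext z r c (X x))) ∧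
      ∀ y ∈ D₀, y 0 = 0 → u (e y) = CRel1_ext z r c y := by
  obtain ⟨hcs, r', hr', h0⟩ := id hc
  have hK0 : Metric.closedBall z r' ∩ Hs n ⊆ HB z r₀ := CRel1_cb_sub z (hr'.trans hr₀)
  set K : Set (E n) := Y '' (Metric.closedBall z r' ∩ Hs n) with hK
  have hKc : IsCompact K :=
    (CRel1_cb_compact z r').image_of_continuousOn (h.pull.diffeo.smY.continuousOn.mono hK0)
  have hKD : K ⊆ D := by
    rintro x ⟨y, hy, rfl⟩
    exact h.pull.diffeo.mapsY (hK0 hy)
  have hzero : ∀ x ∈ D, x ∉ K → S x (CRel1_ext z r c (X x)) = 0 := by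
    intro x hx hxK
    have hX := h.pull.diffeo.mapsX hx
    have h1 : X x ∉ Metric.closedBall z r' := by
      intro h2
      exact hxK ⟨X x, ⟨h2, hX.2⟩, h.pull.diffeo.inv1 x hx⟩
    rw [CRel1_ext_zero h0 hX.2 h1, map_zero]
  have hsm : ContDiffOn ℝ ∞ (fun x => S x (CRel1_ext z r c (X x))) D :=
    smooth_eval h.pull.smS ((CRel1_ext_smooth (r₀ := r₀) hc).comp h.pull.diffeo.smX
      h.pull.diffeo.mapsX)
  obtain ⟨u, hu1, hu2, hu3, hu4⟩ := b.ext _ D K h.rel h.sub hsm hKc hKD hzero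
  refine ⟨u, hu1, hu4.trans (image_mono hKD), hu2, ?_⟩
  intro y hy hy0
  by_cases hyD : y ∈ D
  · obtain ⟨-, hXy, -, hSy⟩ := h.bd y (h.bdD y hyD hy0) hy0
    rw [hu2 y hyD, hXy, hSy]
    rfl
  · have h1 : u (e y) = 0 := by
      refine hu3 _ ?_
      rintro ⟨y', hy', he⟩
      exact hyD (b.inj (h.sub (hKD hy')) hy he ▸ hKD hy')
    rw [h1, CRel1_ext_out c]
    intro h2
    refine hyD (h.bd y ⟨Metric.ball_subset_ball hr₀.le h2, b.rel.subset hy⟩ hy0).1

variable [T2Space M] [CompactSpace M] [ConnectedSpace M] [BorelSpace M]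

theorem pcRel1 {P : One n N M} (hbne : ((𝓡∂ n).boundary M).Nonempty) {e : E n → M} {L : LD n N}
    {D₀ : Set (E n)} (b : BC P e L D₀)
    {z : E n} {r₀ κ α β : ℝ} {j0 : Fin N} {W : Model n N} {D : Set (E n)} {X Y : E n → E n}
    {S : E n → EndF N} {s : Fin N → M → Fib N} {t : Fin n → M → Fib N}
    (h : BdE e L D₀ z r₀ κ α β j0 W D X Y S s t) (r : ℝ) (hr : 0 < r) (hr₀ : r < r₀) :
    ∃ C : ℝ, 0 ≤ C ∧
      ∃ Z : (E n → Fib N) → M → Fib N,
        (∀ c, TstH z r c → SmS n (Z c) ∧ tsupport (Z c) ⊆ e '' D ∧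
          (∀ x ∈ D, Z c (e x) = S x (CRel1_ext z r c (X x))) ∧
          ∀ y ∈ D₀, y 0 = 0 → Z c (e y) = CRel1_ext z r c y) ∧
        (∀ c, TstH z r c → ∀ v : M → Fib N, SmS n v → ∀ d : E n → Fib N,
          ContDiffOn ℝ ∞ d (HB z r₀) → (∀ x ∈ D, v (e x) = S x (d (X x))) →
          P.E (Z c) v = En W.toLD (HB z r) c d) ∧
        ∀ c d, TstH z r c → TstH z r d →
          ∀ u v : M → Fib N, P.Harm (Z c) u → P.Harm (Z d) v →
            ‖En W.toLD (HB z r) c d - P.E u v‖ ≤ C * Rem W.toLD z r c * Rem W.toLD z r d ∧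
            (P.E u u).re ≤ (En W.toLD (HB z r) c c).re := by
  obtain ⟨-, -, hU3⟩ := fUniq n N M P hbne
  obtain ⟨hF1, hF2, hF3, hF4, hF5⟩ := fForm n N M P
  have hLq : L.Ok D := CHarm_ok_mono b.ok h.sub
  have hLW : W.toLD.Ok (HB z r₀) := h.model.ok
  obtain ⟨C, hC0, hC⟩ := CRel1_bound aGreen aHardy W.toLD z r r₀ h.z0 hLW hr hr₀
  choose! Z hZ using fun (c : E n → Fib N) (hc : TstH z r c) => pcZ b h r hr₀ c hc
  -- the energy identity
  have hEid : ∀ c, TstH z r c → ∀ v : M → Fib N, SmS n v → ∀ d : E n → Fib N,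
      ContDiffOn ℝ ∞ d (HB z r₀) → (∀ x ∈ D, v (e x) = S x (d (X x))) →
      P.E (Z c) v = En W.toLD (HB z r) c d := by
    intro c hc v hv d hd hvd
    obtain ⟨hZ1, hZ2, hZ3, -⟩ := hZ c hc
    rw [b.en D h.rel h.sub (Z c) v hZ1 hv (Or.inl hZ2)]
    have e1 : EqOn (fun y => Z c (e y)) (fun x => S x (CRel1_ext z r c (X x))) D := hZ3
    have e2 : EqOn (fun y => v (e y)) (fun x => S x (d (X x))) D := hvd
    rw [CRel1_En_congr h.rel _ e1 e2,
      bEnergy n N L W.toLD D (HB z r₀) X Y S h.rel (CRel1_rel z r₀) hLq hLW h.pull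
        (CRel1_ext z r c) d ((CRel1_ext_smooth hc).of_le (by norm_cast))
        (hd.of_le (by norm_cast)), CRel1_En_ext W.toLD hr₀.le hc d]
  refine ⟨C, hC0, Z, hZ, hEid, ?_⟩
  -- linearity
  have hzeroR : ∀ w : M → Fib N, SmS n w → P.E w 0 = 0 := by
    intro w hw
    have h1 := hF2 0 w w hw hw
    rw [zero_smul, zero_mul] at h1
    exact h1
  have hsm0 : SmS n (0 : M → Fib N) := contMDiff_const
  have hsub : ∀ {a b : M → Fib N}, SmS n a → SmS n b → SmS n (a - b) := fun ha hb => ha.sub hb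
  have haddL : ∀ a b w : M → Fib N, SmS n a → SmS n b → SmS n w →
      P.E (a + b) w = P.E a w + P.E b w := by
    intro a b w ha hb hw
    have hab : SmS n (a + b) := ha.add hb
    rw [hF3 w (a + b) hw hab, hF1 w a b hw ha hb, map_add, ← hF3 w a hw ha, ← hF3 w b hw hb]
  -- the remainder
  have hR : ∀ c, TstH z r c → ∀ u : M → Fib N, P.Harm (Z c) u →
      0 ≤ (P.E (Z c - u) (Z c - u)).re ∧
      (P.E (Z c - u) (Z c - u)).re ≤ C * Rem W.toLD z r c ^ 2 := by
    intro c hc u hu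
    obtain ⟨hZ1, hZ2, hZ3, hZ4⟩ := hZ c hc
    have hus : SmS n u := hu.smooth
    have hrs : SmS n (Z c - u) := hsub hZ1 hus
    have hrb : ∀ m ∈ (𝓡∂ n).boundary M, (Z c - u) m = 0 := by
      intro m hm
      rw [Pi.sub_apply, hu.boundary m hm, sub_self]
    have hur : P.E u (Z c - u) = 0 := by
      rw [(hU3 (Z c) u (Z c - u) 0 hu hrs hsm0 (fun m hm => hrb m hm)).1, hzeroR u hus]
    have hEw : P.E (Z c) (Z c - u) = P.E (Z c - u) (Z c - u) := by
      have h1 := haddL (Z c - u) u (Z c - u) hrs hus hrs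
      rw [sub_add_cancel, hur, add_zero] at h1
      exact h1
    set w : M → Fib N := Z c - u with hw
    have hlw : ContDiffOn ℝ ∞ (fun y => w (e y)) D := (b.sm w hrs).mono h.sub
    have he : ContDiffOn ℝ ∞ (fun y => Ring.inverse (S (Y y)) (w (e (Y y))))
        (HB z r₀) :=
      smooth_eval (smooth_ringInverse (h.pull.smS.comp h.pull.diffeo.smY h.pull.diffeo.mapsY)
        fun y hy => h.pull.unit _ (h.pull.diffeo.mapsY hy))
        (hlw.comp h.pull.diffeo.smY h.pull.diffeo.mapsY)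
    set e' : E n → Fib N := fun y => Ring.inverse (S (Y y)) (w (e (Y y))) with hedef
    have hle : ∀ x ∈ D, w (e x) = S x (e' (X x)) := by
      intro x hx
      have h1 : e' (X x) = Ring.inverse (S x) (w (e x)) := by
        rw [hedef]
        simp only [h.pull.diffeo.inv1 x hx]
      have h2 : S x * Ring.inverse (S x) = 1 := Ring.mul_inverse_cancel _ (h.pull.unit x hx)
      have h3 : S x (Ring.inverse (S x) (w (e x))) =
          (S x * Ring.inverse (S x)) (w (e x)) := rfl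
      rw [h1, h3, h2]
      rfl
    have he0 : ∀ y ∈ HB z r₀, y 0 = 0 → e' y = 0 := by
      intro y hy hy0
      obtain ⟨hyD, -, hYy, -⟩ := h.bd y hy hy0
      have hyt := h.sub hyD
      have hm : e y ∈ (𝓡∂ n).boundary M := (b.bd y hyt).2 hy0
      have h1 : w (e y) = 0 := hrb _ hm
      have h2 : e' y = Ring.inverse (S (Y y)) (w (e (Y y))) := rfl
      rw [h2, hYy, h1, map_zero]
    have hE2 : P.E (Z c) w = En W.toLD (HB z r) c e' := hEid c hc w hrs e' he hle
    -- the energy of the remainder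
    have hD' : RelOpen (D ∩ X ⁻¹' Metric.ball z r) :=
      CRel1_relX h.rel h.pull.diffeo.smX.continuousOn Metric.isOpen_ball
    have hD't : D ∩ X ⁻¹' Metric.ball z r ⊆ D₀ := inter_subset_left.trans h.sub
    have hE3 : En L (D ∩ X ⁻¹' Metric.ball z r) (fun y => w (e y)) (fun y => w (e y)) =
        En W.toLD (HB z r) e' e' := by
      have e1 : EqOn (fun y => w (e y)) (fun x => S x (e' (X x))) (D ∩ X ⁻¹' Metric.ball z r) :=
        fun x hx => hle x hx.1
      have her : ContDiffOn ℝ 1 e' (HB z r) :=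
        (he.mono (CRel1_HB_mono z hr₀.le)).of_le (by norm_cast)
      rw [CRel1_En_congr hD' _ e1 e1]
      exact bEnergy n N L W.toLD _ (HB z r) X Y S hD' (CRel1_rel z r)
        (CHarm_ok_mono hLq inter_subset_left) (CHarm_ok_mono hLW (CRel1_HB_mono z hr₀.le))
        (CRel1_pull hr₀.le h.pull) e' e' her her
    obtain ⟨hpos, hle1⟩ := b.en' _ hD' hD't w hrs
    rw [hE3] at hle1 hpos
    have hb := hC c e' hc he he0 hpos
    refine ⟨hF4 w hrs, ?_⟩
    have h1 : (P.E w w).re ≤ ‖P.E w w‖ := Complex.re_le_norm _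
    rw [← hEw, hE2] at h1
    have h2 : (P.E w w).re = (En W.toLD (HB z r) c e').re := by rw [← hEw, hE2]
    linarith
  intro c d hc hd u v hu hv
  obtain ⟨hZ1, hZ2, hZ3, hZ4⟩ := hZ c hc
  obtain ⟨hZ1', hZ2', hZ3', hZ4'⟩ := hZ d hd
  have key : ∀ c d, TstH z r c → TstH z r d → ∀ u v : M → Fib N, P.Harm (Z c) u →
      P.Harm (Z d) v → En W.toLD (HB z r) c d = P.E (Z c - u) (Z d - v) + P.E u v := by
    intro c d hc hd u v hu hv
    obtain ⟨hZ1, hZ2, hZ3, hZ4⟩ := hZ c hc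
    obtain ⟨hZ1', hZ2', hZ3', hZ4'⟩ := hZ d hd
    have hus : SmS n u := hu.smooth
    have hvs : SmS n v := hv.smooth
    have hrs : SmS n (Z c - u) := hsub hZ1 hus
    have hrs' : SmS n (Z d - v) := hsub hZ1' hvs
    have h1 := hEid c hc (Z d) hZ1' (CRel1_ext z r d) (CRel1_ext_smooth hd) hZ3'
    have h2 : En W.toLD (HB z r) c (CRel1_ext z r d) = En W.toLD (HB z r) c d :=
      CRel1_En_congr (CRel1_rel z r) _ (fun _ _ => rfl) fun y hy => CRel1_ext_in d hy.1
    rw [← h2, ← h1]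
    have h3 := haddL (Z c - u) u (Z d) hrs hus hZ1'
    rw [sub_add_cancel] at h3
    have h4 := hF1 (Z c - u) (Z d - v) v hrs hrs' hvs
    rw [sub_add_cancel] at h4
    have h5 := hF1 u (Z d - v) v hus hrs' hvs
    rw [sub_add_cancel] at h5
    have h6 : P.E u (Z d - v) = 0 := by
      rw [(hU3 (Z c) u (Z d - v) 0 hu hrs' hsm0 (fun m hm => by
        rw [Pi.sub_apply, hv.boundary m hm, sub_self]; rfl)).1, hzeroR u hus]
    have h7 : P.E (Z c - u) v = 0 := by
      rw [(hU3 (Z d) v (Z c - u) 0 hv hrs hsm0 (fun m hm => by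
        rw [Pi.sub_apply, hu.boundary m hm, sub_self]; rfl)).2, hF3 v 0 hvs hsm0, hzeroR v hvs,
        map_zero]
    rw [h3, h4, h5, h6, h7]
    ring
  refine ⟨?_, ?_⟩
  · rw [key c d hc hd u v hu hv, add_sub_cancel_right]
    have hrs : SmS n (Z c - u) := hsub hZ1 hu.smooth
    have hrs' : SmS n (Z d - v) := hsub hZ1' hv.smooth
    have h1 := hF5 (Z c - u) (Z d - v) hrs hrs'
    obtain ⟨h2, h3⟩ := hR c hc u hu
    obtain ⟨h4, h5⟩ := hR d hd v hv
    have h6 : ‖P.E (Z c - u) (Z d - v)‖ ^ 2 ≤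
        (C * Rem W.toLD z r c * Rem W.toLD z r d) ^ 2 := by
      refine h1.trans ((mul_le_mul h3 h5 h4 (h2.trans h3)).trans (le_of_eq ?_))
      ring
    have h7 : 0 ≤ C * Rem W.toLD z r c * Rem W.toLD z r d :=
      mul_nonneg (mul_nonneg hC0 (Real.sqrt_nonneg _)) (Real.sqrt_nonneg _)
    have h8 := abs_le_of_sq_le_sq h6 h7
    rwa [abs_norm] at h8
  · rw [key c c hc hc u u hu hu, Complex.add_re]
    have := (hR c hc u hu).1
    linarith

end Vale.Agent.P088.TM
end
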