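import Vale.Agent.P088.TM.H275BC

/-!
# P088, two manifolds: frames and coordinates near a boundary point, in common coordinates
-/

set_option linter.all false

open Bundle Manifold MeasureTheory Set Filter Topology
open scoped ContDiff

noncomputable section

namespace Vale.Agent.P088.TM

open Vale.Agent.P088 Vale.Agent.P088.EYM

universe u

variable {n N : ℕ} [NeZero n] {M₁ M₂ : Type u}
  [TopologicalSpace M₁] [ChartedSpace (EuclideanHalfSpace n) M₁] [IsManifold (𝓡∂ n) ∞ M₁]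
  [TopologicalSpace M₂] [ChartedSpace (EuclideanHalfSpace n) M₂] [IsManifold (𝓡∂ n) ∞ M₂]
  [MeasurableSpace M₁] [MeasurableSpace M₂]

/-- Common coordinates of the two manifolds near a point of the patch. -/
structure PC (P : One n N M₁) (Q : One n N M₂) (G : Gl M₁ M₂) (e₁ : E n → M₁) (e₂ : E n → M₂)
    (L₁ L₂ : LD n N) (D₀ : Set (E n)) : Prop where
  b1 : BC P e₁ L₁ D₀
  b2 : BC Q e₂ L₂ D₀
  m1 : ∀ y ∈ D₀, y 0 = 0 → e₁ y ∈ G.Γ₁
  m2 : ∀ y ∈ D₀, y 0 = 0 → e₂ y ∈ G.Γ₂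
  eq : ∀ y ∈ D₀, y 0 = 0 → G.ψ (e₂ y) = e₁ y

variable {P : One n N M₁} {Q : One n N M₂} {G : Gl M₁ M₂} {e₁ : E n → M₁} {e₂ : E n → M₂}
  {L₁ L₂ : LD n N} {D₀ : Set (E n)}

omit [IsManifold (𝓡∂ n) ∞ M₁] [MeasurableSpace M₁] in
theorem closure_bd {w : M₁ → Fib N} [IsManifold (𝓡∂ n) ∞ M₁] :
    closure {x ∈ (𝓡∂ n).boundary M₁ | w x ≠ 0} ⊆ (𝓡∂ n).boundary M₁ ∩ tsupport w := by
  have hcl : IsClosed ((𝓡∂ n).boundary M₁) :=
    ModelWithCorners.isClosed_boundary (n := ∞) (I := 𝓡∂ n) (M := M₁) (by simp)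
  intro x hx
  constructor
  · have : closure {x ∈ (𝓡∂ n).boundary M₁ | w x ≠ 0} ⊆ closure ((𝓡∂ n).boundary M₁) :=
      closure_mono fun y hy => hy.1
    rw [hcl.closure_eq] at this
    exact this hx
  · have : closure {x ∈ (𝓡∂ n).boundary M₁ | w x ≠ 0} ⊆ closure (Function.support w) :=
      closure_mono fun y hy => hy.2
    exact this hx

/-- functions supported in the chart whose flat values agree are matched -/
theorem PC.md (h : PC P Q G e₁ e₂ L₁ L₂ D₀) (hG : G.Ok n N) {w : M₁ → Fib N} {w' : M₂ → Fib N}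
    (hw : SmS n w) (hw' : SmS n w') (hs : tsupport w ⊆ e₁ '' D₀) (hs' : tsupport w' ⊆ e₂ '' D₀)
    (heq : ∀ y ∈ D₀, y 0 = 0 → w' (e₂ y) = w (e₁ y)) : MD n G w w' where
  h₁ := ⟨hw, fun x hx => by
    obtain ⟨h1, h2⟩ := closure_bd hx
    obtain ⟨y, hy, rfl⟩ := hs h2
    exact h.m1 y hy ((h.b1.bd y hy).1 h1)⟩
  h₂ := ⟨hw', fun x hx => by
    obtain ⟨h1, h2⟩ := closure_bd hx
    obtain ⟨y, hy, rfl⟩ := hs' h2
    exact h.m2 y hy ((h.b2.bd y hy).1 h1)⟩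
  eq := fun x hx => by
    by_cases hxe : x ∈ e₂ '' D₀
    · obtain ⟨y, hy, rfl⟩ := hxe
      have h0 : y 0 = 0 := (h.b2.bd y hy).1 (sub_bd hG.rel₂ hx)
      rw [heq y hy h0, h.eq y hy h0]
    · have h1 : w' x = 0 := image_eq_zero_of_notMem_tsupport fun h2 => hxe (hs' h2)
      have h2 : w (G.ψ x) = 0 := by
        refine image_eq_zero_of_notMem_tsupport fun h3 => ?_
        obtain ⟨y, hy, hyx⟩ := hs h3
        have h4 : G.ψ x ∈ (𝓡∂ n).boundary M₁ := sub_bd hG.rel₁ (hG.maps hx)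
        rw [← hyx] at h4
        have h0 : y 0 = 0 := (h.b1.bd y hy).1 h4
        refine hxe ⟨y, hy, ?_⟩
        rw [← hG.inv x hx, ← hyx, ← h.eq y hy h0, hG.inv _ (h.m2 y hy h0)]
      rw [h1, h2]

/-- matched functions with the same expression in the coordinates -/
theorem PC.lift (h : PC P Q G e₁ e₂ L₁ L₂ D₀) (hG : G.Ok n N) {c : E n → Fib N}
    {D K : Set (E n)} (hD : RelOpen D) (hDs : D ⊆ D₀) (hc : ContDiffOn ℝ ∞ c D)
    (hK : IsCompact K) (hKD : K ⊆ D) (h0 : ∀ y ∈ D, y ∉ K → c y = 0) :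
    ∃ (w : M₁ → Fib N) (w' : M₂ → Fib N), MD n G w w' ∧ SmS n w ∧ SmS n w' ∧
      (∀ y ∈ D, w (e₁ y) = c y) ∧ (∀ y ∈ D, w' (e₂ y) = c y) ∧
      (∀ y ∈ D₀, y ∉ K → w (e₁ y) = 0 ∧ w' (e₂ y) = 0) ∧
      tsupport w ⊆ e₁ '' K ∧ tsupport w' ⊆ e₂ '' K := by
  obtain ⟨w, k1, k2, k3, k4⟩ := h.b1.ext c D K hD hDs hc hK hKD h0
  obtain ⟨w', l1, l2, l3, l4⟩ := h.b2.ext c D K hD hDs hc hK hKD h0
  have hz : ∀ y ∈ D₀, y ∉ K → w (e₁ y) = 0 ∧ w' (e₂ y) = 0 := by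
    intro y hy hyK
    constructor
    · refine k3 _ ?_
      rintro ⟨y', hy', he⟩
      exact hyK (h.b1.inj (hDs (hKD hy')) hy he ▸ hy')
    · refine l3 _ ?_
      rintro ⟨y', hy', he⟩
      exact hyK (h.b2.inj (hDs (hKD hy')) hy he ▸ hy')
  refine ⟨w, w', h.md hG k1 l1 (k4.trans (image_mono (hKD.trans hDs)))
    (l4.trans (image_mono (hKD.trans hDs))) (fun y hy hy0 => ?_), k1, l1, k2, l2, hz, k4, l4⟩
  by_cases hyK : y ∈ K
  · rw [k2 y (hKD hyK), l2 y (hKD hyK)]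
  · rw [(hz y hy hyK).1, (hz y hy hyK).2]

/-- matched boundary data with prescribed values near a point of the patch -/
theorem PC.data (h : PC P Q G e₁ e₂ L₁ L₂ D₀) (hG : G.Ok n N) {z : E n} {ρ : ℝ} (hρ : 0 < ρ)
    (hz : Metric.closedBall z ρ ∩ Hs n ⊆ D₀) {c : E n → Fib N} (hc : ContDiff ℝ ∞ c) :
    ∃ (f : M₁ → Fib N) (f' : M₂ → Fib N), MD n G f f' ∧
      (∀ y ∈ HB z (ρ / 2), f (e₁ y) = c y ∧ f' (e₂ y) = c y) ∧
      ∀ y ∈ D₀, y ∉ Metric.closedBall z ρ → f (e₁ y) = 0 ∧ f' (e₂ y) = 0 := by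
  set χ : ContDiffBump z := ⟨ρ / 2, ρ, by positivity, by linarith only [hρ]⟩ with hχ
  have hs : ContDiff ℝ ∞ (fun y => χ y • c y) := χ.contDiff.smul hc
  set K : Set (E n) := Metric.closedBall z ρ ∩ Hs n with hK
  have hKc : IsCompact K := (isCompact_closedBall z ρ).inter_right isClosed_Hs
  have h0 : ∀ y ∈ D₀, y ∉ K → χ y • c y = 0 := by
    intro y hy hyK
    have h1 : y ∉ Metric.closedBall z ρ := fun h' => hyK ⟨h', h.b1.rel.subset hy⟩
    have h2 : χ y = 0 := by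
      refine χ.zero_of_le_dist ?_
      rw [Metric.mem_closedBall, not_le] at h1
      exact h1.le
    rw [h2, zero_smul]
  obtain ⟨f, f', hm, -, -, k1, k2, k3, -, -⟩ := h.lift hG h.b1.rel Subset.rfl hs.contDiffOn hKc hz h0
  refine ⟨f, f', hm, ?_, fun y hy hyK => k3 y hy fun h' => hyK h'.1⟩
  intro y hy
  have hyK : y ∈ K := ⟨Metric.mem_closedBall.2 ((Metric.mem_ball.1 hy.1).le.trans (by linarith only [hρ])),
    hy.2⟩
  have h1 : χ y = 1 := χ.one_of_mem_closedBall (Metric.ball_subset_closedBall hy.1)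
  rw [k1 y (hz hyK), k2 y (hz hyK)]
  show χ y • c y = c y ∧ χ y • c y = c y
  rw [h1, one_smul]
  exact ⟨rfl, rfl⟩

variable [T2Space M₁] [CompactSpace M₁] [ConnectedSpace M₁] [BorelSpace M₁]
  [T2Space M₂] [CompactSpace M₂] [ConnectedSpace M₂] [BorelSpace M₂]

/-- consequence of the equality of the data -/
theorem PC.dataE (hG : G.Ok n N) (hS : SameD P Q G) {u : (M₁ → Fib N) × (M₂ → Fib N)}
    (hu : u ∈ PP P Q G) {w : M₁ → Fib N} {w' : M₂ → Fib N} (hw : MD n G w w') :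
    P.E w u.1 = Q.E w' u.2 :=
  (cData fUniq fForm n N M₁ M₂ P Q G hG hS).2 u hu w w' hw

theorem pcStart (hP : PC P Q G e₁ e₂ L₁ L₂ D₀) (hG : G.Ok n N) (hS : SameD P Q G) (hn : 2 ≤ n)
    (hN : 0 < N) {z₀ : E n} (hz₀t : z₀ ∈ D₀) (hz₀0 : z₀ 0 = 0) :
    ∃ (j0 : Fin N) (z : E n) (r : ℝ) (s : Fin N → (M₁ → Fib N) × (M₂ → Fib N))
      (t : Fin n → (M₁ → Fib N) × (M₂ → Fib N)), z 0 = 0 ∧ 0 < r ∧ HB z r ⊆ D₀ ∧
      (∀ j, s j ∈ PP P Q G) ∧ (∀ a, t a ∈ PP P Q G) ∧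
      (∀ y ∈ HB z r, y 0 = 0 →
        (∀ j, (s j).1 (e₁ y) = EuclideanSpace.single j 1 ∧
          (s j).2 (e₂ y) = EuclideanSpace.single j 1) ∧
        ∀ a, (t a).1 (e₁ y) = EuclideanSpace.single j0 (y a : ℂ) ∧
          (t a).2 (e₂ y) = EuclideanSpace.single j0 (y a : ℂ)) ∧
      0 < (pd 0 (fun y => (t 0).1 (e₁ y)) z j0).re ∧
      0 < (pd 0 (fun y => (t 0).2 (e₂ y)) z j0).re := by
  have b1 := hP.b1
  have b2 := hP.b2
  have hbne₁ : ((𝓡∂ n).boundary M₁).Nonempty := bne hG.rel₁ hG.ne₁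
  have hbne₂ : ((𝓡∂ n).boundary M₂).Nonempty := bne hG.rel₂ hG.ne₂
  -- a half ball in the chart
  obtain ⟨R, hR, hRt⟩ : ∃ R > 0, HB z₀ R ⊆ D₀ := by
    obtain ⟨O, hO, hOD⟩ := id b1.rel
    have h1 : z₀ ∈ O := by rw [hOD] at hz₀t; exact hz₀t.1
    obtain ⟨R, hR, h2⟩ := Metric.isOpen_iff.1 hO z₀ h1
    refine ⟨R, hR, fun y hy => ?_⟩
    rw [hOD]
    exact ⟨h2 hy.1, hy.2⟩
  have hbdy₁ : ∀ y ∈ HB z₀ R, y 0 = 0 → e₁ y ∈ (𝓡∂ n).boundary M₁ := fun y hy hy0 =>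
    (b1.bd y (hRt hy)).2 hy0
  have hbdy₂ : ∀ y ∈ HB z₀ R, y 0 = 0 → e₂ y ∈ (𝓡∂ n).boundary M₂ := fun y hy hy0 =>
    (b2.bd y (hRt hy)).2 hy0
  have hroR : RelOpen (HB z₀ R) := cStart_relOpen_HB z₀ R
  -- the second centre
  obtain ⟨i₁, hi₁⟩ : ∃ i₁ : Fin n, i₁ ≠ 0 := by
    refine ⟨⟨1, by omega⟩, ?_⟩
    intro h
    have := congrArg Fin.val h
    simp at this
  set z₁ : E n := z₀ + (R / 2) • ev i₁ with hz₁
  have hz₁0 : z₁ 0 = 0 := by
    rw [hz₁]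
    simp [hz₀0, hi₁.symm]
  have hdist : dist z₁ z₀ = R / 2 := by
    rw [hz₁, dist_eq_norm, add_sub_cancel_left, norm_smul]
    simp [abs_of_pos hR]
  have hsub1 : HB z₁ (R / 8) ⊆ HB z₀ R := by
    intro y hy
    refine ⟨?_, hy.2⟩
    have h1 := Metric.mem_ball.1 hy.1
    have h2 := dist_triangle y z₁ z₀
    rw [Metric.mem_ball]
    linarith only [hR, hdist, h1, h2]
  have hdisj : ∀ y ∈ HB z₁ (R / 8), y ∉ Metric.closedBall z₀ (R / 8) := by
    intro y hy hy'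
    have h1 := Metric.mem_ball.1 hy.1
    have h2 := Metric.mem_closedBall.1 hy'
    have h3 := dist_triangle z₁ y z₀
    rw [dist_comm z₁ y] at h3
    linarith only [hR, hdist, h1, h2, h3]
  -- the data
  have j₀ : Fin N := ⟨0, hN⟩
  have hcb : Metric.closedBall z₀ (R / 8) ∩ Hs n ⊆ D₀ := by
    intro y hy
    exact hRt ⟨Metric.mem_ball.2 ((Metric.mem_closedBall.1 hy.1).trans_lt (by linarith only [hR])),
      hy.2⟩
  obtain ⟨f, f', hf, hf1, hf2⟩ := hP.data hG (by (clear * - hR; positivity) : 0 < R / 8) hcb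
    (c := fun _ => (EuclideanSpace.single j₀ (1 : ℂ) : Fib N)) contDiff_const
  have hfq : f (e₁ z₀) ≠ 0 := by
    have h1 := (hf1 z₀ ⟨Metric.mem_ball_self (by (clear * - hR; positivity)), by
      show 0 ≤ z₀ 0; rw [hz₀0]⟩).1
    rw [h1]
    intro h2
    have h3 := congrArg (fun v : Fib N => v j₀) h2
    simp at h3
  obtain ⟨u₁, -, u₂, -, hPu, -, hQu, -, -⟩ := hS f f f' f' hf hf
  have hzero₁ : ∀ y ∈ HB z₁ (R / 8), y 0 = 0 → u₁ (e₁ y) = 0 := by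
    intro y hy hy0
    rw [hPu.boundary _ (hbdy₁ y (hsub1 hy) hy0)]
    exact (hf2 y (hRt (hsub1 hy)) (hdisj y hy)).1
  have hzero₂ : ∀ y ∈ HB z₁ (R / 8), y 0 = 0 → u₂ (e₂ y) = 0 := by
    intro y hy hy0
    rw [hQu.boundary _ (hbdy₂ y (hsub1 hy) hy0)]
    exact (hf2 y (hRt (hsub1 hy)) (hdisj y hy)).2
  have hro1 : RelOpen (HB z₁ (R / 8)) := cStart_relOpen_HB z₁ (R / 8)
  have hsubt : HB z₁ (R / 8) ⊆ D₀ := hsub1.trans hRt
  have hsol1 : Sol L₁ D₀ (fun y => u₁ (e₁ y)) := b1.sol f u₁ hPu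
  have hsol2 : Sol L₂ D₀ (fun y => u₂ (e₂ y)) := b2.sol f' u₂ hQu
  -- a point with nonzero normal derivative
  obtain ⟨z, hz, hz0, hzne⟩ : ∃ z ∈ HB z₁ (R / 8), z 0 = 0 ∧ pd 0 (fun y => u₁ (e₁ y)) z ≠ 0 := by
    by_contra hcon
    push Not at hcon
    have h1 := fLinBd n N L₁ z₁ (R / 8) (by (clear * - hR; positivity)) hz₁0 (cStart_Ok_mono b1.ok hsubt)
      (fun y => u₁ (e₁ y)) (cStart_Sol_mono hsol1 hsubt) (fun x hx hx0 => by
        refine ⟨hzero₁ x hx hx0, ?_⟩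
        rw [cStart_flux hro1 (hsol1.1.mono hsubt) hzero₁ hx hx0, hcon x hx hx0,
          smul_zero])
    have hz₁m : z₁ ∈ HB z₁ (R / 8) :=
      ⟨Metric.mem_ball_self (by (clear * - hR; positivity)), by show 0 ≤ z₁ 0; rw [hz₁0]⟩
    have h2 := fUcp n N M₁ P f u₁ hPu _ (b1.op _ hsubt hro1) ⟨_, mem_image_of_mem _ hz₁m⟩
      (fun x hx => by
        obtain ⟨y, hy, rfl⟩ := hx
        exact h1 y hy) (e₁ z₀)
    exact hfq ((hPu.boundary _ (hbdy₁ z₀ ⟨Metric.mem_ball_self hR, by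
      show 0 ≤ z₀ 0; rw [hz₀0]⟩ hz₀0)).symm.trans h2)
  -- the component and the factor
  obtain ⟨j0, hj0⟩ : ∃ j0, (pd 0 (fun y => u₁ (e₁ y)) z) j0 ≠ 0 := by
    by_contra hcon
    push Not at hcon
    exact hzne (by ext j; simpa using hcon j)
  set a : ℂ := (starRingEnd ℂ) ((pd 0 (fun y => u₁ (e₁ y)) z) j0) with ha
  have hPa : P.Harm (a • f) (a • u₁) := by
    have := (fUniq n N M₁ P hbne₁).2.1 f f u₁ u₁ a 0 hPu hPu
    simpa using this
  have hQa : Q.Harm (a • f') (a • u₂) := by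
    have := (fUniq n N M₂ Q hbne₂).2.1 f' f' u₂ u₂ a 0 hQu hQu
    simpa only [zero_smul, add_zero] using this
  have hbda : MD n G (a • f) (a • f') := by
    have h1 : ContDiff ℝ ∞ (fun v : Fib N => a • v) :=
      ((a • ContinuousLinearMap.id ℂ (Fib N)).restrictScalars ℝ).contDiff
    refine ⟨⟨h1.contMDiff.comp hf.h₁.smooth, (closure_mono ?_).trans hf.h₁.supp⟩,
      ⟨h1.contMDiff.comp hf.h₂.smooth, (closure_mono ?_).trans hf.h₂.supp⟩, fun x hx => ?_⟩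
    · rintro x ⟨hx, hx'⟩
      refine ⟨hx, fun h0 => hx' ?_⟩
      show a • f x = 0
      rw [h0, smul_zero]
    · rintro x ⟨hx, hx'⟩
      refine ⟨hx, fun h0 => hx' ?_⟩
      show a • f' x = 0
      rw [h0, smul_zero]
    · show a • f' x = a • f (G.ψ x)
      rw [hf.eq x hx]
  have hPP : ((a • u₁, a • u₂) : (M₁ → Fib N) × (M₂ → Fib N)) ∈ PP P Q G :=
    ⟨a • f, a • f', hbda, hPa, hQa⟩
  -- the normal derivative of the first section
  have hzt : z ∈ D₀ := hsubt hz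
  have hd1 : pd 0 (fun y => (a • u₁) (e₁ y)) z = a • pd 0 (fun y => u₁ (e₁ y)) z :=
    cStart_pd_csmul b1.rel hsol1.1 hzt a 0
  have hre1 : 0 < (pd 0 (fun y => (a • u₁) (e₁ y)) z j0).re := by
    rw [hd1]
    have h1 : (a • pd 0 (fun y => u₁ (e₁ y)) z) j0 = a * (pd 0 (fun y => u₁ (e₁ y)) z) j0 := rfl
    rw [h1, ha, mul_comm, Complex.mul_conj, Complex.ofReal_re]
    exact Complex.normSq_pos.2 hj0
  -- the radius
  obtain ⟨ρ, hρ, hρ1⟩ : ∃ ρ > 0, Metric.closedBall z ρ ⊆ Metric.ball z₁ (R / 8) := by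
    obtain ⟨ρ, hρ, h1⟩ := Metric.nhds_basis_closedBall.mem_iff.1
      (Metric.isOpen_ball.mem_nhds hz.1)
    exact ⟨ρ, hρ, h1⟩
  have hρs : Metric.closedBall z ρ ∩ Hs n ⊆ HB z₁ (R / 8) := fun y hy => ⟨hρ1 hy.1, hy.2⟩
  have hρR : Metric.closedBall z ρ ∩ Hs n ⊆ D₀ := hρs.trans hsubt
  have hHB : HB z ρ ⊆ HB z₁ (R / 8) := fun y hy => hρs ⟨Metric.ball_subset_closedBall hy.1, hy.2⟩
  have hHBt : HB z ρ ⊆ D₀ := hHB.trans hsubt
  have hroρ : RelOpen (HB z ρ) := cStart_relOpen_HB z ρ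
  have hzρ : z ∈ HB z ρ := ⟨Metric.mem_ball_self hρ, hz.2⟩
  have hsa1 : Sol L₁ D₀ (fun y => (a • u₁) (e₁ y)) := b1.sol _ _ hPa
  have hsa2 : Sol L₂ D₀ (fun y => (a • u₂) (e₂ y)) := b2.sol _ _ hQa
  have hza1 : ∀ y ∈ HB z ρ, y 0 = 0 → (a • u₁) (e₁ y) = 0 := by
    intro y hy hy0
    show a • u₁ (e₁ y) = 0
    rw [hzero₁ y (hHB hy) hy0, smul_zero]
  have hza2 : ∀ y ∈ HB z ρ, y 0 = 0 → (a • u₂) (e₂ y) = 0 := by
    intro y hy hy0
    show a • u₂ (e₂ y) = 0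
    rw [hzero₂ y (hHB hy) hy0, smul_zero]
  have hre2 : 0 < (pd 0 (fun y => (a • u₂) (e₂ y)) z j0).re := by
    have hfl := aFlux n N L₁ L₂ z ρ hρ hz0 (cStart_Ok_mono b1.ok hHBt)
      (cStart_Ok_mono b2.ok hHBt) (fun y hy _ => by rw [b1.h1 y (hHBt hy), b2.h1 y (hHBt hy)]) _ _
      (cStart_Sol_mono hsa1 hHBt) (cStart_Sol_mono hsa2 hHBt) (fun c hc => by
        obtain ⟨hc1, hc2, hc3⟩ := hc
        have hK : IsCompact (tsupport c ∩ Hs n) := IsCompact.inter_right hc2 isClosed_Hs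
        obtain ⟨w, w', hww, hw, hw', hwD, hwD', -, hws, hws'⟩ := hP.lift hG hroρ hHBt
          hc1.contDiffOn hK (fun y hy => ⟨hc3 hy.1, hy.2⟩) (fun y hy hyK => by
            by_contra hne'
            exact hyK ⟨subset_tsupport _ hne', hy.2⟩)
        have hwsD : tsupport w ⊆ e₁ '' (HB z ρ) :=
          hws.trans (image_mono fun y hy => ⟨hc3 hy.1, hy.2⟩)
        have hwsD' : tsupport w' ⊆ e₂ '' (HB z ρ) :=
          hws'.trans (image_mono fun y hy => ⟨hc3 hy.1, hy.2⟩)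
        have e1 := PC.dataE hG hS hPP hww
        have e2 := b1.en (HB z ρ) hroρ hHBt w (a • u₁) hw hPa.smooth (Or.inl hwsD)
        have e3 := b2.en (HB z ρ) hroρ hHBt w' (a • u₂) hw' hQa.smooth (Or.inl hwsD')
        have e4 : En L₁ (HB z ρ) c (fun y => (a • u₁) (e₁ y)) =
            En L₁ (HB z ρ) (fun y => w (e₁ y)) (fun y => (a • u₁) (e₁ y)) :=
          cStart_En_congr hroρ fun y hy => (hwD y hy).symm
        have e5 : En L₂ (HB z ρ) c (fun y => (a • u₂) (e₂ y)) =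
            En L₂ (HB z ρ) (fun y => w' (e₂ y)) (fun y => (a • u₂) (e₂ y)) :=
          cStart_En_congr hroρ fun y hy => (hwD' y hy).symm
        rw [e4, e5, ← e2, ← e3]
        exact e1) z hzρ hz0
    rw [cStart_flux hroρ (hsa1.1.mono hHBt) hza1 hzρ hz0,
      cStart_flux hroρ (hsa2.1.mono hHBt) hza2 hzρ hz0] at hfl
    have hg1 : 0 < gg L₁.g 0 0 z := cStart_gg_pos (b1.ok.g_pos z hzt)
    have hg2 : 0 < gg L₂.g 0 0 z := cStart_gg_pos (b2.ok.g_pos z hzt)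
    have h5 := congrArg (fun v : Fib N => (v j0).re) hfl
    have h6 : ∀ (b : ℝ) (v : Fib N), ((b • v) j0).re = b * (v j0).re := by
      intro b v
      show (b • v j0).re = _
      rw [Complex.real_smul, Complex.re_ofReal_mul]
    simp only [h6] at h5
    have h7 : 0 < gg L₂.g 0 0 z * (pd 0 (fun y => (a • u₂) (e₂ y)) z j0).re := by
      rw [← h5]
      exact mul_pos hg1 hre1
    exact (mul_pos_iff_of_pos_left hg2).1 h7
  -- the frame
  have hex : ∀ c : E n → Fib N, ContDiff ℝ ∞ c → ∃ t ∈ PP P Q G, ∀ y ∈ HB z (ρ / 2), y 0 = 0 →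
      t.1 (e₁ y) = c y ∧ t.2 (e₂ y) = c y := by
    intro c hc
    obtain ⟨g, g', hg, hg1, -⟩ := hP.data hG hρ hρR hc
    obtain ⟨v₁, -, v₂, -, hv₁, -, hv₂, -, -⟩ := hS g g g' g' hg hg
    refine ⟨(v₁, v₂), ⟨g, g', hg, hv₁, hv₂⟩, fun y hy hy0 => ?_⟩
    have hyD : y ∈ D₀ := hρR ⟨Metric.mem_closedBall.2
      ((Metric.mem_ball.1 hy.1).le.trans (by linarith only [hρ])), hy.2⟩
    exact ⟨(hv₁.boundary _ ((b1.bd y hyD).2 hy0)).trans (hg1 y hy).1,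
      (hv₂.boundary _ ((b2.bd y hyD).2 hy0)).trans (hg1 y hy).2⟩
  choose s hs1 hs2 using fun j : Fin N =>
    hex (fun _ => (EuclideanSpace.single j (1 : ℂ) : Fib N)) contDiff_const
  have hcoord : ∀ i : Fin n, ContDiff ℝ ∞
      (fun y : E n => (EuclideanSpace.single j0 ((y i : ℝ) : ℂ) : Fib N)) := by
    intro i
    have h1 : ContDiff ℝ ∞ (fun y : E n => ((y i : ℝ) : ℂ)) :=
      Complex.ofRealCLM.contDiff.comp (EuclideanSpace.proj (𝕜 := ℝ) i).contDiff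
    have h2 : (fun y : E n => (EuclideanSpace.single j0 ((y i : ℝ) : ℂ) : Fib N)) =
        fun y : E n => ((y i : ℝ) : ℂ) • (EuclideanSpace.single j0 (1 : ℂ) : Fib N) := by
      funext y
      ext k
      by_cases hk : k = j0
      · subst hk; simp
      · simp only [ne_eq, hk, not_false_eq_true, PiLp.single_eq_of_ne, Complex.coe_smul, PiLp.smul_apply, smul_zero]
    rw [h2]
    exact h1.smul contDiff_const
  choose t' ht1 ht2 using fun i : Fin n => hex _ (hcoord i)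
  classical
  refine ⟨j0, z, ρ / 2, s, fun i => if i = 0 then (a • u₁, a • u₂) else t' i, hz0,
    by (clear * - hρ; positivity), ?_, hs1, ?_, ?_, ?_, ?_⟩
  · intro y hy
    exact hHBt ⟨Metric.ball_subset_ball (by linarith only [hρ]) hy.1, hy.2⟩
  · intro i
    by_cases hi : i = 0
    · simp only [hi, if_true]
      exact hPP
    · simp only [hi, if_false]
      exact ht1 i
  · intro y hy hy0
    refine ⟨fun j => hs2 j y hy hy0, fun i => ?_⟩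
    by_cases hi : i = 0
    · have hyρ : y ∈ HB z ρ := ⟨Metric.ball_subset_ball (by linarith only [hρ]) hy.1, hy.2⟩
      have h1 : (EuclideanSpace.single j0 ((y 0 : ℝ) : ℂ) : Fib N) = 0 := by
        rw [hy0]
        simp
      simp only [hi, if_true]
      rw [h1]
      exact ⟨hza1 y hyρ hy0, hza2 y hyρ hy0⟩
    · simp only [hi, if_false]
      exact ht2 i y hy hy0
  · simp only [if_true]
    exact hre1
  · simp only [if_true]
    exact hre2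

end Vale.Agent.P088.TM
end
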