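import Vale.Agent.P088.TM.H332W

/-!
# P088, two manifolds: good points are closed, and fill a connected open set
-/

open Bundle Manifold MeasureTheory Set Filter Topology
open scoped ContDiff

noncomputable section

set_option linter.all false

namespace Vale.Agent.P088.TM

open Vale.Agent.P088.EYM hiding CUnm_statement LMatch CCont_statement CReg_statement CDiff_statement cCont cReg cDiff cDiff_ext PP SameD Gd CData_statement CMatch_statement CNear_statement CLim_statement CCoord_statement CModEq_statement CClosed_statement CGlobal_statement CChart_statement CTensor_statement wGlue wInj wClosed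

universe u

/-- Good points are closed in the interior of `W₀`, if `P` satisfies the equations everywhere and
`Q` satisfies them on `W₀`. -/
theorem wClosed (hLim : TM.CLim_statement.{u}) (hCoord : TM.CCoord_statement.{u})
    (hModEq : TM.CModEq_statement.{u}) (hBM : BModel_statement) (hRig : BRigInt_statement)
    (hLin : LinInt_statement) (hBSol : BSol_statement) (hMatch : TM.CMatch_statement.{u})
    (hHarm : CHarm_statement.{u}) (hU : CUniq_statement.{u}) (hLoc : CLoc_statement.{u})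
    {n N : ℕ} [NeZero n] {M₁ M₂ : Type u}
    [TopologicalSpace M₁] [ChartedSpace (EuclideanHalfSpace n) M₁]
    [IsManifold (𝓡∂ n) ∞ M₁] [T2Space M₁] [CompactSpace M₁] [ConnectedSpace M₁]
    [MeasurableSpace M₁] [BorelSpace M₁] [TopologicalSpace M₂]
    [ChartedSpace (EuclideanHalfSpace n) M₂]
    [IsManifold (𝓡∂ n) ∞ M₂] [T2Space M₂] [CompactSpace M₂] [ConnectedSpace M₂]
    [MeasurableSpace M₂] [BorelSpace M₂]
    (P : One n N M₁) (Q : One n N M₂) (G : Gl M₁ M₂) (κ α β : ℝ) (hn : 3 ≤ n) (hN : 0 < N)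
    (hG : G.Ok n N) (hS : SameD P Q G) {W₀ : Set M₂} (hW₀ : IsOpen W₀)
    (hP : EYMw κ α β P univ) (hQ : EYMw κ α β Q W₀) (x₀ : M₂) (hx₀ : x₀ ∈ Mi n M₂)
    (hx₀W : x₀ ∈ W₀) (hcl : x₀ ∈ closure (TM.Gd P Q G)) : x₀ ∈ TM.Gd P Q G := by
  have hb₁ := cClosed_bdry hG.rel₁ hG.ne₁
  have hb₂ := cClosed_bdry hG.rel₂ hG.ne₂
  obtain ⟨x₀', V₀, x, O, φ, V, hx₀', hV₀, hk, hx, hφ, hV, hlim⟩ :=
    hLim n N M₁ M₂ P Q G hn hN hG hS x₀ hx₀ hcl
  obtain ⟨j0, s, t, hs, ht, hu1, hu2, hd1, hd2, hpos, heq⟩ :=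
    hCoord n N M₁ M₂ P Q G x₀ x₀' V₀ x O φ V hn hN hG hS hx₀ hx₀' hV₀ hk hx hφ hV hlim
  have hpos' := hpos
  rw [heq] at hpos'
  have hs1 : ∀ j, ∃ f, P.Harm f (s j).1 := fun j => by
    obtain ⟨f, _, _, h1, _⟩ := hs j; exact ⟨f, h1⟩
  have hs2 : ∀ j, ∃ f, Q.Harm f (s j).2 := fun j => by
    obtain ⟨_, f, _, _, h1⟩ := hs j; exact ⟨f, h1⟩
  have ht1 : ∀ j, ∃ f, P.Harm f (t j).1 := fun j => by
    obtain ⟨f, _, _, h1, _⟩ := ht j; exact ⟨f, h1⟩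
  have ht2 : ∀ j, ∃ f, Q.Harm f (t j).2 := fun j => by
    obtain ⟨_, f, _, _, h1⟩ := ht j; exact ⟨f, h1⟩
  obtain ⟨Y₁, W₁, r₁, hr₁, h₁⟩ := wClosed_model hBM hHarm hU hLoc hN P isOpen_univ hP hb₁ j0 hx₀' (mem_univ _)
    (fun j => (s j).1) (fun a => (t a).1) hs1 ht1 hu1 hd1 hpos
  obtain ⟨Y₂, W₂, r₂, hr₂, h₂⟩ := wClosed_model hBM hHarm hU hLoc hN Q hW₀ hQ hb₂ j0 hx₀ hx₀W
    (fun j => (s j).2) (fun a => (t a).2) hs2 ht2 hu2 hd2 hpos'
  rw [← heq] at h₂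
  set ζ := Xco j0 (frm n x₀' fun j => (s j).1) (fun a => lu (𝓡∂ n) x₀' (t a).1)
    (xc n x₀' x₀') with hζ
  obtain ⟨r, hr, hra, hrb, hrc⟩ : ∃ r, 0 < r ∧ r ≤ r₁ ∧ r ≤ r₂ ∧ r ≤ ζ 0 :=
    ⟨min (min r₁ r₂) (ζ 0), lt_min (lt_min hr₁ hr₂) hpos,
      (min_le_left _ _).trans (min_le_left _ _), (min_le_left _ _).trans (min_le_right _ _),
      min_le_right _ _⟩
  obtain ⟨D₁, hD₁s, hD₁, hz₁, hpull₁, hmod₁, hc₁⟩ := h₁ r hr hra
  obtain ⟨D₂, hD₂s, hD₂, hz₂, hpull₂, hmod₂, hc₂⟩ := h₂ r hr hrb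
  obtain ⟨hHB, hHBpos⟩ := cClosed_HB (n := n) hrc
  have hHBo : RelOpen (HB ζ r) := cClosed_relOpen_HB ζ r
  have hHBopen : IsOpen (HB ζ r) := by rw [hHB]; exact Metric.isOpen_ball
  have hHBpre : IsPreconnected (HB ζ r) := by
    rw [hHB]; exact (convex_ball ζ r).isPreconnected
  -- a large index
  have ev1 : ∀ᶠ k in atTop, x k ∈ (xc n x₀).source ∧ xc n x₀ (x k) ∈ D₂ := by
    have e1 : ∀ᶠ k in atTop, x k ∈ (xc n x₀).source :=
      hx.eventually ((isOpen_extChartAt_source x₀).mem_nhds (mem_extChartAt_source x₀))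
    have e2 : Tendsto (fun k => xc n x₀ (x k)) atTop (𝓝 (xc n x₀ x₀)) :=
      (continuousAt_extChartAt x₀).tendsto.comp hx
    obtain ⟨O₂, hO₂, rfl⟩ := hD₂
    have e3 := e2.eventually (hO₂.mem_nhds hz₂.1)
    filter_upwards [e1, e3] with k h1 h3
    refine ⟨h1, h3, ?_⟩
    exact ((hLoc n N M₂).1 x₀).subset ((xc n x₀).map_source h1)
  have ev2 : ∀ᶠ k in atTop, φ k (x k) ∈ (xc n x₀').source ∧ xc n x₀' (φ k (x k)) ∈ D₁ := by
    have e1 : ∀ᶠ k in atTop, φ k (x k) ∈ (xc n x₀').source :=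
      hφ.eventually ((isOpen_extChartAt_source x₀').mem_nhds (mem_extChartAt_source x₀'))
    have e2 : Tendsto (fun k => xc n x₀' (φ k (x k))) atTop (𝓝 (xc n x₀' x₀')) :=
      (continuousAt_extChartAt x₀').tendsto.comp hφ
    obtain ⟨O₂, hO₂, rfl⟩ := hD₁
    have e3 := e2.eventually (hO₂.mem_nhds hz₁.1)
    filter_upwards [e1, e3] with k h1 h3
    refine ⟨h1, h3, ?_⟩
    exact ((hLoc n N M₁).1 x₀').subset ((xc n x₀').map_source h1)
  obtain ⟨k, ⟨hk1, hk2⟩, hk3, hk4⟩ := (ev1.and ev2).exists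
  obtain ⟨U, hUo, hUs, hUn, hUeq, hUu⟩ := hModEq n N M₁ M₂ P Q G j0 s t x₀' x₀ ζ r W₁ W₂ D₁ D₂ Y₁ Y₂
    hs ht hD₁ hD₂ hD₁s hD₂s hpull₁ hpull₂ hc₁ hc₂ (O k) (φ k) (V k) (hk k).1 (x k) (hk k).2
    hk1 hk2 hk3 hk4
  have hEq : EqOnM W₁ W₂ (HB ζ r) :=
    hRig n N κ α β j0 W₁ W₂ (HB ζ r) hn hHBopen hHBpos hHBpre hmod₁ hmod₂ U hUo hUs hUn hUeq
  have hL₁ : (P.loc x₀').Ok D₁ := by
    have := (hLoc n N M₁).2.1 P x₀'
    exact ⟨fun i j => (this.g_smooth i j).mono hD₁s, fun y hy => this.g_pos y (hD₁s hy),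
      fun i => (this.B_smooth i).mono hD₁s, this.h_smooth.mono hD₁s,
      fun y hy => this.h_adj y (hD₁s hy), fun y hy => this.h_pos y (hD₁s hy),
      fun y hy => this.compat y (hD₁s hy)⟩
  have hL₂ : (Q.loc x₀).Ok D₂ := by
    have := (hLoc n N M₂).2.1 Q x₀
    exact ⟨fun i j => (this.g_smooth i j).mono hD₂s, fun y hy => this.g_pos y (hD₂s hy),
      fun i => (this.B_smooth i).mono hD₂s, this.h_smooth.mono hD₂s,
      fun y hy => this.h_adj y (hD₂s hy), fun y hy => this.h_pos y (hD₂s hy),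
      fun y hy => this.compat y (hD₂s hy)⟩
  have hsec : ∀ u ∈ PP P Q G, ∀ y ∈ HB ζ r,
      Ring.inverse (frm n x₀' (fun j => (s j).1) (Y₁ y)) (lu (𝓡∂ n) x₀' u.1 (Y₁ y)) =
      Ring.inverse (frm n x₀ (fun j => (s j).2) (Y₂ y)) (lu (𝓡∂ n) x₀ u.2 (Y₂ y)) := by
    intro u hu
    obtain ⟨f, f', _, hf1, hf2⟩ := hu
    have a1 : Sol (P.loc x₀') D₁ (lu (𝓡∂ n) x₀' u.1) := by
      have := hHarm n N M₁ P f _ hf1 x₀'
      exact ⟨this.1.mono hD₁s, fun y hy => this.2 y (hD₁s hy)⟩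
    have a2 : Sol (Q.loc x₀) D₂ (lu (𝓡∂ n) x₀ u.2) := by
      have := hHarm n N M₂ Q f' _ hf2 x₀
      exact ⟨this.1.mono hD₂s, fun y hy => this.2 y (hD₂s hy)⟩
    have b1 := cClosed_tr hBSol hD₁ hHBo hL₁ hmod₁.ok hpull₁ a1
    have b2 := cClosed_tr hBSol hD₂ hHBo hL₂ hmod₂.ok hpull₂ a2
    have b3 : Sol W₁.toLD (HB ζ r)
        (fun y => Ring.inverse (frm n x₀ (fun j => (s j).2) (Y₂ y)) (lu (𝓡∂ n) x₀ u.2 (Y₂ y))) :=
      cClosed_sol_congr hHBo hEq.g hEq.B (fun _ _ => rfl) b2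
    have b4 := cClosed_sol_sub hHBo hmod₁.ok b1 b3
    have b5 := hLin n N W₁.toLD (HB ζ r) hHBopen inter_subset_right hmod₁.ok hHBpre _ b4 U hUo hUs
      hUn (fun y hy => sub_eq_zero.2 (hUu u ⟨f, f', by assumption, hf1, hf2⟩ y hy))
    intro y hy
    exact sub_eq_zero.1 (b5 y hy)
  obtain ⟨O', φ', V', hM, hO'⟩ := hMatch n N M₁ M₂ P Q G x₀' x₀ ζ r W₁.toLD W₂.toLD D₁ D₂ _ Y₁ _ Y₂ _ _
    hD₁ hD₂ hD₁s hD₂s hpull₁ hpull₂ hEq.g hEq.B hEq.h hsec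
  refine ⟨O', φ', V', hM, ?_⟩
  have := hO' (xc n x₀ x₀) hz₂ (cClosed_pos hLoc hx₀)
  rwa [extChartAt_to_inv] at this

/-- Good points are closed in the interior. -/
theorem cClosed' : TM.CLim_statement.{u} → TM.CCoord_statement.{u} → TM.CModEq_statement.{u} →
    BModel_statement → BRigInt_statement → LinInt_statement → BSol_statement →
    TM.CMatch_statement.{u} → CHarm_statement.{u} → CUniq_statement.{u} → CLoc_statement.{u} →
    TM.CClosed_statement.{u} := by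
  intro hLim hCoord hModEq hBM hRig hLin hBSol hMatch hHarm hU hLoc
  intro n N _ M₁ M₂ _ _ _ _ _ _ _ _ _ _ _ _ _ _ _ _ P Q G κ α β hn hN hG hS hP hQ x₀ hx₀ hcl
  exact wClosed hLim hCoord hModEq hBM hRig hLin hBSol hMatch hHarm hU hLoc P Q G κ α β hn hN hG
    hS isOpen_univ (EYMw_of hP univ) (EYMw_of hQ univ) x₀ hx₀ (mem_univ _) hcl

section good

variable {n N : ℕ} [NeZero n] {M₁ M₂ : Type u}
  [TopologicalSpace M₁] [ChartedSpace (EuclideanHalfSpace n) M₁]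
  [IsManifold (𝓡∂ n) ∞ M₁] [TopologicalSpace M₂] [ChartedSpace (EuclideanHalfSpace n) M₂]
  [IsManifold (𝓡∂ n) ∞ M₂] [ConnectedSpace M₂] [MeasurableSpace M₁] [MeasurableSpace M₂]
  {P : One n N M₁} {Q : One n N M₂} {G : Gl M₁ M₂} {W₀ : Set M₂}

/-- All interior points of a connected open set `W₀` on which `Q` satisfies the equations are good,
if one of them is. -/
theorem wGood (hclosed : ∀ x₀ ∈ Mi n M₂, x₀ ∈ W₀ → x₀ ∈ closure (TM.Gd P Q G) → x₀ ∈ TM.Gd P Q G)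
    (hLoc : CLoc_statement.{u}) (hConn : CConn_statement.{u}) (hW₀ : IsOpen W₀)
    (hW₀c : IsPreconnected W₀) (hne : (W₀ ∩ TM.Gd P Q G).Nonempty) :
    ∀ x ∈ W₀ ∩ Mi n M₂, x ∈ TM.Gd P Q G := by
  have hopen : IsOpen (TM.Gd P Q G) := by
    rw [isOpen_iff_mem_nhds]
    rintro x ⟨O', φ', V', hm', hx⟩
    filter_upwards [hm'.isOpen.mem_nhds hx] with y hy using ⟨O', φ', V', hm', hy⟩
  have hpre : IsPreconnected (W₀ ∩ Mi n M₂) := wConn hLoc hConn hW₀ hW₀c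
  refine hpre.subset_of_closure_inter_subset hopen ?_ ?_
  · obtain ⟨x, hxW, O, φ, V, hm, hx⟩ := hne
    exact ⟨x, ⟨hxW, hm.sub hx⟩, O, φ, V, hm, hx⟩
  · rintro x ⟨hx1, hx2⟩
    exact hclosed x hx2.2 hx2.1 hx1

end good

end Vale.Agent.P088.TM
end
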