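import Vale.Agent.P088.TM.Main

/-!
# P088, two manifolds: pointwise derivative rules
-/

open Bundle Manifold MeasureTheory Set Filter Topology
open scoped ContDiff

noncomputable section

set_option linter.all false

namespace Vale.Agent.P088.TM

open Vale.Agent.P088 Vale.Agent.P088.EYM

universe u

variable {n N : ℕ} [NeZero n] {M₁ M₂ : Type u}
  [TopologicalSpace M₁] [ChartedSpace (EuclideanHalfSpace n) M₁] [IsManifold (𝓡∂ n) ∞ M₁]
  [TopologicalSpace M₂] [ChartedSpace (EuclideanHalfSpace n) M₂] [IsManifold (𝓡∂ n) ∞ M₂]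

theorem wd_clm {F G : Type*} [NormedAddCommGroup F] [NormedSpace ℝ F] [NormedAddCommGroup G]
    [NormedSpace ℝ G] (L : F →L[ℝ] G) {u : M₂ → F} {x : M₂}
    (hu : MDifferentiableAt (𝓡∂ n) 𝓘(ℝ, F) u x) (a : EuclideanSpace ℝ (Fin n)) :
    dI (𝓡∂ n) (fun x => L (u x)) x a = L (dI (𝓡∂ n) u x a) := by
  have hs : MDifferentiableAt (𝓡∂ n) 𝓘(ℝ, G) (fun x => L (u x)) x :=
    (L.differentiableAt (x := u x)).mdifferentiableAt.comp x hu
  have h1 := (L.hasFDerivAt (x := lu (𝓡∂ n) x u (extChartAt (𝓡∂ n) x x))).comp_hasFDerivWithinAt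
    (extChartAt (𝓡∂ n) x x) (hasD hu)
  have h := dI_eq_of (u := fun x => L (u x)) hs h1
  rw [h]
  rfl

theorem wd_mul {U V : M₂ → EndF N} {x : M₂} (hU : MDifferentiableAt (𝓡∂ n) 𝓘(ℝ, EndF N) U x)
    (hV : MDifferentiableAt (𝓡∂ n) 𝓘(ℝ, EndF N) V x) (a : EuclideanSpace ℝ (Fin n)) :
    dI (𝓡∂ n) (fun x => U x * V x) x a = U x * dI (𝓡∂ n) V x a + dI (𝓡∂ n) U x a * V x := by
  have hb := isBB_mul (N := N)
  have hs : MDifferentiableAt (𝓡∂ n) 𝓘(ℝ, EndF N) (fun x => U x * V x) x :=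
    (hb.differentiableAt (U x, V x)).mdifferentiableAt.comp x (hU.prodMk_space hV)
  have h1 := (hb.hasFDerivAt (lu (𝓡∂ n) x U (extChartAt (𝓡∂ n) x x),
    lu (𝓡∂ n) x V (extChartAt (𝓡∂ n) x x))).comp_hasFDerivWithinAt
    (extChartAt (𝓡∂ n) x x) ((hasD hU).prodMk (hasD hV))
  have h := dI_eq_of (u := fun x => U x * V x) hs h1
  have e1 : lu (𝓡∂ n) x U (extChartAt (𝓡∂ n) x x) = U x := lu_self x U
  have e2 : lu (𝓡∂ n) x V (extChartAt (𝓡∂ n) x x) = V x := lu_self x V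
  rw [h, e1, e2]
  rfl

theorem wd_congr {F : Type*} [NormedAddCommGroup F] [NormedSpace ℝ F] {u w : M₂ → F} {x : M₂}
    (h : u =ᶠ[𝓝 x] w) (a : EuclideanSpace ℝ (Fin n)) :
    dI (𝓡∂ n) u x a = dI (𝓡∂ n) w x a :=
  DFunLike.congr_fun h.mfderiv_eq a

theorem wd_adj {U : M₂ → EndF N} {x : M₂} (hU : MDifferentiableAt (𝓡∂ n) 𝓘(ℝ, EndF N) U x)
    (a : EuclideanSpace ℝ (Fin n)) :
    dI (𝓡∂ n) (fun x => ContinuousLinearMap.adjoint (U x)) x a =
      ContinuousLinearMap.adjoint (dI (𝓡∂ n) U x a) :=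
  wd_clm adjR hU a

theorem wdiff_adj {U : M₂ → EndF N} {x : M₂} (hU : MDifferentiableAt (𝓡∂ n) 𝓘(ℝ, EndF N) U x) :
    MDifferentiableAt (𝓡∂ n) 𝓘(ℝ, EndF N) (fun x => ContinuousLinearMap.adjoint (U x)) x :=
  ((adjR (N := N)).differentiableAt (x := U x)).mdifferentiableAt.comp x hU

theorem wd_uni {H : M₂ → EndF N} {x : M₂} (hH : MDifferentiableAt (𝓡∂ n) 𝓘(ℝ, EndF N) H x)
    (hu : ∀ᶠ y in 𝓝 x, H y ∈ unitary (EndF N)) (a : EuclideanSpace ℝ (Fin n)) :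
    H x * ContinuousLinearMap.adjoint (dI (𝓡∂ n) H x a) +
      dI (𝓡∂ n) H x a * ContinuousLinearMap.adjoint (H x) = 0 := by
  have h1 := wd_mul hH (wdiff_adj hH) a
  have h2 : (fun x => H x * ContinuousLinearMap.adjoint (H x)) =ᶠ[𝓝 x] fun _ : M₂ => (1 : EndF N) := by
    filter_upwards [hu] with y hy
    exact (Unitary.mem_iff.1 hy).2
  rw [wd_congr h2, wd_adj hH] at h1
  rw [← h1]
  unfold dI dmap
  rw [mfderiv_const]
  rfl

variable [MeasurableSpace M₁] [MeasurableSpace M₂]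

/-- the connection relation at a point -/
theorem wconn (P : One n N M₁) (Q : One n N M₂) {F : M₂ → M₁} {H : M₂ → EndF N} {x : M₂}
    (hH : MDifferentiableAt (𝓡∂ n) 𝓘(ℝ, EndF N) H x) (hu : ∀ᶠ y in 𝓝 x, H y ∈ unitary (EndF N))
    (h : ∀ v : TangentSpace (𝓡∂ n) x, dmap (𝓡∂ n) H x v + Q.A.form x v ∘L H x =
        H x ∘L P.A.form (F x) (mfderiv (𝓡∂ n) (𝓡∂ n) F x v)) (v : TangentSpace (𝓡∂ n) x) :
    Q.A.form x v = gf2 P.A F (fun x => ContinuousLinearMap.adjoint (H x)) x v := by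
  have h1 := h v
  have h2 : dmap (𝓡∂ n) (fun x => ContinuousLinearMap.adjoint (H x)) x v =
      ContinuousLinearMap.adjoint (dmap (𝓡∂ n) H x v) := wd_adj hH v
  have h3 : H x * ContinuousLinearMap.adjoint (dmap (𝓡∂ n) H x v) +
      dmap (𝓡∂ n) H x v * ContinuousLinearMap.adjoint (H x) = 0 := wd_uni hH hu v
  have h4 : H x * ContinuousLinearMap.adjoint (H x) = 1 := (Unitary.mem_iff.1 hu.self_of_nhds).2
  unfold gf2
  rw [h2, ContinuousLinearMap.adjoint_adjoint]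
  have h5 : dmap (𝓡∂ n) H x v + Q.A.form x v * H x =
      H x * P.A.form (F x) (mfderiv (𝓡∂ n) (𝓡∂ n) F x v) := h1
  have h6 : Q.A.form x v = H x * (P.A.form (F x) (mfderiv (𝓡∂ n) (𝓡∂ n) F x v) *
      ContinuousLinearMap.adjoint (H x)) +
      H x * ContinuousLinearMap.adjoint (dmap (𝓡∂ n) H x v) := by
    generalize P.A.form (F x) (mfderiv (𝓡∂ n) (𝓡∂ n) F x v) = a at h5
    generalize ContinuousLinearMap.adjoint (dmap (𝓡∂ n) H x v) = dg' at h3
    generalize dmap (𝓡∂ n) H x v = dg at h3 h5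
    generalize ContinuousLinearMap.adjoint (H x) = g' at h3 h4
    generalize Q.A.form x v = q at h5
    generalize H x = g at h3 h4 h5
    have e1 : q * g = g * a - dg := eq_sub_of_add_eq' h5
    have e2 : g * dg' = - (dg * g') := eq_neg_of_add_eq_zero_left h3
    calc q = q * (g * g') := by rw [h4, mul_one]
      _ = (q * g) * g' := (mul_assoc _ _ _).symm
      _ = g * (a * g') + - (dg * g') := by
          rw [e1, sub_mul, mul_assoc, sub_eq_add_neg]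
      _ = g * (a * g') + g * dg' := by rw [e2]
  exact h6

end Vale.Agent.P088.TM
end
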