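import Vale.Agent.P088.TM.H332C

/-!
# P088, two manifolds: the match on an open set, up to the boundary
-/

open Bundle Manifold MeasureTheory Set Filter Topology
open scoped ContDiff

noncomputable section

set_option linter.all false

namespace Vale.Agent.P088.TM

open Vale.Agent.P088.EYM hiding CUnm_statement LMatch CCont_statement CReg_statement CDiff_statement cCont cReg cDiff cDiff_ext PP SameD Gd CData_statement CMatch_statement CNear_statement CLim_statement CCoord_statement CModEq_statement CClosed_statement CGlobal_statement CChart_statement CTensor_statement wGlue wInj wClosed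

universe u

section basic

variable {n N : ℕ} [NeZero n] {M₁ M₂ : Type u}
  [TopologicalSpace M₁] [ChartedSpace (EuclideanHalfSpace n) M₁]
  [IsManifold (𝓡∂ n) ∞ M₁] [TopologicalSpace M₂] [ChartedSpace (EuclideanHalfSpace n) M₂]
  [IsManifold (𝓡∂ n) ∞ M₂] [MeasurableSpace M₁] [MeasurableSpace M₂]

/-- Restriction of a local match. -/
theorem wMono {P : One n N M₁} {Q : One n N M₂} {G : Gl M₁ M₂} {O O' : Set M₂}
    {Φ : M₂ → M₁} {V : M₂ → EndF N} (h : TM.LMatch P Q G O Φ V) (hO' : IsOpen O')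
    (hs : O' ⊆ O) : TM.LMatch P Q G O' Φ V :=
  ⟨hO', hs.trans h.sub, h.maps.mono_left hs, h.smφ.mono hs, h.smV.mono hs,
    fun x hx => h.unit x (hs hx), fun x hx => h.met x (hs hx), fun x hx => h.con x (hs hx),
    fun u hu x hx => h.sol u hu x (hs hx)⟩

end basic

section pt

variable {n N : ℕ} [NeZero n] {M : Type u} [TopologicalSpace M]
  [ChartedSpace (EuclideanHalfSpace n) M] [IsManifold (𝓡∂ n) ∞ M]

/-- A relatively open subset of the boundary has no isolated points. -/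
theorem wSecond (hn : 2 ≤ n) (hLoc : CLoc_statement.{u}) {Γ : Set M} (hΓ : RelBd n Γ) {p : M}
    (hp : p ∈ Γ) : ∃ y ∈ Γ, y ≠ p := by
  letI : MeasurableSpace M := borel M
  obtain ⟨hrel, -, hbd, -⟩ := hLoc n 0 M
  obtain ⟨O, hO, hΓO⟩ := hΓ
  rw [hΓO] at hp
  obtain ⟨hpO, hpb⟩ := hp
  obtain ⟨i, hi⟩ : ∃ i : Fin n, i ≠ 0 := by
    refine ⟨⟨1, hn⟩, fun h => ?_⟩
    have := congrArg Fin.val h
    simp at this
  set z := xc n p p with hz
  have hps : p ∈ (xc n p).source := mem_extChartAt_source p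
  have hz0 : z 0 = 0 := (hbd p p hps).1 hpb
  have hzt : z ∈ tgW n O p := ⟨mem_extChartAt_target p, by
    rw [mem_preimage, hz, extChartAt_to_inv]
    exact hpO⟩
  obtain ⟨U, hU, hUe⟩ := tgW_rel hrel hO p
  have hzU : z ∈ U := by
    rw [hUe] at hzt
    exact hzt.1
  obtain ⟨r, hr, hrU⟩ := Metric.isOpen_iff.1 hU z hzU
  have hy0 : ∀ t : ℝ, (z + t • (ev i : E n)) 0 = 0 := by
    intro t
    simp only [PiLp.add_apply, hz0, PiLp.smul_apply, ne_eq, hi.symm, not_false_eq_true,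
      PiLp.single_eq_of_ne, smul_eq_mul, mul_zero, add_zero]
  have hyb : z + (r / 2) • (ev i : E n) ∈ Metric.ball z r := by
    rw [Metric.mem_ball, dist_eq_norm, add_sub_cancel_left, norm_smul]
    have h1 : ‖(ev i : E n)‖ = 1 := by simp
    rw [h1, mul_one, Real.norm_of_nonneg (by linarith)]
    linarith
  have hyt : z + (r / 2) • (ev i : E n) ∈ tgW n O p := by
    rw [hUe]
    refine ⟨hrU hyb, ?_⟩
    change 0 ≤ (z + (r / 2) • (ev i : E n)) 0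
    rw [hy0]
  have hys := (xc n p).map_target hyt.1
  have hyr := (xc n p).right_inv hyt.1
  refine ⟨(xc n p).symm (z + (r / 2) • (ev i : E n)), ?_, ?_⟩
  · rw [hΓO]
    refine ⟨hyt.2, (hbd p _ hys).2 ?_⟩
    rw [hyr]
    exact hy0 _
  · intro h
    rw [h] at hyr
    have h1 : (xc n p p : E n) i = (z + (r / 2) • (ev i : E n)) i := congrArg (fun v : E n => v i) hyr
    rw [← hz] at h1
    simp only [PiLp.add_apply, PiLp.smul_apply, PiLp.single_eq_same, smul_eq_mul, mul_one] at h1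
    linarith

/-- Boundary data vanish at the points of the boundary outside of the patch. -/
theorem wZero {Γ : Set M} {f : M → Fib N} (hf : IsBdryData (𝓡∂ n) Γ f) {x : M}
    (hx : x ∈ (𝓡∂ n).boundary M) (hxΓ : x ∉ Γ) : f x = 0 := by
  by_contra h
  exact hxΓ (hf.supp (subset_closure ⟨hx, h⟩))

variable [T2Space M] [CompactSpace M] [ConnectedSpace M] [MeasurableSpace M] [BorelSpace M]

/-- A solution with data vanishing at a given boundary point, and with given value at an interior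
point. -/
theorem wAvoid (hR : EYM.CRunge_statement.{u}) (hC : EYM.CConn_statement.{u})
    (hLoc : CLoc_statement.{u}) {P : One n N M} {Γ : Set M} (hn : 2 ≤ n) (hΓ : RelBd n Γ)
    (hΓn : Γ.Nonempty) (hP : P.HasSol Γ) {w : M} (hw : w ∈ Mi n M) (p : M)
    (hp : p ∈ (𝓡∂ n).boundary M) (e : Fib N) :
    ∃ f u, IsBdryData (𝓡∂ n) Γ f ∧ P.Harm f u ∧ f p = 0 ∧ u w = e := by
  have hΓ' : RelBd n (Γ \ {p}) := by
    obtain ⟨O, hO, hΓO⟩ := hΓ
    refine ⟨O \ {p}, hO.sdiff isClosed_singleton, ?_⟩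
    rw [hΓO]
    ext x
    constructor
    · rintro ⟨⟨h1, h2⟩, h3⟩
      exact ⟨⟨h1, h3⟩, h2⟩
    · rintro ⟨⟨h1, h3⟩, h2⟩
      exact ⟨⟨h1, h2⟩, h3⟩
  have hne : (Γ \ {p}).Nonempty := by
    obtain ⟨q, hq⟩ := hΓn
    by_cases hqp : q = p
    · subst hqp
      obtain ⟨y, hy, hyq⟩ := wSecond hn hLoc hΓ hq
      exact ⟨y, hy, hyq⟩
    · exact ⟨q, hq, hqp⟩
  have hdat : ∀ f : M → Fib N, IsBdryData (𝓡∂ n) (Γ \ {p}) f → IsBdryData (𝓡∂ n) Γ f :=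
    fun f hf => ⟨hf.1, hf.2.trans diff_subset⟩
  obtain ⟨b, hb, hne'⟩ := cGlobal_second hC hΓ' hne w hw
  obtain ⟨u, ⟨f, hf, hu⟩, h1, -⟩ := hR n N M P (Γ \ {p}) w b e 0 (fun _ => 0) (fun _ => 0) hn
    hΓ' hne (fun f hf => hP f (hdat f hf)) hw hb (Ne.symm hne')
  exact ⟨f, u, hdat f hf, hu, wZero hf hp (fun h => h.2 rfl), h1.1⟩

end pt

section fin

variable {n N : ℕ} [NeZero n] {M₁ M₂ : Type u}
  [TopologicalSpace M₁] [ChartedSpace (EuclideanHalfSpace n) M₁]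
  [IsManifold (𝓡∂ n) ∞ M₁] [T2Space M₁] [CompactSpace M₁] [ConnectedSpace M₁]
  [MeasurableSpace M₁] [BorelSpace M₁] [TopologicalSpace M₂]
  [ChartedSpace (EuclideanHalfSpace n) M₂]
  [IsManifold (𝓡∂ n) ∞ M₂] [T2Space M₂] [CompactSpace M₂] [ConnectedSpace M₂]
  [MeasurableSpace M₂] [BorelSpace M₂]

/-- `Q` is on `W` the pull back of `P` by `F` and the gauge `H`, up to the boundary. -/
structure WMatch (P : One n N M₁) (Q : One n N M₂) (G : Gl M₁ M₂) (W : Set M₂) (F : M₂ → M₁)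
    (H : M₂ → EndF N) : Prop where
  smF : ContMDiffOn (𝓡∂ n) (𝓡∂ n) ∞ F W
  smH : ContMDiffOn (𝓡∂ n) 𝓘(ℝ, EndF N) ∞ H W
  unit : ∀ x ∈ W, H x ∈ unitary (EndF N)
  met : ∀ x ∈ W, ∀ (v w : TangentSpace (𝓡∂ n) x), Q.g.inner x v w =
      P.g.inner (F x) (mfderiv (𝓡∂ n) (𝓡∂ n) F x v) (mfderiv (𝓡∂ n) (𝓡∂ n) F x w)
  con : ∀ x ∈ W, ∀ (v : TangentSpace (𝓡∂ n) x),
      dmap (𝓡∂ n) H x v + Q.A.form x v ∘L H x =
        H x ∘L P.A.form (F x) (mfderiv (𝓡∂ n) (𝓡∂ n) F x v)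
  sol : ∀ u ∈ PP P Q G, ∀ x ∈ W, u.2 x = H x (u.1 (F x))
  int : ∀ x ∈ W, x ∈ Mi n M₂ → F x ∈ Mi n M₁
  bdr : ∀ x ∈ W, x ∈ (𝓡∂ n).boundary M₂ → F x ∈ (𝓡∂ n).boundary M₁
  fix : ∀ x ∈ W, x ∈ G.Γ₂ → F x = G.ψ x ∧ H x = 1
  inj : InjOn F (W ∩ (Mi n M₂ ∪ G.Γ₂))

theorem wFinal (hA : AExtSys_statement) (hB : BChr_statement) (hUnm : TM.CUnm_statement.{u})
    (hLoc : CLoc_statement.{u}) (hConn : EYM.CConn_statement.{u})
    (hChart : TM.CChart_statement.{u}) (hR : EYM.CRunge_statement.{u})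
    (P : One n N M₁) (Q : One n N M₂) (G : Gl M₁ M₂) (hn : 2 ≤ n) (hN : 0 < N) (hG : G.Ok n N)
    (hP : P.HasSol G.Γ₁) (hQ : Q.HasSol G.Γ₂) {W₀ : Set M₂} (hW₀ : IsOpen W₀) (Φ : M₂ → M₁)
    (V : M₂ → EndF N) (h : ∀ x ∈ W₀ ∩ Mi n M₂, ∃ O, x ∈ O ∧ TM.LMatch P Q G O Φ V) :
    ∃ (F : M₂ → M₁) (H : M₂ → EndF N), WMatch P Q G W₀ F H := by
  obtain ⟨⟨F, hF, hFe⟩, ⟨H, hH, hHe⟩⟩ := wExt hA hB hUnm hLoc hConn P Q G hW₀ Φ V h
  have hL : ∀ x ∈ W₀ ∩ Mi n M₂, ∃ O, x ∈ O ∧ TM.LMatch P Q G O F H := by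
    intro x hx
    obtain ⟨O, hxO, hm⟩ := h x hx
    refine ⟨O ∩ W₀, ⟨hxO, hx.1⟩, wCongr (wMono hm (hm.isOpen.inter hW₀) inter_subset_left)
      (fun y hy => hFe y ⟨hy.2, hm.sub hy.1⟩) (fun y hy => hHe y ⟨hy.2, hm.sub hy.1⟩)⟩
  obtain ⟨t1, t2, t3, t4⟩ := wTensor hChart hConn hLoc P Q G hW₀ F H hF hH hL
  have hbd₁ : IsClosed ((𝓡∂ n).boundary M₁) := by
    rw [← ModelWithCorners.compl_interior]
    exact (hConn n M₁).1.isClosed_compl
  have hint : ∀ x ∈ W₀, x ∈ Mi n M₂ → F x ∈ Mi n M₁ := by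
    intro x hx hxi
    obtain ⟨O, hxO, hm⟩ := hL x ⟨hx, hxi⟩
    exact hm.maps hxO
  let e : Fib N := EuclideanSpace.single ⟨0, hN⟩ (1 : ℂ)
  have he : e ≠ 0 := by
    intro h0
    have h5 := congrArg (fun z : Fib N => z ⟨0, hN⟩) h0
    simp only [PiLp.single_eq_same, PiLp.zero_apply, one_ne_zero, e] at h5
  have hbdr : ∀ x ∈ W₀, x ∈ (𝓡∂ n).boundary M₂ → F x ∈ (𝓡∂ n).boundary M₁ := by
    intro x hx hxb
    rw [← ModelWithCorners.compl_interior]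
    intro hw
    obtain ⟨p, hp, hpx⟩ : ∃ p ∈ (𝓡∂ n).boundary M₁, x ∈ G.Γ₂ → p = G.ψ x := by
      by_cases hxΓ : x ∈ G.Γ₂
      · refine ⟨G.ψ x, ?_, fun _ => rfl⟩
        obtain ⟨O, -, hΓO⟩ := hG.rel₁
        have h1 := hG.maps hxΓ
        rw [hΓO] at h1
        exact h1.2
      · obtain ⟨q, hq⟩ := hG.ne₁
        obtain ⟨O, -, hΓO⟩ := hG.rel₁
        rw [hΓO] at hq
        exact ⟨q, hq.2, fun h => absurd h hxΓ⟩
    obtain ⟨f, u, hf, hu, hfp, huw⟩ := wAvoid hR hConn hLoc hn hG.rel₁ hG.ne₁ hP hw p hp e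
    obtain ⟨f₂, hf₂, hf₂e⟩ := hG.ext f hf
    obtain ⟨u₂, hu₂⟩ := hQ f₂ hf₂
    have h1 := t4 (u, u₂) ⟨f, f₂, ⟨hf, hf₂, hf₂e⟩, hu, hu₂⟩ x hx
    have h2 : u₂ x = 0 := by
      rw [hu₂.boundary x hxb]
      by_cases hxΓ : x ∈ G.Γ₂
      · rw [hf₂e x hxΓ, ← hpx hxΓ]
        exact hfp
      · exact wZero hf₂ hxb hxΓ
    have h3 : H x (u (F x)) = 0 := by rw [← h2]; exact h1.symm
    have h4 := cGlobal_unit (t3 x hx) h3
    rw [huw] at h4
    exact he h4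
  have hfix : ∀ x ∈ W₀, x ∈ G.Γ₂ → F x = G.ψ x ∧ H x = 1 := by
    intro x hx hxΓ
    have hxb : x ∈ (𝓡∂ n).boundary M₂ := by
      obtain ⟨O, -, hΓO⟩ := hG.rel₂
      rw [hΓO] at hxΓ
      exact hxΓ.2
    have key : ∀ f : M₁ → Fib N, IsBdryData (𝓡∂ n) G.Γ₁ f → f (G.ψ x) = H x (f (F x)) := by
      intro f hf
      obtain ⟨f₂, hf₂, hf₂e⟩ := hG.ext f hf
      obtain ⟨u₁, hu₁⟩ := hP f hf
      obtain ⟨u₂, hu₂⟩ := hQ f₂ hf₂
      have h1 := t4 (u₁, u₂) ⟨f, f₂, ⟨hf, hf₂, hf₂e⟩, hu₁, hu₂⟩ x hx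
      have h2 := hu₂.boundary x hxb
      have h3 := hu₁.boundary (F x) (hbdr x hx hxb)
      change u₂ x = H x (u₁ (F x)) at h1
      rw [h2, h3, hf₂e x hxΓ] at h1
      exact h1
    have h1 : F x = G.ψ x := by
      by_contra hne
      obtain ⟨f, hf, hfp, hf0⟩ := cMain_bump (N := N) hbd₁ hG.rel₁ (hG.maps hxΓ) (V := {F x}ᶜ)
        isClosed_singleton.isOpen_compl (fun h => hne (mem_singleton_iff.1 h).symm) e
      have h1 := key f hf
      rw [hfp, hf0 (F x) (fun h => h rfl), map_zero] at h1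
      exact he h1
    refine ⟨h1, ContinuousLinearMap.ext fun e' => ?_⟩
    obtain ⟨f, hf, hfp, -⟩ := cMain_bump (N := N) hbd₁ hG.rel₁ (hG.maps hxΓ) isOpen_univ
      (mem_univ _) e'
    have h2 := key f hf
    rw [h1, hfp] at h2
    exact h2.symm
  refine ⟨F, H, hF, hH, t3, t1, t2, t4, hint, hbdr, hfix, ?_⟩
  have hdis₁ := ModelWithCorners.disjoint_interior_boundary (I := 𝓡∂ n) (M := M₁)
  have hΓb : ∀ x ∈ G.Γ₂, x ∈ (𝓡∂ n).boundary M₂ := by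
    intro x hx
    obtain ⟨O, -, hΓO⟩ := hG.rel₂
    rw [hΓO] at hx
    exact hx.2
  rintro x ⟨hxW, hx⟩ y ⟨hyW, hy⟩ hxy
  rcases hx with hx | hx <;> rcases hy with hy | hy
  · exact wInj hR hConn hn hN hG hP hQ (hL x ⟨hxW, hx⟩) (hL y ⟨hyW, hy⟩) hxy
  · exfalso
    refine Set.disjoint_left.1 hdis₁ (hint x hxW hx) ?_
    rw [hxy]
    exact hbdr y hyW (hΓb y hy)
  · exfalso
    refine Set.disjoint_left.1 hdis₁ (hint y hyW hy) ?_
    rw [← hxy]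
    exact hbdr x hxW (hΓb x hx)
  · have h1 := (hfix x hxW hx).1
    have h2 := (hfix y hyW hy).1
    rw [h1, h2] at hxy
    rw [← hG.inv x hx, ← hG.inv y hy, hxy]

end fin

end Vale.Agent.P088.TM
end
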