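import Vale.Agent.P088.TM.H332
import Vale.Agent.P088.H332.Loc2

/-!
# P088, two manifolds: gluing of local matches, relations up to the boundary, on an open set
-/

open Bundle Manifold MeasureTheory Set Filter Topology
open scoped ContDiff

noncomputable section

set_option linter.all false

namespace Vale.Agent.P088.TM

open Vale.Agent.P088.EYM hiding CUnm_statement LMatch CCont_statement CReg_statement CDiff_statement cCont cReg cDiff cDiff_ext PP SameD Gd CData_statement CMatch_statement CNear_statement CLim_statement CCoord_statement CModEq_statement CClosed_statement CGlobal_statement CChart_statement CTensor_statement wGlue wInj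

universe u

section man

variable {n N : ℕ} [NeZero n] {M₁ M₂ : Type u} [TopologicalSpace M₁]
  [ChartedSpace (EuclideanHalfSpace n) M₁] [IsManifold (𝓡∂ n) ∞ M₁] [TopologicalSpace M₂]
  [ChartedSpace (EuclideanHalfSpace n) M₂] [IsManifold (𝓡∂ n) ∞ M₂]

theorem wTensor_jac (hrel : ∀ p : M₂, RelOpen (tg n p)) {F : M₂ → M₁} {W₀ : Set M₂}
    (hW₀ : IsOpen W₀) (hF : ContMDiffOn (𝓡∂ n) (𝓡∂ n) ∞ F W₀) (q₁ : M₁) (q₂ x : M₂) (hxW : x ∈ W₀)
    (hx2 : x ∈ (xc n q₂).source)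
    (hx1 : F x ∈ (xc n q₁).source) (k j : Fin n) :
    ContinuousAt (fun m => Jac (fun y => xc n q₁ (F ((xc n q₂).symm y))) (xc n q₂ m) k j) x := by
  -- the open neighbourhood of `x`
  set O' : Set M₂ := (xc n q₂).source ∩ (W₀ ∩ F ⁻¹' (xc n q₁).source) with hO'
  have hO'o : IsOpen O' :=
    (isOpen_extChartAt_source q₂).inter
      (hF.continuousOn.isOpen_inter_preimage hW₀ (isOpen_extChartAt_source q₁))
  obtain ⟨Oq, hOq, hOqe⟩ := hrel q₂
  obtain ⟨Ou, hOu, hOue⟩ := (continuousOn_iff'.1 (continuousOn_extChartAt_symm (I := 𝓡∂ n) q₂))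
    O' hO'o
  set D : Set (E n) := (xc n q₂).symm ⁻¹' O' ∩ tg n q₂ with hD
  have hDrel : RelOpen D := by
    refine ⟨Ou ∩ Oq, hOu.inter hOq, ?_⟩
    have hOqe' : (extChartAt (𝓡∂ n) q₂).target = Oq ∩ Hs n := hOqe
    refine hOue.trans ?_
    rw [hOqe', inter_assoc]
  have hDt : ∀ y ∈ D, y ∈ tg n q₂ := fun y hy => hy.2
  have hτ : ContDiffOn ℝ ∞ (fun y => xc n q₁ (F ((xc n q₂).symm y))) D := by
    rw [← contMDiffOn_iff_contDiffOn]
    have ha : ContMDiffOn 𝓘(ℝ, E n) (𝓡∂ n) ∞ (xc n q₂).symm D :=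
      (contMDiffOn_extChartAt_symm q₂).mono hDt
    have hb : ContMDiffOn 𝓘(ℝ, E n) (𝓡∂ n) ∞ (fun y => F ((xc n q₂).symm y)) D :=
      hF.comp ha fun y hy => hy.1.2.1
    have hcc : ContMDiffOn (𝓡∂ n) 𝓘(ℝ, E n) ∞ (xc n q₁)
        (chartAt (EuclideanHalfSpace n) q₁).source := contMDiffOn_extChartAt
    refine hcc.comp hb ?_
    intro y hy
    have := hy.1.2.2
    rw [mem_preimage, extChartAt_source] at this
    exact this
  have hpd : ContinuousOn (pd j fun y => xc n q₁ (F ((xc n q₂).symm y)) k) D :=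
    (hDrel.pd_smooth (coord_smooth hτ k) j).continuousOn
  have hmaps : MapsTo (xc n q₂) O' D := by
    intro m hm
    refine ⟨?_, (xc n q₂).map_source hm.1⟩
    rw [mem_preimage, (xc n q₂).left_inv hm.1]
    exact hm
  have hcont : ContinuousOn (fun m => (pd j fun y => xc n q₁ (F ((xc n q₂).symm y)) k)
      (xc n q₂ m)) O' :=
    hpd.comp ((continuousOn_extChartAt q₂).mono inter_subset_left) hmaps
  exact hcont.continuousAt (hO'o.mem_nhds ⟨hx2, hxW, hx1⟩)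

end man

section one

variable {n N : ℕ} [NeZero n] {M : Type u} [TopologicalSpace M]
  [ChartedSpace (EuclideanHalfSpace n) M] [IsManifold (𝓡∂ n) ∞ M]

theorem wdmap_cont {F' : Type*} [NormedAddCommGroup F'] [NormedSpace ℝ F']
    (hrel : ∀ p : M, RelOpen (tg n p)) {G : M → F'} {W₀ : Set M}
    (hW₀ : IsOpen W₀) (hG : ContMDiffOn (𝓡∂ n) 𝓘(ℝ, F') ∞ G W₀) (x : M) (hx : x ∈ W₀)
    (j : Fin n) :
    ContinuousAt (fun m => dmap (𝓡∂ n) G m (coordVec (𝓡∂ n) x m j)) x := by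
  have hD : RelOpen (tgW n W₀ x) := tgW_rel hrel hW₀ x
  have h1 : ContDiffOn ℝ ∞ (lu (𝓡∂ n) x G) (tgW n W₀ x) := by
    rw [← contMDiffOn_iff_contDiffOn]
    exact hG.comp ((contMDiffOn_extChartAt_symm x).mono (tgW_sub W₀ x)) fun y hy => hy.2
  have h2 : ContinuousOn (pd j (lu (𝓡∂ n) x G)) (tgW n W₀ x) := (hD.pd_smooth h1 j).continuousOn
  have hmaps : MapsTo (xc n x) ((xc n x).source ∩ W₀) (tgW n W₀ x) := by
    intro m hm
    refine ⟨(xc n x).map_source hm.1, ?_⟩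
    rw [mem_preimage, (xc n x).left_inv hm.1]
    exact hm.2
  have h3 : ContinuousOn (fun m => pd j (lu (𝓡∂ n) x G) (xc n x m)) ((xc n x).source ∩ W₀) :=
    h2.comp ((continuousOn_extChartAt x).mono inter_subset_left) hmaps
  have hnh : (xc n x).source ∩ W₀ ∈ 𝓝 x :=
    ((isOpen_extChartAt_source x).inter hW₀).mem_nhds ⟨mem_extChartAt_source x, hx⟩
  refine (h3.continuousAt hnh).congr ?_
  filter_upwards [hnh] with m hm
  have h4 : MDifferentiableAt (𝓡∂ n) 𝓘(ℝ, F') G m :=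
    (hG.contMDiffAt (hW₀.mem_nhds hm.2)).mdifferentiableAt (by simp)
  rw [dmap_coordVec (𝓡∂ n) hm.1 h4, cChart_range]
  rfl

end one

/-- Congruence of local matches. -/
theorem wCongr {n N : ℕ} [NeZero n] {M₁ M₂ : Type u}
  [TopologicalSpace M₁] [ChartedSpace (EuclideanHalfSpace n) M₁]
  [IsManifold (𝓡∂ n) ∞ M₁] [TopologicalSpace M₂]
  [ChartedSpace (EuclideanHalfSpace n) M₂] [IsManifold (𝓡∂ n) ∞ M₂] [MeasurableSpace M₁]
    [MeasurableSpace M₂] {P : One n N M₁} {Q : One n N M₂} {G : Gl M₁ M₂} {O : Set M₂}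
    {Φ F : M₂ → M₁} {V H : M₂ → EndF N}
    (h : TM.LMatch P Q G O Φ V) (hF : EqOn F Φ O) (hH : EqOn H V O) :
    TM.LMatch P Q G O F H := by
  have hinn : ∀ (y y' : M₁) (_ : y = y') (a b : E n), P.g.inner y a b = P.g.inner y' a b := by
    rintro y _ rfl a b
    rfl
  have hfor : ∀ (y y' : M₁) (_ : y = y') (a : E n), P.A.form y a = P.A.form y' a := by
    rintro y _ rfl a
    rfl
  have hdF : ∀ x ∈ O, ∀ v : TangentSpace (𝓡∂ n) x,
      (mfderiv (𝓡∂ n) (𝓡∂ n) F x v : E n) = (mfderiv (𝓡∂ n) (𝓡∂ n) Φ x v : E n) := by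
    intro x hx v
    have h1 : F =ᶠ[𝓝 x] Φ := Filter.eventuallyEq_of_mem (h.isOpen.mem_nhds hx) hF
    exact DFunLike.congr_fun h1.mfderiv_eq v
  have hdG : ∀ x ∈ O, ∀ v : TangentSpace (𝓡∂ n) x,
      dmap (𝓡∂ n) H x v = dmap (𝓡∂ n) V x v := by
    intro x hx v
    have h1 : H =ᶠ[𝓝 x] V := Filter.eventuallyEq_of_mem (h.isOpen.mem_nhds hx) hH
    exact DFunLike.congr_fun h1.mfderiv_eq v
  refine ⟨h.isOpen, h.sub, ?_, ?_, ?_, ?_, ?_, ?_, ?_⟩
  · intro x hx
    rw [hF hx]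
    exact h.maps hx
  · exact h.smφ.congr hF
  · exact h.smV.congr hH
  · intro x hx
    rw [hH hx]
    exact h.unit x hx
  · intro x hx v w
    rw [h.met x hx v w]
    refine (hinn (Φ x) (F x) (hF hx).symm _ _).trans ?_
    exact congrArg₂ (fun a b : E n => P.g.inner (F x) a b) (hdF x hx v).symm (hdF x hx w).symm
  · intro x hx v
    rw [hdG x hx v, hH hx, h.con x hx v]
    refine congrArg (fun T : EndF N => V x ∘L T) ?_
    refine (hfor (Φ x) (F x) (hF hx).symm _).trans ?_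
    exact congrArg (fun a : E n => P.A.form (F x) a) (hdF x hx v).symm
  · intro u hu x hx
    rw [hH hx, hF hx]
    exact h.sol u hu x hx

section uniq

variable {n N : ℕ} [NeZero n] {M₁ M₂ : Type u}
  [TopologicalSpace M₁] [ChartedSpace (EuclideanHalfSpace n) M₁]
  [IsManifold (𝓡∂ n) ∞ M₁] [T2Space M₁] [CompactSpace M₁] [ConnectedSpace M₁]
  [MeasurableSpace M₁] [BorelSpace M₁] [TopologicalSpace M₂]
  [ChartedSpace (EuclideanHalfSpace n) M₂]
  [IsManifold (𝓡∂ n) ∞ M₂] [T2Space M₂] [CompactSpace M₂] [ConnectedSpace M₂]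
  [MeasurableSpace M₂] [BorelSpace M₂]

/-- Pairs of solutions with prescribed values of the first component. -/
theorem wValues (hR : EYM.CRunge_statement.{u}) {P : One n N M₁} {Q : One n N M₂} {G : Gl M₁ M₂}
    (hn : 2 ≤ n) (hG : G.Ok n N) (hP : P.HasSol G.Γ₁) (hQ : Q.HasSol G.Γ₂) {x x' : M₁}
    (hx : x ∈ Mi n M₁) (hx' : x' ∈ Mi n M₁) (hne : x ≠ x') (a a' : Fib N) :
    ∃ u ∈ PP P Q G, u.1 x = a ∧ u.1 x' = a' := by
  obtain ⟨u, ⟨f, hf, hu⟩, h1, h2⟩ := hR n N M₁ P G.Γ₁ x x' a a' (fun _ => 0) (fun _ => 0) hn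
    hG.rel₁ hG.ne₁ hP hx hx' hne
  obtain ⟨f₂, hf₂, he⟩ := hG.ext f hf
  obtain ⟨w, hw⟩ := hQ f₂ hf₂
  exact ⟨(u, w), ⟨f, f₂, ⟨hf, hf₂, he⟩, hu, hw⟩, h1.1, h2.1⟩

/-- Solutions separate points and gauges. -/
theorem wUniq (hR : EYM.CRunge_statement.{u}) (hC : EYM.CConn_statement.{u}) {P : One n N M₁}
    {Q : One n N M₂} {G : Gl M₁ M₂} (hn : 2 ≤ n) (hN : 0 < N) (hG : G.Ok n N)
    (hP : P.HasSol G.Γ₁) (hQ : Q.HasSol G.Γ₂) {a a' : M₁} (ha : a ∈ Mi n M₁) (ha' : a' ∈ Mi n M₁)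
    {V V' : EndF N} (hV : V ∈ unitary (EndF N)) (h : ∀ u ∈ PP P Q G, V (u.1 a) = V' (u.1 a')) :
    a = a' ∧ V = V' := by
  have haa : a = a' := by
    by_contra hne
    let e : Fib N := EuclideanSpace.single ⟨0, hN⟩ (1 : ℂ)
    obtain ⟨u, hu, h1, h2⟩ := wValues hR hn hG hP hQ ha ha' hne e 0
    have h3 := h u hu
    rw [h1, h2, map_zero] at h3
    have h4 := cGlobal_unit hV h3
    have h5 := congrArg (fun z : Fib N => z ⟨0, hN⟩) h4
    simp only [PiLp.single_eq_same, PiLp.zero_apply, one_ne_zero, e] at h5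
  refine ⟨haa, ?_⟩
  subst haa
  obtain ⟨b, hb, hne⟩ := cGlobal_second hC hG.rel₁ hG.ne₁ a ha
  ext1 e
  obtain ⟨u, hu, h1, _⟩ := wValues hR hn hG hP hQ ha hb (Ne.symm hne) e 0
  have h3 := h u hu
  rwa [h1] at h3

/-- Gluing of the local matches on the set of good points. -/
theorem wGlue (hR : EYM.CRunge_statement.{u}) (hC : EYM.CConn_statement.{u}) {P : One n N M₁}
    {Q : One n N M₂} {G : Gl M₁ M₂} (hn : 2 ≤ n) (hN : 0 < N) (hG : G.Ok n N)
    (hP : P.HasSol G.Γ₁) (hQ : Q.HasSol G.Γ₂) :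
    ∃ (Φ : M₂ → M₁) (V : M₂ → EndF N), ∀ x ∈ TM.Gd P Q G, ∃ O, x ∈ O ∧ TM.LMatch P Q G O Φ V := by
  classical
  haveI : Nonempty (M₂ → M₁) := by
    obtain ⟨m, -⟩ := hG.ne₁
    exact ⟨fun _ => m⟩
  have hG' : ∀ x : M₂, x ∈ TM.Gd P Q G → ∃ (O : Set M₂) (φ : M₂ → M₁) (V : M₂ → EndF N),
      (TM.LMatch P Q G O φ V ∧ x ∈ O) := fun x hx => hx
  choose! O φ V hOV using hG'
  refine ⟨fun x => φ x x, fun x => V x x, fun x hx => ⟨O x, (hOV x hx).2, ?_⟩⟩
  have hm := (hOV x hx).1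
  have key : ∀ y ∈ O x, φ y y = φ x y ∧ V y y = V x y := by
    intro y hy
    have hyG : y ∈ TM.Gd P Q G := ⟨_, _, _, hm, hy⟩
    have hmy := (hOV y hyG).1
    have hyy := (hOV y hyG).2
    refine wUniq hR hC hn hN hG hP hQ (hmy.maps hyy) (hm.maps hy) (hmy.unit y hyy) ?_
    intro u hu
    rw [← hmy.sol u hu y hyy, ← hm.sol u hu y hy]
  exact wCongr hm (fun y hy => (key y hy).1) (fun y hy => (key y hy).2)

/-- A glued match is injective. -/
theorem wInj (hR : EYM.CRunge_statement.{u}) (hC : EYM.CConn_statement.{u}) {P : One n N M₁}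
    {Q : One n N M₂} {G : Gl M₁ M₂} (hn : 2 ≤ n) (hN : 0 < N) (hG : G.Ok n N)
    (hP : P.HasSol G.Γ₁) (hQ : Q.HasSol G.Γ₂) {Φ : M₂ → M₁} {V : M₂ → EndF N} {x y : M₂}
    (hx : ∃ O, x ∈ O ∧ TM.LMatch P Q G O Φ V) (hy : ∃ O, y ∈ O ∧ TM.LMatch P Q G O Φ V)
    (h : Φ x = Φ y) : x = y := by
  obtain ⟨O, hxO, hm⟩ := hx
  obtain ⟨O', hyO, hm'⟩ := hy
  have h1 : ∀ {W : EndF N}, W ∈ unitary (EndF N) → star W * W = 1 := fun hW =>
    (Unitary.mem_iff.1 hW).1
  refine (wUniq hR hC (P := Q) (Q := P) (G := G.symm) hn hN hG.symm hQ hP (hm.sub hxO)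
    (hm'.sub hyO) (V := star (V x)) (V' := star (V y))
    (Unitary.star_mem (hm.unit x hxO)) ?_).1
  intro u hu
  have hu' : u.swap ∈ PP P Q G := PP_swap hG.symm hu
  have e1 := hm.sol _ hu' x hxO
  have e2 := hm'.sol _ hu' y hyO
  change u.1 x = V x (u.2 (Φ x)) at e1
  change u.1 y = V y (u.2 (Φ y)) at e2
  rw [e1, e2, ← h]
  have e3 : (star (V x)) (V x (u.2 (Φ x))) = (star (V x) * V x) (u.2 (Φ x)) := rfl
  have e4 : (star (V y)) (V y (u.2 (Φ x))) = (star (V y) * V y) (u.2 (Φ x)) := rfl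
  rw [e3, e4, h1 (hm.unit x hxO), h1 (hm'.unit y hyO)]

end uniq

/-- The relations of the match hold at all points of `W₀`, also at the boundary. -/
theorem wTensor (hChart : TM.CChart_statement.{u}) (hConn : CConn_statement.{u})
    (hLoc : CLoc_statement.{u})
    {n N : ℕ} [NeZero n] {M₁ M₂ : Type u}
    [TopologicalSpace M₁] [ChartedSpace (EuclideanHalfSpace n) M₁]
    [IsManifold (𝓡∂ n) ∞ M₁] [T2Space M₁] [CompactSpace M₁] [ConnectedSpace M₁]
    [MeasurableSpace M₁] [BorelSpace M₁] [TopologicalSpace M₂]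
    [ChartedSpace (EuclideanHalfSpace n) M₂]
    [IsManifold (𝓡∂ n) ∞ M₂] [T2Space M₂] [CompactSpace M₂] [ConnectedSpace M₂]
    [MeasurableSpace M₂] [BorelSpace M₂]
    (P : One n N M₁) (Q : One n N M₂) (G : Gl M₁ M₂) {W₀ : Set M₂} (hW₀ : IsOpen W₀)
    (F : M₂ → M₁) (H : M₂ → EndF N) (hFs : ContMDiffOn (𝓡∂ n) (𝓡∂ n) ∞ F W₀)
    (hH : ContMDiffOn (𝓡∂ n) 𝓘(ℝ, EndF N) ∞ H W₀)
    (hL : ∀ x ∈ W₀ ∩ Mi n M₂, ∃ O, x ∈ O ∧ TM.LMatch P Q G O F H) :
    (∀ x ∈ W₀, ∀ (v w : TangentSpace (𝓡∂ n) x), Q.g.inner x v w =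
      P.g.inner (F x) (mfderiv (𝓡∂ n) (𝓡∂ n) F x v) (mfderiv (𝓡∂ n) (𝓡∂ n) F x w)) ∧
    (∀ x ∈ W₀, ∀ (v : TangentSpace (𝓡∂ n) x),
      dmap (𝓡∂ n) H x v + Q.A.form x v ∘L H x =
        H x ∘L P.A.form (F x) (mfderiv (𝓡∂ n) (𝓡∂ n) F x v)) ∧
    (∀ x ∈ W₀, H x ∈ unitary (EndF N)) ∧ ∀ u ∈ PP P Q G, ∀ x ∈ W₀, u.2 x = H x (u.1 (F x)) := by
  obtain ⟨h1, -, -, -⟩ := hLoc n N M₂
  obtain ⟨-, -, hd⟩ := hConn n M₂
  have hFc : ∀ x ∈ W₀, ContinuousAt F x := fun x hx =>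
    hFs.continuousOn.continuousAt (hW₀.mem_nhds hx)
  have hHc : ∀ x ∈ W₀, ContinuousAt H x := fun x hx =>
    hH.continuousOn.continuousAt (hW₀.mem_nhds hx)
  -- continuity facts at `x` in the charts at `x` and `F x`
  have hsrc : ∀ x : M₂, x ∈ (xc n x).source := fun x => mem_extChartAt_source x
  have hsrc₁ : ∀ x : M₁, x ∈ (xc n x).source := fun x => mem_extChartAt_source x
  have hgood : ∀ x ∈ W₀, (xc n x).source ∩ (W₀ ∩ F ⁻¹' (xc n (F x)).source) ∈ 𝓝 x := fun x hx =>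
    ((isOpen_extChartAt_source x).inter
      (hFs.continuousOn.isOpen_inter_preimage hW₀ (isOpen_extChartAt_source (F x)))).mem_nhds
        ⟨hsrc x, hx, hsrc₁ (F x)⟩
  have hder : ∀ x m : M₂, m ∈ (xc n x).source ∩ (W₀ ∩ F ⁻¹' (xc n (F x)).source) → ∀ j,
      mfderiv (𝓡∂ n) (𝓡∂ n) F m (coordVec (𝓡∂ n) x m j) =
      ∑ k, Jac (fun y => xc n (F x) (F ((xc n x).symm y))) (xc n x m) k j •
        coordVec (𝓡∂ n) (F x) (F m) k := fun x m hm =>
    (hChart n M₁ M₂ W₀ F hW₀ hFs (F x) x m hm.2.1 hm.1 hm.2.2).1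
  have hspan : ∀ x ∈ W₀, ∀ (v : TangentSpace (𝓡∂ n) x), ∃ c : Fin n → ℝ,
      v = ∑ j, c j • coordVec (𝓡∂ n) x x j := fun x hx =>
    (hChart n M₁ M₂ W₀ F hW₀ hFs (F x) x x hx (hsrc x) (hsrc₁ (F x))).2
  have hJ : ∀ x ∈ W₀, ∀ (k j : Fin n), ContinuousAt
      (fun m => Jac (fun y => xc n (F x) (F ((xc n x).symm y))) (xc n x m) k j) x :=
    fun x hx k j => wTensor_jac h1 hW₀ hFs (F x) x x hx (hsrc x) (hsrc₁ (F x)) k j
  refine ⟨?_, ?_, ?_, ?_⟩
  · -- metric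
    intro x hxW v w
    have key : ∀ i j : Fin n, Q.g.inner x (coordVec (𝓡∂ n) x x i) (coordVec (𝓡∂ n) x x j) =
        P.g.inner (F x) (mfderiv (𝓡∂ n) (𝓡∂ n) F x (coordVec (𝓡∂ n) x x i))
          (mfderiv (𝓡∂ n) (𝓡∂ n) F x (coordVec (𝓡∂ n) x x j)) := by
      intro i j
      have hr : ∀ m : M₂, m ∈ (xc n x).source ∩ (W₀ ∩ F ⁻¹' (xc n (F x)).source) →
          P.g.inner (F m) (mfderiv (𝓡∂ n) (𝓡∂ n) F m (coordVec (𝓡∂ n) x m i))
            (mfderiv (𝓡∂ n) (𝓡∂ n) F m (coordVec (𝓡∂ n) x m j)) =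
          ∑ l, (∑ k, Jac (fun y => xc n (F x) (F ((xc n x).symm y))) (xc n x m) k i *
            gram P.g (F x) (F m) k l) *
            Jac (fun y => xc n (F x) (F ((xc n x).symm y))) (xc n x m) l j := by
        intro m hm
        rw [hder x m hm i, hder x m hm j, cTensor_expand]
      rw [hr x ⟨hsrc x, hxW, hsrc₁ (F x)⟩]
      refine cTensor_lim (f := fun m => Q.g.inner m (coordVec (𝓡∂ n) x m i)
        (coordVec (𝓡∂ n) x m j)) (g := fun m => ∑ l, (∑ k,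
          Jac (fun y => xc n (F x) (F ((xc n x).symm y))) (xc n x m) k i *
            gram P.g (F x) (F m) k l) *
            Jac (fun y => xc n (F x) (F ((xc n x).symm y))) (xc n x m) l j)
        (hd x) (hgood x hxW) ?_ ?_ ?_
      · exact (Q.g.smooth x i j).continuousOn.continuousAt
          ((isOpen_extChartAt_source x).mem_nhds (hsrc x))
      · have hgr : ∀ k l : Fin n, ContinuousAt (fun m => gram P.g (F x) (F m) k l) x := by
          intro k l
          have h2 : ContinuousAt (fun m => gram P.g (F x) m k l) (F x) :=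
            (P.g.smooth (F x) k l).continuousOn.continuousAt
              ((isOpen_extChartAt_source (F x)).mem_nhds (hsrc₁ (F x)))
          exact h2.comp_of_eq (hFc x hxW) rfl
        have : ContinuousAt (fun m => ∑ l : Fin n, (∑ k : Fin n,
            Jac (fun y => xc n (F x) (F ((xc n x).symm y))) (xc n x m) k i *
            gram P.g (F x) (F m) k l) *
            Jac (fun y => xc n (F x) (F ((xc n x).symm y))) (xc n x m) l j) x := by
          refine tendsto_finsetSum _ fun l _ => ?_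
          refine Tendsto.mul (tendsto_finsetSum _ fun k _ => ?_) (hJ x hxW l j)
          exact (hJ x hxW k i).mul (hgr k l)
        exact this
      · intro m hm hmi
        obtain ⟨O, hmO, hO⟩ := hL m ⟨hm.2.1, hmi⟩
        rw [← hr m hm]
        exact hO.met m hmO _ _
    obtain ⟨a, rfl⟩ := hspan x hxW v
    obtain ⟨b, rfl⟩ := hspan x hxW w
    have e1 : ∀ (c : Fin n → ℝ), mfderiv (𝓡∂ n) (𝓡∂ n) F x
        (∑ j, c j • coordVec (𝓡∂ n) x x j) =
        ∑ j, c j • mfderiv (𝓡∂ n) (𝓡∂ n) F x (coordVec (𝓡∂ n) x x j) := fun c =>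
      (map_sum (mfderiv (𝓡∂ n) (𝓡∂ n) F x) _ _).trans
        (Finset.sum_congr rfl fun i _ => map_smul (mfderiv (𝓡∂ n) (𝓡∂ n) F x) _ _)
    rw [e1 a, e1 b]
    have e2 : ∀ {M' : Type u} [TopologicalSpace M'] [ChartedSpace (EuclideanHalfSpace n) M']
        [IsManifold (𝓡∂ n) ∞ M'] [MeasurableSpace M'] (m : M') (R : One n N M')
        (X Y : Fin n → TangentSpace (𝓡∂ n) m),
        R.g.inner m (∑ i, a i • X i) (∑ j, b j • Y j) =
          ∑ j, b j * ∑ i, a i * R.g.inner m (X i) (Y j) := by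
      intro M' _ _ _ _ m R X Y
      have h1' : R.g.inner m (∑ k, a k • X k) = ∑ k, a k • R.g.inner m (X k) :=
        (map_sum (R.g.inner m) _ _).trans
          (Finset.sum_congr rfl fun i _ => map_smul (R.g.inner m) _ _)
      have h2' : ∀ T : TangentSpace (𝓡∂ n) m →L[ℝ] ℝ,
          T (∑ l, b l • Y l) = ∑ l, b l * T (Y l) := fun T =>
        (map_sum T _ _).trans (Finset.sum_congr rfl fun i _ => map_smul T _ _)
      rw [h2', h1']
      refine Finset.sum_congr rfl fun l _ => ?_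
      congr 1
      rw [_root_.sum_apply]
      refine Finset.sum_congr rfl fun k _ => ?_
      rfl
    rw [e2, e2]
    refine Finset.sum_congr rfl fun j _ => ?_
    congr 1
    refine Finset.sum_congr rfl fun i _ => ?_
    rw [key i j]
  · -- connection
    intro x hxW v
    have key : ∀ j : Fin n,
        dmap (𝓡∂ n) H x (coordVec (𝓡∂ n) x x j) +
          Q.A.form x (coordVec (𝓡∂ n) x x j) * H x =
        H x * P.A.form (F x) (mfderiv (𝓡∂ n) (𝓡∂ n) F x (coordVec (𝓡∂ n) x x j)) := by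
      intro j
      have hr : ∀ m : M₂, m ∈ (xc n x).source ∩ (W₀ ∩ F ⁻¹' (xc n (F x)).source) →
          P.A.form (F m) (mfderiv (𝓡∂ n) (𝓡∂ n) F m (coordVec (𝓡∂ n) x m j)) =
          ∑ k, Jac (fun y => xc n (F x) (F ((xc n x).symm y))) (xc n x m) k j •
            P.A.form (F m) (coordVec (𝓡∂ n) (F x) (F m) k) := by
        intro m hm
        rw [hder x m hm j]
        exact (map_sum (P.A.form (F m)) _ _).trans
          (Finset.sum_congr rfl fun k _ => map_smul (P.A.form (F m)) _ _)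
      rw [hr x ⟨hsrc x, hxW, hsrc₁ (F x)⟩]
      refine cTensor_lim (f := fun m => dmap (𝓡∂ n) H m (coordVec (𝓡∂ n) x m j) +
          Q.A.form m (coordVec (𝓡∂ n) x m j) * H m)
        (g := fun m => H m * ∑ k,
          Jac (fun y => xc n (F x) (F ((xc n x).symm y))) (xc n x m) k j •
            P.A.form (F m) (coordVec (𝓡∂ n) (F x) (F m) k))
        (hd x) (hgood x hxW) ?_ ?_ ?_
      · have c1 : ContinuousAt (fun m => dmap (𝓡∂ n) H m (coordVec (𝓡∂ n) x m j)) x :=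
          wdmap_cont h1 hW₀ hH x hxW j
        have c2 : ContinuousAt (fun m => Q.A.form m (coordVec (𝓡∂ n) x m j)) x :=
          (Q.A.smooth x j).continuousOn.continuousAt
            ((isOpen_extChartAt_source x).mem_nhds (hsrc x))
        exact c1.add (c2.mul (hHc x hxW))
      · have hA : ∀ k : Fin n, ContinuousAt
            (fun m => P.A.form (F m) (coordVec (𝓡∂ n) (F x) (F m) k)) x := by
          intro k
          have h2 : ContinuousAt (fun m => P.A.form m (coordVec (𝓡∂ n) (F x) m k)) (F x) :=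
            (P.A.smooth (F x) k).continuousOn.continuousAt
              ((isOpen_extChartAt_source (F x)).mem_nhds (hsrc₁ (F x)))
          exact h2.comp_of_eq (hFc x hxW) rfl
        refine (hHc x hxW).mul ?_
        refine tendsto_finsetSum _ fun k _ => ?_
        exact (hJ x hxW k j).smul (hA k)
      · intro m hm hmi
        obtain ⟨O, hmO, hO⟩ := hL m ⟨hm.2.1, hmi⟩
        show _ = H m * ∑ k, _
        rw [← hr m hm]
        exact hO.con m hmO _
    obtain ⟨a, rfl⟩ := hspan x hxW v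
    have e1 : ∀ (c : Fin n → ℝ), mfderiv (𝓡∂ n) (𝓡∂ n) F x
        (∑ j, c j • coordVec (𝓡∂ n) x x j) =
        ∑ j, c j • mfderiv (𝓡∂ n) (𝓡∂ n) F x (coordVec (𝓡∂ n) x x j) := fun c =>
      (map_sum (mfderiv (𝓡∂ n) (𝓡∂ n) F x) _ _).trans
        (Finset.sum_congr rfl fun i _ => map_smul (mfderiv (𝓡∂ n) (𝓡∂ n) F x) _ _)
    rw [e1 a]
    have e2 : ∀ {M' : Type u} [TopologicalSpace M'] [ChartedSpace (EuclideanHalfSpace n) M']
        (m : M') (T : TangentSpace (𝓡∂ n) m →L[ℝ] EndF N)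
        (X : Fin n → TangentSpace (𝓡∂ n) m),
        T (∑ i, a i • X i) = ∑ i, a i • T (X i) := fun m T X =>
      (map_sum T _ _).trans (Finset.sum_congr rfl fun i _ => map_smul T _ _)
    have e3 : dmap (𝓡∂ n) H x (∑ j, a j • coordVec (𝓡∂ n) x x j) =
        ∑ j, a j • dmap (𝓡∂ n) H x (coordVec (𝓡∂ n) x x j) := e2 x _ _
    have e4 : Q.A.form x (∑ j, a j • coordVec (𝓡∂ n) x x j) =
        ∑ j, a j • Q.A.form x (coordVec (𝓡∂ n) x x j) := e2 x _ _
    have e5 : P.A.form (F x) (∑ j, a j • mfderiv (𝓡∂ n) (𝓡∂ n) F x (coordVec (𝓡∂ n) x x j)) =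
        ∑ j, a j • P.A.form (F x) (mfderiv (𝓡∂ n) (𝓡∂ n) F x (coordVec (𝓡∂ n) x x j)) :=
      e2 (F x) _ _
    rw [e3, e4, e5]
    show _ + (∑ j, a j • Q.A.form x (coordVec (𝓡∂ n) x x j)) * H x = H x * ∑ j, _
    rw [Finset.sum_mul, Finset.mul_sum, ← Finset.sum_add_distrib]
    refine Finset.sum_congr rfl fun j _ => ?_
    rw [smul_mul_assoc, mul_smul_comm]
    exact (smul_add (a j) (dmap (𝓡∂ n) H x (coordVec (𝓡∂ n) x x j) : EndF N)
      (Q.A.form x (coordVec (𝓡∂ n) x x j) * H x : EndF N)).symm.trans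
      (congrArg (fun T : EndF N => a j • T) (key j))
  · -- unitarity
    intro x hxW
    have hadj : Continuous (fun T : EndF N => star T) := by
      have h : Continuous (fun T : EndF N => ContinuousLinearMap.adjoint T) :=
        ContinuousLinearMap.adjoint.continuous
      exact h
    have e1 : star (H x) * H x = 1 := by
      refine cTensor_lim (f := fun m => star (H m) * H m) (g := fun _ => (1 : EndF N)) (hd x)
        (hW₀.mem_nhds hxW) ((hadj.continuousAt.comp (hHc x hxW)).mul (hHc x hxW))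
        continuousAt_const ?_
      intro m hm hmi
      obtain ⟨O, hmO, hO⟩ := hL m ⟨hm, hmi⟩
      exact (Unitary.mem_iff.1 (hO.unit m hmO)).1
    have e2 : H x * star (H x) = 1 := by
      refine cTensor_lim (f := fun m => H m * star (H m)) (g := fun _ => (1 : EndF N)) (hd x)
        (hW₀.mem_nhds hxW) ((hHc x hxW).mul (hadj.continuousAt.comp (hHc x hxW)))
        continuousAt_const ?_
      intro m hm hmi
      obtain ⟨O, hmO, hO⟩ := hL m ⟨hm, hmi⟩
      exact (Unitary.mem_iff.1 (hO.unit m hmO)).2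
    exact Unitary.mem_iff.2 ⟨e1, e2⟩
  · -- solutions
    intro u hu x hxW
    obtain ⟨f₁, f₂, hf, hu1, hu2⟩ := hu
    have c1 : Continuous u.1 := hu1.smooth.continuous
    have c2 : Continuous u.2 := hu2.smooth.continuous
    refine cTensor_lim (f := fun m => u.2 m) (g := fun m => H m (u.1 (F m))) (hd x)
      (hW₀.mem_nhds hxW) c2.continuousAt
      ((hHc x hxW).clm_apply (c1.continuousAt.comp (hFc x hxW))) ?_
    intro m hm hmi
    obtain ⟨O, hmO, hO⟩ := hL m ⟨hm, hmi⟩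
    exact hO.sol u ⟨f₁, f₂, hf, hu1, hu2⟩ m hmO

end Vale.Agent.P088.TM
end
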