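import Vale.Agent.P088.TM.Data

/-!
# P088: two manifolds, the main theorem in abstract form
-/

open Bundle Manifold MeasureTheory Set Filter Topology
open scoped ContDiff

noncomputable section

namespace Vale.Agent.P088.TM

open Vale.Agent.P088 Vale.Agent.P088.EYM

universe u

set_option linter.all false

section

variable {n N : ℕ} [NeZero n] {M₁ M₂ : Type u}
  [TopologicalSpace M₁] [ChartedSpace (EuclideanHalfSpace n) M₁] [IsManifold (𝓡∂ n) ∞ M₁]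
  [TopologicalSpace M₂] [ChartedSpace (EuclideanHalfSpace n) M₂] [IsManifold (𝓡∂ n) ∞ M₂]

/-- The connection `U⁻¹ (Φ^* A) U + U⁻¹ dU` on `M₂`, for `Φ : M₂ → M₁`. -/
def gf2 (A : Connection (𝓡∂ n) N M₁) (Φ : M₂ → M₁) (U : M₂ → EndF N) (x : M₂)
    (v : TangentSpace (𝓡∂ n) x) : EndF N :=
  ContinuousLinearMap.adjoint (U x) ∘L (A.form (Φ x) (mfderiv (𝓡∂ n) (𝓡∂ n) Φ x v)) ∘L (U x) +
    ContinuousLinearMap.adjoint (U x) ∘L (dmap (𝓡∂ n) U x v)

variable [MeasurableSpace M₁] [MeasurableSpace M₂]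

/-- The conclusion of the theorem for two manifolds. -/
def GE2 (P : One n N M₁) (Q : One n N M₂) (G : Gl M₁ M₂) : Prop :=
  ∃ (Φ : Diffeomorph (𝓡∂ n) (𝓡∂ n) M₂ M₁ ∞) (U : M₂ → EndF N),
    IsSmoothUnitary (𝓡∂ n) U ∧ (∀ x ∈ G.Γ₂, Φ x = G.ψ x ∧ U x = 1) ∧
    (∀ (x : M₂) (v w : TangentSpace (𝓡∂ n) x), Q.g.inner x v w =
      P.g.inner (Φ x) (mfderiv (𝓡∂ n) (𝓡∂ n) Φ x v) (mfderiv (𝓡∂ n) (𝓡∂ n) Φ x w)) ∧
    (∀ (x : M₂) (v : TangentSpace (𝓡∂ n) x), Q.A.form x v = gf2 P.A Φ U x v) ∧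
    ∀ u ∈ PP P Q G, ∀ x, u.1 (Φ x) = U x (u.2 x)

theorem cMain_congr {P : One n N M₁} {Q : One n N M₂} {G : Gl M₁ M₂} {O : Set M₂}
    {Φ F : M₂ → M₁} {V H : M₂ → EndF N}
    (h : LMatch P Q G O Φ V) (hF : EqOn F Φ O) (hG : EqOn H V O) : LMatch P Q G O F H := by
  have hinn : ∀ (y y' : M₁) (_ : y = y') (a b : E n), P.g.inner y a b = P.g.inner y' a b := by
    rintro y _ rfl a b
    rfl
  have hfor : ∀ (y y' : M₁) (_ : y = y') (a : E n), P.A.form y a = P.A.form y' a := by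
    rintro y _ rfl a
    rfl
  have hdF : ∀ x ∈ O, ∀ v : TangentSpace (𝓡∂ n) x,
      (mfderiv (𝓡∂ n) (𝓡∂ n) F x v : E n) = (mfderiv (𝓡∂ n) (𝓡∂ n) Φ x v : E n) := by
    intro x hx v
    have h1 : F =ᶠ[𝓝 x] Φ := Filter.eventuallyEq_of_mem (h.isOpen.mem_nhds hx) hF
    exact DFunLike.congr_fun h1.mfderiv_eq v
  have hdG : ∀ x ∈ O, ∀ v : TangentSpace (𝓡∂ n) x,
      dmap (𝓡∂ n) H x v = dmap (𝓡∂ n) V x v := by
    intro x hx v
    have h1 : H =ᶠ[𝓝 x] V := Filter.eventuallyEq_of_mem (h.isOpen.mem_nhds hx) hG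
    exact DFunLike.congr_fun h1.mfderiv_eq v
  refine ⟨h.isOpen, h.sub, ?_, ?_, ?_, ?_, ?_, ?_, ?_⟩
  · intro x hx
    rw [hF hx]
    exact h.maps hx
  · exact h.smφ.congr hF
  · exact h.smV.congr hG
  · intro x hx
    rw [hG hx]
    exact h.unit x hx
  · intro x hx v w
    rw [h.met x hx v w]
    refine (hinn (Φ x) (F x) (hF hx).symm _ _).trans ?_
    exact congrArg₂ (fun a b : E n => P.g.inner (F x) a b) (hdF x hx v).symm (hdF x hx w).symm
  · intro x hx v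
    rw [hdG x hx v, hG hx, h.con x hx v]
    refine congrArg (fun T : EndF N => V x ∘L T) ?_
    refine (hfor (Φ x) (F x) (hF hx).symm _).trans ?_
    exact congrArg (fun a : E n => P.A.form (F x) a) (hdF x hx v).symm
  · intro u hu x hx
    rw [hG hx, hF hx]
    exact h.sol u hu x hx

/-- the connection -/
theorem cMain_conn [T2Space M₂] [CompactSpace M₂] [ConnectedSpace M₂] [BorelSpace M₂]
    (P : One n N M₁) (Q : One n N M₂) (F : Diffeomorph (𝓡∂ n) (𝓡∂ n) M₂ M₁ ∞)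
    {H : M₂ → EndF N} (hG : IsSmoothUnitary (𝓡∂ n) H)
    (h : ∀ (x : M₂) (v : TangentSpace (𝓡∂ n) x),
      dmap (𝓡∂ n) H x v + Q.A.form x v ∘L H x =
        H x ∘L P.A.form (F x) (mfderiv (𝓡∂ n) (𝓡∂ n) F x v)) (x : M₂)
    (v : TangentSpace (𝓡∂ n) x) :
    Q.A.form x v = gf2 P.A F (fun x => ContinuousLinearMap.adjoint (H x)) x v := by
  have h1 := h x v
  have h2 : dmap (𝓡∂ n) (fun x => ContinuousLinearMap.adjoint (H x)) x v =
      ContinuousLinearMap.adjoint (dmap (𝓡∂ n) H x v) := dI_adj hG.smooth x v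
  have h3 : H x * ContinuousLinearMap.adjoint (dmap (𝓡∂ n) H x v) +
      dmap (𝓡∂ n) H x v * ContinuousLinearMap.adjoint (H x) = 0 := d_uni_right hG x v
  have h4 : H x * ContinuousLinearMap.adjoint (H x) = 1 := uni_right hG x
  unfold gf2
  rw [h2, ContinuousLinearMap.adjoint_adjoint]
  have h5 : dmap (𝓡∂ n) H x v + Q.A.form x v * H x =
      H x * P.A.form (F x) (mfderiv (𝓡∂ n) (𝓡∂ n) F x v) := h1
  have h6 : Q.A.form x v = H x * (P.A.form (F x) (mfderiv (𝓡∂ n) (𝓡∂ n) F x v) *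
      ContinuousLinearMap.adjoint (H x)) +
      H x * ContinuousLinearMap.adjoint (dmap (𝓡∂ n) H x v) := by
    generalize P.A.form (F x) (mfderiv (𝓡∂ n) (𝓡∂ n) F x v) = a at h5
    generalize ContinuousLinearMap.adjoint (dmap (𝓡∂ n) H x v) = dg' at h3
    generalize dmap (𝓡∂ n) H x v = dg at h3 h5
    generalize ContinuousLinearMap.adjoint (H x) = g' at h3 h4
    generalize Q.A.form x v = q at h5
    generalize H x = g at h3 h4 h5
    have e1 : q * g = g * a - dg := eq_sub_of_add_eq' h5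
    have e2 : g * dg' = - (dg * g') := eq_neg_of_add_eq_zero_left h3
    calc q = q * (g * g') := by rw [h4, mul_one]
      _ = (q * g) * g' := (mul_assoc _ _ _).symm
      _ = g * (a * g') + - (dg * g') := by
          rw [e1, sub_mul, mul_assoc, sub_eq_add_neg]
      _ = g * (a * g') + g * dg' := by rw [e2]
  exact h6

end

/-- The main theorem in abstract form. -/
def CMain_statement : Prop :=
  ∀ (n N : ℕ) [NeZero n] (M₁ M₂ : Type u)
    [TopologicalSpace M₁] [ChartedSpace (EuclideanHalfSpace n) M₁]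
    [IsManifold (𝓡∂ n) ∞ M₁] [T2Space M₁] [CompactSpace M₁] [ConnectedSpace M₁] [MeasurableSpace M₁]
    [BorelSpace M₁] [TopologicalSpace M₂] [ChartedSpace (EuclideanHalfSpace n) M₂]
    [IsManifold (𝓡∂ n) ∞ M₂] [T2Space M₂] [CompactSpace M₂] [ConnectedSpace M₂] [MeasurableSpace M₂]
    [BorelSpace M₂] (P : One n N M₁) (Q : One n N M₂) (G : Gl M₁ M₂) (κ₁ κ₂ α β : ℝ),
    3 ≤ n → 0 < N → G.Ok n N → SameD P Q G → EYMm κ₁ α β P.g P.A → EYMm κ₂ α β Q.g Q.A →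
    κ₁ = κ₂ ∧ GE2 P Q G

theorem cMain : CGlobal_statement.{u} → CDiff_statement.{u} → CTensor_statement.{u} →
    CConn_statement.{u} → CData_statement.{u} → CMain_statement.{u} := by
  intro hGl hDi hTe hCo hDa n N _ M₁ M₂ _ _ _ _ _ _ _ _ _ _ _ _ _ _ _ _ P Q G κ₁ κ₂ α β hn hN hG
    hS hE₁ hE₂
  obtain ⟨hκ, Φ, Ψ, V, V', hm, hm', hinv, hinv'⟩ := hGl n N M₁ M₂ P Q G κ₁ κ₂ α β hn hN hG hS hE₁ hE₂
  refine ⟨hκ, ?_⟩
  obtain ⟨F, H, hH, hFG⟩ := hDi n N M₁ M₂ P Q G Φ Ψ V V' hm hm' hinv hinv'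
  have hLM : ∀ x ∈ Mi n M₂, ∃ O, x ∈ O ∧ LMatch P Q G O F H := by
    intro x hx
    obtain ⟨O, hxO, h⟩ := hm x hx
    exact ⟨O, hxO, cMain_congr h (fun y hy => (hFG y (h.sub hy)).1)
      fun y hy => (hFG y (h.sub hy)).2⟩
  obtain ⟨hmet, hcon, huni, hsol⟩ := hTe n N M₁ M₂ P Q G F H hH hLM
  obtain ⟨⟨hP, hQ, -⟩, -⟩ := hDa n N M₁ M₂ P Q G hG hS
  obtain ⟨hIo, -, -⟩ := hCo n M₁
  have hbd : IsClosed ((𝓡∂ n).boundary M₁) := by
    rw [← ModelWithCorners.compl_interior]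
    exact hIo.isClosed_compl
  have hGu : IsSmoothUnitary (𝓡∂ n) H := ⟨hH, huni⟩
  have hFbd : ∀ p ∈ (𝓡∂ n).boundary M₂, F p ∈ (𝓡∂ n).boundary M₁ := by
    intro p hp
    rw [← ModelWithCorners.compl_interior] at hp ⊢
    intro h
    obtain ⟨O, hO, hLO⟩ := hm' (F p) h
    have h1 : Ψ (F p) ∈ Mi n M₂ := hLO.maps hO
    have h2 : F (Ψ (F p)) = F p := by
      rw [(hFG _ h1).1]
      exact hinv _ h
    have h3 := F.injective h2
    rw [h3] at h1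
    exact hp h1
  have key : ∀ p ∈ G.Γ₂, ∀ (f₁ : M₁ → Fib N) (f₂ : M₂ → Fib N), MD n G f₁ f₂ →
      f₂ p = H p (f₁ (F p)) := by
    intro p hp f₁ f₂ hf
    obtain ⟨u₁, hu₁⟩ := hP f₁ hf.h₁
    obtain ⟨u₂, hu₂⟩ := hQ f₂ hf.h₂
    have hpb : p ∈ (𝓡∂ n).boundary M₂ := sub_bd hG.rel₂ hp
    have h1 := hsol (u₁, u₂) ⟨f₁, f₂, hf, hu₁, hu₂⟩ p
    have h2 := hu₂.boundary p hpb
    have h3 := hu₁.boundary (F p) (hFbd p hpb)
    rw [← h2, ← h3]
    exact h1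
  have hfix : ∀ p ∈ G.Γ₂, F p = G.ψ p := by
    intro p hp
    by_contra hne
    obtain ⟨f, hf, hfp, hf0⟩ := cMain_bump (N := N) hbd hG.rel₁ (hG.maps hp) (V := {F p}ᶜ)
      isClosed_singleton.isOpen_compl (fun h => hne (mem_singleton_iff.1 h).symm)
      (EuclideanSpace.single (⟨0, hN⟩ : Fin N) (1 : ℂ))
    obtain ⟨f₂, hf₂, hff⟩ := hG.ext f hf
    have h1 := key p hp f f₂ ⟨hf, hf₂, hff⟩
    rw [hff p hp, hfp, hf0 (F p) (fun h => h rfl), map_zero] at h1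
    have h2 : (EuclideanSpace.single (⟨0, hN⟩ : Fin N) (1 : ℂ) : Fib N) ⟨0, hN⟩ = 0 := by
      rw [h1]
      rfl
    simp at h2
  have hone : ∀ p ∈ G.Γ₂, H p = 1 := by
    intro p hp
    refine ContinuousLinearMap.ext fun e => ?_
    obtain ⟨f, hf, hfp, -⟩ := cMain_bump (N := N) hbd hG.rel₁ (hG.maps hp) isOpen_univ
      (mem_univ _) e
    obtain ⟨f₂, hf₂, hff⟩ := hG.ext f hf
    have h1 := key p hp f f₂ ⟨hf, hf₂, hff⟩
    rw [hff p hp, hfix p hp, hfp] at h1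
    exact h1.symm
  refine ⟨F, fun x => ContinuousLinearMap.adjoint (H x),
    ⟨contMDiff_adj hH, fun x => Unitary.star_mem (huni x)⟩, fun x hx => ⟨hfix x hx, ?_⟩, hmet,
    cMain_conn P Q F hGu hcon, fun u hu x => ?_⟩
  · show ContinuousLinearMap.adjoint (H x) = 1
    rw [hone x hx]
    exact star_one (EndF N)
  · show u.1 (F x) = ContinuousLinearMap.adjoint (H x) (u.2 x)
    rw [hsol u hu x]
    have h4 : ContinuousLinearMap.adjoint (H x) * H x = 1 := (Unitary.mem_iff.1 (huni x)).1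
    have h5 := congrArg (fun T : EndF N => T (u.1 (F x))) h4
    exact h5.symm

end Vale.Agent.P088.TM
end
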