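import Vale.Agent.P088.TM.H275N
import Vale.Agent.P088.TM.H823
import Vale.Agent.P088.TM.Main
import Mathlib.Geometry.Manifold.PartitionOfUnity

/-!
# P088, two manifolds: naturality of the energy, gauge invariance of the data, uniqueness
-/

set_option linter.all false

open Bundle Manifold MeasureTheory Set Filter Topology
open scoped ContDiff

noncomputable section

namespace Vale.Agent.P088.TM

open Vale.Agent.P088 Vale.Agent.P088.EYM

universe u

section Tr

variable {n : ℕ} [NeZero n] {M M' : Type u}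
  [TopologicalSpace M] [ChartedSpace (EuclideanHalfSpace n) M] [IsManifold (𝓡∂ n) ∞ M]
  [TopologicalSpace M'] [ChartedSpace (EuclideanHalfSpace n) M'] [IsManifold (𝓡∂ n) ∞ M']

variable (n) in
/-- the domain of a map in charts -/
def trDom (f : M → M') (q : M) (q' : M') : Set (E n) :=
  tg n q ∩ (xc n q).symm ⁻¹' (f ⁻¹' (xc n q').source)

variable (n) in
/-- a map in charts -/
def trMap (f : M → M') (q : M) (q' : M') : E n → E n :=
  fun y => xc n q' (f ((xc n q).symm y))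

theorem trDom_rel [MeasurableSpace M] {f : M → M'} (hf : Continuous f) (q : M) (q' : M') :
    RelOpen (trDom n f q q') := by
  have hO : IsOpen (f ⁻¹' (xc n q').source) := (isOpen_extChartAt_source q').preimage hf
  obtain ⟨U, hU, h1⟩ := continuousOn_iff'.1
    (continuousOn_extChartAt_symm (I := 𝓡∂ n) q) _ hO
  have h2 : trDom n f q q' = U ∩ tg n q := by
    rw [← h1]
    unfold trDom
    rw [inter_comm]
  rw [h2]
  exact ((fLoc n 0 M).1 q).univ_inter hU

theorem trMap_smooth {f : M → M'} (hf : ContMDiff (𝓡∂ n) (𝓡∂ n) ∞ f) (q : M) (q' : M') :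
    ContDiffOn ℝ ∞ (trMap n f q q') (trDom n f q q') := by
  rw [← contMDiffOn_iff_contDiffOn]
  have h1 : ContMDiffOn 𝓘(ℝ, E n) (𝓡∂ n) ∞ (xc n q).symm (trDom n f q q') :=
    (contMDiffOn_extChartAt_symm q).mono inter_subset_left
  have h2 : ContMDiffOn 𝓘(ℝ, E n) (𝓡∂ n) ∞ (fun y => f ((xc n q).symm y)) (trDom n f q q') :=
    hf.comp_contMDiffOn h1
  exact (contMDiffOn_extChartAt (I := 𝓡∂ n) (x := q') (n := ∞)).comp h2 fun y hy => by
    rw [← extChartAt_source (𝓡∂ n)]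
    exact hy.2

theorem trMap_symm {f : M → M'} (q : M) (q' : M') {y : E n} (hy : y ∈ trDom n f q q') :
    (xc n q').symm (trMap n f q q' y) = f ((xc n q).symm y) :=
  (xc n q').left_inv hy.2

theorem trMap_maps {f : M → M'} {g : M' → M} (hgf : ∀ x, g (f x) = x) (q : M) (q' : M')
    {y : E n} (hy : y ∈ trDom n f q q') : trMap n f q q' y ∈ trDom n g q' q := by
  refine ⟨(xc n q').map_source hy.2, ?_⟩
  show g ((xc n q').symm (trMap n f q q' y)) ∈ (xc n q).source
  rw [trMap_symm q q' hy, hgf]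
  exact (xc n q).map_target hy.1

theorem trMap_inv {f : M → M'} {g : M' → M} (hgf : ∀ x, g (f x) = x) (q : M) (q' : M')
    {y : E n} (hy : y ∈ trDom n f q q') : trMap n g q' q (trMap n f q q' y) = y := by
  show xc n q (g ((xc n q').symm (trMap n f q q' y))) = y
  rw [trMap_symm q q' hy, hgf, (xc n q).right_inv hy.1]

theorem trMap_diffeo {f : M → M'} {g : M' → M} (hf : ContMDiff (𝓡∂ n) (𝓡∂ n) ∞ f)
    (hg : ContMDiff (𝓡∂ n) (𝓡∂ n) ∞ g) (hgf : ∀ x, g (f x) = x) (hfg : ∀ x, f (g x) = x)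
    (q : M) (q' : M') :
    IsDiffeo (trDom n f q q') (trDom n g q' q) (trMap n f q q') (trMap n g q' q) where
  mapsX := fun x hx => trMap_maps hgf q q' hx
  mapsY := fun x hx => trMap_maps hfg q' q hx
  inv1 := fun x hx => trMap_inv hgf q q' hx
  inv2 := fun x hx => trMap_inv hfg q' q hx
  smX := trMap_smooth hf q q'
  smY := trMap_smooth hg q' q

/-- a diffeomorphism maps the interior into the interior -/
theorem diffeo_interior [MeasurableSpace M] [MeasurableSpace M'] {f : M → M'} {g : M' → M}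
    (hf : ContMDiff (𝓡∂ n) (𝓡∂ n) ∞ f)
    (hg : ContMDiff (𝓡∂ n) (𝓡∂ n) ∞ g) (hgf : ∀ x, g (f x) = x) (hfg : ∀ x, f (g x) = x)
    {x : M} (hx : x ∈ Mi n M) : f x ∈ Mi n M' := by
  obtain ⟨h1, -, h3, -⟩ := fLoc n 0 M
  obtain ⟨h1', -, h3', -⟩ := fLoc n 0 M'
  have hxs : x ∈ (xc n x).source := mem_extChartAt_source x
  have hfs : f x ∈ (xc n (f x)).source := mem_extChartAt_source (f x)
  have hp := cUnm_pos h1 h3 hxs hx
  have hs : (xc n x).symm (xc n x x) = x := (xc n x).left_inv hxs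
  have hxD : xc n x x ∈ trDom n f x (f x) := by
    refine ⟨(xc n x).map_source hxs, ?_⟩
    show f ((xc n x).symm (xc n x x)) ∈ (xc n (f x)).source
    rw [hs]
    exact hfs
  have h4 := bIntr n _ _ _ _ (trDom_rel hf.continuous x (f x)) (trDom_rel hg.continuous (f x) x)
    (trMap_diffeo hf hg hgf hfg x (f x)) _ hxD hp
  have h5 : trMap n f x (f x) (xc n x x) = xc n (f x) (f x) := by
    show xc n (f x) (f ((xc n x).symm (xc n x x))) = _
    rw [hs]
  rw [h5] at h4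
  have h6 : f x ∉ (𝓡∂ n).boundary M' := fun hb => h4.ne' ((h3' (f x) (f x) hfs).1 hb)
  rcases (𝓡∂ n).isInteriorPoint_or_isBoundaryPoint (f x) with h | h
  · exact h
  · exact absurd h h6

theorem diffeo_boundary [MeasurableSpace M] [MeasurableSpace M'] {f : M → M'} {g : M' → M}
    (hf : ContMDiff (𝓡∂ n) (𝓡∂ n) ∞ f)
    (hg : ContMDiff (𝓡∂ n) (𝓡∂ n) ∞ g) (hgf : ∀ x, g (f x) = x) (hfg : ∀ x, f (g x) = x)
    {x : M} (hx : x ∈ (𝓡∂ n).boundary M) : f x ∈ (𝓡∂ n).boundary M' := by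
  rw [← ModelWithCorners.compl_interior] at hx ⊢
  intro h
  have h1 := diffeo_interior hg hf hfg hgf h
  rw [hgf] at h1
  exact hx h1

end Tr

section Rel

variable {n N : ℕ} [NeZero n] {M₁ M₂ : Type u}
  [TopologicalSpace M₁] [ChartedSpace (EuclideanHalfSpace n) M₁] [IsManifold (𝓡∂ n) ∞ M₁]
  [TopologicalSpace M₂] [ChartedSpace (EuclideanHalfSpace n) M₂] [IsManifold (𝓡∂ n) ∞ M₂]
  [MeasurableSpace M₁] [MeasurableSpace M₂]

/-- The relations of a diffeomorphism `F : M₂ → M₁` and a gauge `H`. -/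
structure Rel2 (P : One n N M₁) (Q : One n N M₂) (F : Diffeomorph (𝓡∂ n) (𝓡∂ n) M₂ M₁ ∞)
    (H : M₂ → EndF N) : Prop where
  sm : ContMDiff (𝓡∂ n) 𝓘(ℝ, EndF N) ∞ H
  unit : ∀ x, H x ∈ unitary (EndF N)
  met : ∀ (x : M₂) (v w : TangentSpace (𝓡∂ n) x), Q.g.inner x v w =
      P.g.inner (F x) (mfderiv (𝓡∂ n) (𝓡∂ n) F x v) (mfderiv (𝓡∂ n) (𝓡∂ n) F x w)
  con : ∀ (x : M₂) (v : TangentSpace (𝓡∂ n) x),
      dmap (𝓡∂ n) H x v + Q.A.form x v ∘L H x =
        H x ∘L P.A.form (F x) (mfderiv (𝓡∂ n) (𝓡∂ n) F x v)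

variable {P : One n N M₁} {Q : One n N M₂} {F : Diffeomorph (𝓡∂ n) (𝓡∂ n) M₂ M₁ ∞}
  {H : M₂ → EndF N}

/-- the pull back in charts -/
theorem natPull (h : Rel2 P Q F H) (q₁ : M₁) (q₂ : M₂) :
    IsPull (Q.loc q₂) (P.loc q₁) (trDom n F q₂ q₁) (trDom n F.symm q₁ q₂) (trMap n F q₂ q₁)
      (trMap n F.symm q₁ q₂) (fun y => H ((xc n q₂).symm y)) := by
  have hFs : ContMDiff (𝓡∂ n) (𝓡∂ n) ∞ F := F.contMDiff
  have hbs : ∀ y ∈ trDom n F q₂ q₁, (xc n q₂).symm y ∈ (xc n q₂).source :=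
    fun y hy => (xc n q₂).map_target hy.1
  have hbr : ∀ y ∈ trDom n F q₂ q₁, xc n q₂ ((xc n q₂).symm y) = y :=
    fun y hy => (xc n q₂).right_inv hy.1
  have hbl : ∀ y ∈ trDom n F q₂ q₁, (xc n q₁).symm (xc n q₁ (F ((xc n q₂).symm y))) =
      F ((xc n q₂).symm y) := fun y hy => (xc n q₁).left_inv hy.2
  refine
    { diffeo := trMap_diffeo hFs F.symm.contMDiff F.symm_apply_apply F.apply_symm_apply q₂ q₁
      smS := ?_
      unit := ?_
      g_eq := ?_
      B_eq := ?_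
      h_eq := ?_ }
  · rw [← contMDiffOn_iff_contDiffOn]
    exact h.sm.comp_contMDiffOn ((contMDiffOn_extChartAt_symm q₂).mono inter_subset_left)
  · intro x hx
    exact Unitary.isUnit_coe (U := ⟨_, h.unit _⟩)
  · intro y hy
    obtain ⟨hder, -⟩ := cChart n M₁ M₂ univ F isOpen_univ hFs.contMDiffOn q₁ q₂
      ((xc n q₂).symm y) (mem_univ _) (hbs y hy) hy.2
    rw [hbr y hy] at hder
    have hg : (P.loc q₁).g (xc n q₁ (F ((xc n q₂).symm y))) =
        gram P.g q₁ (F ((xc n q₂).symm y)) := by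
      change gram P.g q₁ ((xc n q₁).symm (xc n q₁ (F ((xc n q₂).symm y)))) = _
      rw [hbl y hy]
    show (Q.loc q₂).g y = (Jac (fun y => xc n q₁ (F ((xc n q₂).symm y))) y).transpose *
      (P.loc q₁).g (xc n q₁ (F ((xc n q₂).symm y))) *
      Jac (fun y => xc n q₁ (F ((xc n q₂).symm y))) y
    rw [hg]
    change gram Q.g q₂ ((xc n q₂).symm y) = _
    ext i j
    have hm := h.met _ (coordVec (𝓡∂ n) q₂ ((xc n q₂).symm y) i)
      (coordVec (𝓡∂ n) q₂ ((xc n q₂).symm y) j)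
    rw [hder i, hder j, cUnm_jac_expand] at hm
    change Q.g.inner ((xc n q₂).symm y) (coordVec (𝓡∂ n) q₂ ((xc n q₂).symm y) i)
      (coordVec (𝓡∂ n) q₂ ((xc n q₂).symm y) j) = _
    rw [hm, Matrix.mul_apply]
    refine Finset.sum_congr rfl fun l _ => ?_
    rw [Matrix.mul_apply]
    rfl
  · intro y hy j
    obtain ⟨hder, -⟩ := cChart n M₁ M₂ univ F isOpen_univ hFs.contMDiffOn q₁ q₂
      ((xc n q₂).symm y) (mem_univ _) (hbs y hy) hy.2
    rw [hbr y hy] at hder
    have hV : MDifferentiableAt (𝓡∂ n) 𝓘(ℝ, EndF N) H ((xc n q₂).symm y) :=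
      (h.sm.contMDiffAt).mdifferentiableAt (by simp)
    have hd := dmap_coordVec (𝓡∂ n) (hbs y hy) hV j
    rw [hbr y hy, cUnm_range] at hd
    have hm := h.con _ (coordVec (𝓡∂ n) q₂ ((xc n q₂).symm y) j)
    rw [hd, hder j] at hm
    have hs : P.A.form (F ((xc n q₂).symm y))
        (∑ k, Jac (fun y => xc n q₁ (F ((xc n q₂).symm y))) y k j •
          coordVec (𝓡∂ n) q₁ (F ((xc n q₂).symm y)) k) =
        ∑ k, Jac (fun y => xc n q₁ (F ((xc n q₂).symm y))) y k j •
          (P.loc q₁).B k (xc n q₁ (F ((xc n q₂).symm y))) := by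
      refine (map_sum (P.A.form (F ((xc n q₂).symm y))) _ _).trans
        (Finset.sum_congr rfl fun k _ => ?_)
      refine (map_smul (P.A.form (F ((xc n q₂).symm y))) _ _).trans ?_
      congr 1
      change _ = P.A.form ((xc n q₁).symm (xc n q₁ (F ((xc n q₂).symm y))))
        (coordVec (𝓡∂ n) q₁ ((xc n q₁).symm (xc n q₁ (F ((xc n q₂).symm y)))) k)
      rw [hbl y hy]
    rw [hs] at hm
    exact hm
  · intro y hy
    show ContinuousLinearMap.adjoint (H ((xc n q₂).symm y)) * (1 : EndF N) *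
      H ((xc n q₂).symm y) = 1
    rw [mul_one]
    exact (Unitary.mem_iff.1 (h.unit _)).1

/-- the pull back of a section -/
def pb (F : M₂ → M₁) (H : M₂ → EndF N) (u : M₁ → Fib N) : M₂ → Fib N := fun x => H x (u (F x))

omit [MeasurableSpace M₁] [MeasurableSpace M₂] in
theorem pb_smooth {F : M₂ → M₁} (hF : ContMDiff (𝓡∂ n) (𝓡∂ n) ∞ F)
    (hH : ContMDiff (𝓡∂ n) 𝓘(ℝ, EndF N) ∞ H) {u : M₁ → Fib N} (hu : SmS n u) :
    SmS n (pb F H u) := by
  have h1 : ContMDiff (𝓡∂ n) 𝓘(ℝ, Fib N) ∞ (fun x => u (F x)) := hu.comp hF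
  have h2 : ContDiff ℝ ∞ (fun p : EndF N × Fib N => p.1 p.2) := by
    have h3 : IsBoundedBilinearMap ℝ fun p : EndF N × Fib N => p.1 p.2 :=
      { add_left := fun a b c => rfl
        smul_left := fun c a b => rfl
        add_right := fun a b c => map_add a b c
        smul_right := fun c a b => ContinuousLinearMap.map_smul_of_tower a c b
        bound := ⟨1, one_pos, fun a b => by rw [one_mul]; exact a.le_opNorm b⟩ }
    exact h3.contDiff
  exact h2.contMDiff.comp (hH.prodMk_space h1)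

variable [T2Space M₁] [CompactSpace M₁] [BorelSpace M₁]
  [T2Space M₂] [CompactSpace M₂] [BorelSpace M₂]

/-- naturality of the energy, local form -/
theorem natE_loc (h : Rel2 P Q F H) (q₁ : M₁) (q₂ : M₂) {u w : M₁ → Fib N} (hu : SmS n u)
    (hw : SmS n w) (hs : tsupport w ⊆ (xc n q₁).source ∩ F.symm ⁻¹' (xc n q₂).source) :
    Q.E (pb F H u) (pb F H w) = P.E u w := by
  have hFs : ContMDiff (𝓡∂ n) (𝓡∂ n) ∞ F := F.contMDiff
  have hD₁ : RelOpen (trDom n F.symm q₁ q₂) := trDom_rel F.symm.contMDiff.continuous q₁ q₂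
  have hD₂ : RelOpen (trDom n F q₂ q₁) := trDom_rel hFs.continuous q₂ q₁
  have hpull := natPull h q₁ q₂
  have hsu : tsupport w ⊆ (xc n q₁).symm '' (trDom n F.symm q₁ q₂) := by
    intro x hx
    obtain ⟨h1, h2⟩ := hs hx
    have h3 : (xc n q₁).symm (xc n q₁ x) = x := (xc n q₁).left_inv h1
    refine ⟨xc n q₁ x, ⟨(xc n q₁).map_source h1, ?_⟩, h3⟩
    show F.symm ((xc n q₁).symm (xc n q₁ x)) ∈ (xc n q₂).source
    rw [h3]
    exact h2
  have hst : tsupport (pb F H w) ⊆ (xc n q₂).symm '' (trDom n F q₂ q₁) := by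
    have h1 : tsupport (pb F H w) ⊆ F ⁻¹' tsupport w := by
      refine closure_minimal ?_ ((isClosed_tsupport w).preimage hFs.continuous)
      intro x hx
      refine subset_tsupport _ ?_
      intro h2
      refine hx ?_
      show H x (w (F x)) = 0
      rw [h2, map_zero]
    intro x hx
    obtain ⟨h2, h3⟩ := hs (h1 hx)
    have h4 : x ∈ (xc n q₂).source := by
      have h5 : F.symm (F x) ∈ (xc n q₂).source := h3
      rwa [F.symm_apply_apply] at h5
    have h6 : (xc n q₂).symm (xc n q₂ x) = x := (xc n q₂).left_inv h4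
    refine ⟨xc n q₂ x, ⟨(xc n q₂).map_source h4, ?_⟩, h6⟩
    show F ((xc n q₂).symm (xc n q₂ x)) ∈ (xc n q₁).source
    rw [h6]
    exact h2
  have hok₁ : (P.loc q₁).Ok (trDom n F.symm q₁ q₂) :=
    cERel_okMono ((fLoc n N M₁).2.1 P q₁) inter_subset_left
  have hok₂ : (Q.loc q₂).Ok (trDom n F q₂ q₁) :=
    cERel_okMono ((fLoc n N M₂).2.1 Q q₂) inter_subset_left
  have hlu : ContDiffOn ℝ ∞ (lu (𝓡∂ n) q₁ u) (trDom n F.symm q₁ q₂) :=
    ((fLoc n N M₁).2.2.2 u hu q₁).mono inter_subset_left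
  have hlw : ContDiffOn ℝ ∞ (lu (𝓡∂ n) q₁ w) (trDom n F.symm q₁ q₂) :=
    ((fLoc n N M₁).2.2.2 w hw q₁).mono inter_subset_left
  rw [(fEn n N M₁ P q₁ _ hD₁ inter_subset_left).1 u w hu hw (Or.inr hsu),
    (fEn n N M₂ Q q₂ _ hD₂ inter_subset_left).1 _ _ (pb_smooth hFs h.sm hu)
      (pb_smooth hFs h.sm hw) (Or.inr hst),
    ← bEnergy n N (Q.loc q₂) (P.loc q₁) _ _ _ _ _ hD₂ hD₁ hok₂ hok₁ hpull _ _
      (hlu.of_le (by norm_cast)) (hlw.of_le (by norm_cast))]
  refine CRel1_En_congr hD₂ _ (fun y hy => ?_) (fun y hy => ?_)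
  · show H ((xc n q₂).symm y) (u (F ((xc n q₂).symm y))) =
      H ((xc n q₂).symm y) (u ((xc n q₁).symm (trMap n F q₂ q₁ y)))
    rw [trMap_symm q₂ q₁ hy]
  · show H ((xc n q₂).symm y) (w (F ((xc n q₂).symm y))) =
      H ((xc n q₂).symm y) (w ((xc n q₁).symm (trMap n F q₂ q₁ y)))
    rw [trMap_symm q₂ q₁ hy]

omit [T2Space M₁] [CompactSpace M₁] [BorelSpace M₁] [T2Space M₂] [CompactSpace M₂]
  [BorelSpace M₂] [MeasurableSpace M₁] [MeasurableSpace M₂] in
/-- decomposition of a section -/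
theorem sec_decomp [T2Space M₁] [CompactSpace M₁] {ι : Type u} (U : ι → Set M₁)
    (hU : ∀ i, IsOpen (U i)) (hcov : ∀ x, ∃ i, x ∈ U i) {w : M₁ → Fib N} (hw : SmS n w) :
    ∃ (s : Finset ι) (v : ι → M₁ → Fib N), (∀ i ∈ s, SmS n (v i) ∧ tsupport (v i) ⊆ U i) ∧
      w = ∑ i ∈ s, v i := by
  classical
  obtain ⟨t, ht⟩ := isCompact_univ.elim_finite_subcover U hU (fun x _ => by
    obtain ⟨i, hi⟩ := hcov x
    exact mem_iUnion_of_mem i hi)
  obtain ⟨f, hf⟩ := SmoothPartitionOfUnity.exists_isSubordinate (𝓡∂ n) (s := (univ : Set M₁))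
    isClosed_univ (fun i : t => U i) (fun i => hU i) (fun x hx => by
      obtain ⟨i, hi, hxi⟩ := mem_iUnion₂.1 (ht hx)
      exact mem_iUnion_of_mem ⟨i, hi⟩ hxi)
  refine ⟨t, fun i x => if h : i ∈ t then (f ⟨i, h⟩ x) • w x else 0, fun i hi => ?_, ?_⟩
  · have h1 : (fun x => if h : i ∈ t then (f ⟨i, h⟩ x) • w x else (0 : Fib N)) =
        fun x => (f ⟨i, hi⟩ x) • w x := by
      funext x
      rw [dif_pos hi]
    show SmS n (fun x => if h : i ∈ t then (f ⟨i, h⟩ x) • w x else (0 : Fib N)) ∧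
      tsupport (fun x => if h : i ∈ t then (f ⟨i, h⟩ x) • w x else (0 : Fib N)) ⊆ U i
    rw [h1]
    constructor
    · exact (f ⟨i, hi⟩).contMDiff.smul hw
    · refine (closure_mono ?_).trans (hf ⟨i, hi⟩)
      intro x hx h2
      refine hx ?_
      show (f ⟨i, hi⟩ x) • w x = 0
      have h3 : f ⟨i, hi⟩ x = 0 := h2
      rw [h3, zero_smul]
  · funext x
    rw [Finset.sum_apply]
    have h1 : ∑ i ∈ t, (if h : i ∈ t then (f ⟨i, h⟩ x) • w x else (0 : Fib N)) =
        ∑ i : t, (f i x) • w x := by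
      rw [← Finset.sum_attach, ← Finset.univ_eq_attach]
      refine Finset.sum_congr rfl fun i _ => ?_
      rw [dif_pos i.2]
    rw [h1, ← Finset.sum_smul]
    have h2 := f.sum_eq_one (mem_univ x)
    rw [finsum_eq_sum_of_fintype] at h2
    rw [h2, one_smul]

/-- naturality of the energy -/
theorem natE (h : Rel2 P Q F H) {u w : M₁ → Fib N} (hu : SmS n u) (hw : SmS n w) :
    Q.E (pb F H u) (pb F H w) = P.E u w := by
  classical
  have hFs : ContMDiff (𝓡∂ n) (𝓡∂ n) ∞ F := F.contMDiff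
  obtain ⟨s, v, hv, hwv⟩ := sec_decomp (n := n) (N := N)
    (fun x : M₁ => (xc n x).source ∩ F.symm ⁻¹' (xc n (F.symm x)).source)
    (fun x => (isOpen_extChartAt_source x).inter
      ((isOpen_extChartAt_source (F.symm x)).preimage F.symm.contMDiff.continuous))
    (fun x => ⟨x, mem_extChartAt_source x, mem_extChartAt_source (F.symm x)⟩) hw
  obtain ⟨p1, p2, -, -, -⟩ := fForm n N M₁ P
  obtain ⟨r1, r2, -, -, -⟩ := fForm n N M₂ Q
  have key : ∀ t : Finset M₁, t ⊆ s → SmS n (∑ i ∈ t, v i) ∧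
      Q.E (pb F H u) (pb F H (∑ i ∈ t, v i)) = P.E u (∑ i ∈ t, v i) := by
    intro t
    induction t using Finset.induction_on with
    | empty =>
      intro _
      have h0 : SmS n (0 : M₁ → Fib N) := contMDiff_const
      have h0' : SmS n (0 : M₂ → Fib N) := contMDiff_const
      have e1 : pb F H (0 : M₁ → Fib N) = (0 : ℂ) • (0 : M₂ → Fib N) := by
        funext x
        show H x 0 = (0 : ℂ) • (0 : Fib N)
        rw [map_zero, smul_zero]
      have e2 : P.E u 0 = 0 := by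
        have h3 := p2 0 u 0 hu h0
        rw [zero_smul, zero_mul] at h3
        exact h3
      rw [Finset.sum_empty]
      refine ⟨h0, ?_⟩
      rw [e1, r2 0 _ _ (pb_smooth hFs h.sm hu) h0', e2, zero_mul]
    | insert i t hi ih =>
      intro hts
      obtain ⟨k1, k2⟩ := ih ((Finset.subset_insert i t).trans hts)
      have his := hts (Finset.mem_insert_self i t)
      rw [Finset.sum_insert hi]
      have hvi := hv i his
      refine ⟨hvi.1.add k1, ?_⟩
      have e1 : pb F H (v i + ∑ i ∈ t, v i) = pb F H (v i) + pb F H (∑ i ∈ t, v i) := by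
        funext x
        show H x (v i (F x) + (∑ i ∈ t, v i) (F x)) = _
        rw [map_add]
        rfl
      rw [e1, r1 _ _ _ (pb_smooth hFs h.sm hu) (pb_smooth hFs h.sm hvi.1)
        (pb_smooth hFs h.sm k1), k2, natE_loc h i (F.symm i) hu hvi.1 hvi.2,
        p1 _ _ _ hu hvi.1 k1]
  have h1 := (key s Subset.rfl).2
  rw [← hwv] at h1
  exact h1

variable [ConnectedSpace M₁] [ConnectedSpace M₂]

/-- solutions are pulled back to solutions -/
theorem natHarm (h : Rel2 P Q F H) {f u : M₁ → Fib N} {f' : M₂ → Fib N} (hu : P.Harm f u)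
    (hf' : ∀ x ∈ (𝓡∂ n).boundary M₂, H x (f (F x)) = f' x) : Q.Harm f' (pb F H u) where
  smooth := pb_smooth F.contMDiff h.sm hu.smooth
  boundary := fun x hx => by
    have h1 : F x ∈ (𝓡∂ n).boundary M₁ := diffeo_boundary F.contMDiff F.symm.contMDiff
      F.symm_apply_apply F.apply_symm_apply hx
    show H x (u (F x)) = f' x
    rw [hu.boundary _ h1]
    exact hf' x hx
  weak := fun φ hφ hφ0 => by
    have hadj : ContMDiff (𝓡∂ n) 𝓘(ℝ, EndF N) ∞ (fun y => ContinuousLinearMap.adjoint (H (F.symm y))) :=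
      (contMDiff_adj h.sm).comp F.symm.contMDiff
    have hw : SmS n (pb F.symm (fun y => ContinuousLinearMap.adjoint (H (F.symm y))) φ) :=
      pb_smooth F.symm.contMDiff hadj hφ
    have e1 : pb F H (pb F.symm (fun y => ContinuousLinearMap.adjoint (H (F.symm y))) φ) = φ := by
      funext x
      show H x (ContinuousLinearMap.adjoint (H (F.symm (F x))) (φ (F.symm (F x)))) = φ x
      rw [F.symm_apply_apply]
      have h4 : H x * ContinuousLinearMap.adjoint (H x) = 1 := (Unitary.mem_iff.1 (h.unit x)).2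
      exact congrArg (fun T : EndF N => T (φ x)) h4
    have e2 := natE h hu.smooth hw
    rw [e1] at e2
    have e3 : P.E u (pb F.symm (fun y => ContinuousLinearMap.adjoint (H (F.symm y))) φ) = 0 :=
      hu.weak _ hw fun y hy => by
        show ContinuousLinearMap.adjoint (H (F.symm y)) (φ (F.symm y)) = 0
        rw [hφ0 _ (diffeo_boundary F.symm.contMDiff F.contMDiff F.apply_symm_apply
          F.symm_apply_apply hy), map_zero]
    rw [e3] at e2
    exact e2

variable {G : Gl M₁ M₂}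

/-- a diffeomorphism which extends `ψ` and a gauge which is trivial on the patch intertwine the
solutions -/
theorem natSol (h : Rel2 P Q F H) (hG : G.Ok n N) (hbd : ∀ x ∈ G.Γ₂, F x = G.ψ x ∧ H x = 1)
    {u : (M₁ → Fib N) × (M₂ → Fib N)} (hu : u ∈ PP P Q G) (x : M₂) :
    u.2 x = H x (u.1 (F x)) := by
  obtain ⟨f₁, f₂, hf, hu1, hu2⟩ := hu
  have h1 : Q.Harm f₂ (pb F H u.1) := natHarm h hu1 fun x hx => by
    by_cases hxΓ : x ∈ G.Γ₂
    · obtain ⟨h2, h3⟩ := hbd x hxΓ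
      rw [h3, h2, hf.eq x hxΓ]
      rfl
    · have h2 : f₂ x = 0 := by
        by_contra hne
        exact hxΓ (hf.h₂.supp (subset_closure ⟨hx, hne⟩))
      have h3 : f₁ (F x) = 0 := by
        by_contra hne
        have h4 : F x ∈ (𝓡∂ n).boundary M₁ := diffeo_boundary F.contMDiff F.symm.contMDiff
          F.symm_apply_apply F.apply_symm_apply hx
        have h5 : F x ∈ G.Γ₁ := hf.h₁.supp (subset_closure ⟨h4, hne⟩)
        have h6 : G.χ (F x) ∈ G.Γ₂ := hG.maps' h5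
        have h7 : F (G.χ (F x)) = F x := by rw [(hbd _ h6).1, hG.inv' _ h5]
        have h8 := F.injective h7
        rw [h8] at h6
        exact hxΓ h6
      rw [h2, h3, map_zero]
  have h2 : u.2 = pb F H u.1 :=
    (fUniq n N M₂ Q (bne hG.rel₂ hG.ne₂)).1 f₂ f₂ _ _ hu2 h1 fun _ _ => rfl
  rw [h2]
  rfl

/-- gauge invariance of the data -/
theorem natSame (h : Rel2 P Q F H) (hG : G.Ok n N) (hbd : ∀ x ∈ G.Γ₂, F x = G.ψ x ∧ H x = 1)
    (hP : P.HasSol G.Γ₁) : SameD P Q G := by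
  have key : ∀ (f₁ : M₁ → Fib N) (f₂ : M₂ → Fib N), MD n G f₁ f₂ → ∀ u, P.Harm f₁ u →
      Q.Harm f₂ (pb F H u) := by
    intro f₁ f₂ hf u hu1
    refine natHarm h hu1 fun x hx => ?_
    by_cases hxΓ : x ∈ G.Γ₂
    · obtain ⟨h2, h3⟩ := hbd x hxΓ
      rw [h3, h2, hf.eq x hxΓ]
      rfl
    · have h2 : f₂ x = 0 := by
        by_contra hne
        exact hxΓ (hf.h₂.supp (subset_closure ⟨hx, hne⟩))
      have h3 : f₁ (F x) = 0 := by
        by_contra hne
        have h4 : F x ∈ (𝓡∂ n).boundary M₁ := diffeo_boundary F.contMDiff F.symm.contMDiff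
          F.symm_apply_apply F.apply_symm_apply hx
        have h5 : F x ∈ G.Γ₁ := hf.h₁.supp (subset_closure ⟨h4, hne⟩)
        have h6 : G.χ (F x) ∈ G.Γ₂ := hG.maps' h5
        have h7 : F (G.χ (F x)) = F x := by rw [(hbd _ h6).1, hG.inv' _ h5]
        have h8 := F.injective h7
        rw [h8] at h6
        exact hxΓ h6
      rw [h2, h3, map_zero]
  intro f₁ g₁ f₂ g₂ hf hg
  obtain ⟨u, hu⟩ := hP f₁ hf.h₁
  obtain ⟨v, hv⟩ := hP g₁ hg.h₁
  exact ⟨u, v, pb F H u, pb F H v, hu, hv, key _ _ hf u hu, key _ _ hg v hv,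
    (natE h hu.smooth hv.smooth).symm⟩

/-- uniqueness of the diffeomorphism and of the gauge -/
theorem natUniq (hn : 2 ≤ n) (hN : 0 < N) (hG : G.Ok n N) (hP : P.HasSol G.Γ₁)
    {F' : Diffeomorph (𝓡∂ n) (𝓡∂ n) M₂ M₁ ∞} {H' : M₂ → EndF N}
    (h : Rel2 P Q F H) (hbd : ∀ x ∈ G.Γ₂, F x = G.ψ x ∧ H x = 1)
    (h' : Rel2 P Q F' H') (hbd' : ∀ x ∈ G.Γ₂, F' x = G.ψ x ∧ H' x = 1) :
    ∀ x, F x = F' x ∧ H x = H' x := by
  have hS : SameD P Q G := natSame h hG hbd hP
  have hQ : Q.HasSol G.Γ₂ := (cData fUniq fForm n N M₁ M₂ P Q G hG hS).1.2.1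
  have hint : ∀ x ∈ Mi n M₂, F x = F' x ∧ H x = H' x := fun x hx =>
    cGlobal_uniq fRunge fConn hn hN hG hP hQ
      (diffeo_interior F.contMDiff F.symm.contMDiff F.symm_apply_apply F.apply_symm_apply hx)
      (diffeo_interior F'.contMDiff F'.symm.contMDiff F'.symm_apply_apply F'.apply_symm_apply hx)
      (h.unit x) fun u hu => by
        rw [← natSol h hG hbd hu x, natSol h' hG hbd' hu x]
  obtain ⟨-, -, hd⟩ := fConn n M₂
  have hFc : Continuous F := F.contMDiff.continuous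
  have hFc' : Continuous F' := F'.contMDiff.continuous
  intro x
  constructor
  · have h1 : IsClosed {y : M₂ | F y = F' y} := isClosed_eq hFc hFc'
    exact closure_minimal (fun y hy => (hint y hy).1) h1 (hd x)
  · have h1 : IsClosed {y : M₂ | H y = H' y} := isClosed_eq h.sm.continuous h'.sm.continuous
    exact closure_minimal (fun y hy => (hint y hy).2) h1 (hd x)

/-- The relations of the theorem: `g₂ = Φ^* g₁`, `A₂ = U⁻¹ (Φ^* A₁) U + U⁻¹ dU`, `Φ = ψ` and
`U = 1` on the patch. -/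
structure Geo (P : One n N M₁) (Q : One n N M₂) (G : Gl M₁ M₂)
    (Φ : Diffeomorph (𝓡∂ n) (𝓡∂ n) M₂ M₁ ∞) (U : M₂ → EndF N) : Prop where
  uni : IsSmoothUnitary (𝓡∂ n) U
  bd : ∀ x ∈ G.Γ₂, Φ x = G.ψ x ∧ U x = 1
  met : ∀ (x : M₂) (v w : TangentSpace (𝓡∂ n) x), Q.g.inner x v w =
      P.g.inner (Φ x) (mfderiv (𝓡∂ n) (𝓡∂ n) Φ x v) (mfderiv (𝓡∂ n) (𝓡∂ n) Φ x w)
  con : ∀ (x : M₂) (v : TangentSpace (𝓡∂ n) x), Q.A.form x v = gf2 P.A Φ U x v

theorem Geo.rel {U : M₂ → EndF N} (h : Geo P Q G F U) :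
    Rel2 P Q F (fun x => ContinuousLinearMap.adjoint (U x)) where
  sm := contMDiff_adj h.uni.smooth
  unit := fun x => Unitary.star_mem (h.uni.unitary x)
  met := h.met
  con := fun x v => by
    have h1 := h.con x v
    have h2 : dmap (𝓡∂ n) (fun x => ContinuousLinearMap.adjoint (U x)) x v =
        ContinuousLinearMap.adjoint (dmap (𝓡∂ n) U x v) := dI_adj h.uni.smooth x v
    have h3 : U x * ContinuousLinearMap.adjoint (dmap (𝓡∂ n) U x v) +
        dmap (𝓡∂ n) U x v * ContinuousLinearMap.adjoint (U x) = 0 := d_uni_right h.uni x v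
    have h4 : U x * ContinuousLinearMap.adjoint (U x) = 1 := uni_right h.uni x
    have h5 : ContinuousLinearMap.adjoint (U x) * U x = 1 :=
      (Unitary.mem_iff.1 (h.uni.unitary x)).1
    rw [h2, h1]
    show ContinuousLinearMap.adjoint (dmap (𝓡∂ n) U x v) +
      (ContinuousLinearMap.adjoint (U x) *
        (P.A.form (F x) (mfderiv (𝓡∂ n) (𝓡∂ n) F x v) * U x) +
        ContinuousLinearMap.adjoint (U x) * dmap (𝓡∂ n) U x v) *
        ContinuousLinearMap.adjoint (U x) =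
      ContinuousLinearMap.adjoint (U x) * P.A.form (F x) (mfderiv (𝓡∂ n) (𝓡∂ n) F x v)
    generalize P.A.form (F x) (mfderiv (𝓡∂ n) (𝓡∂ n) F x v) = a
    generalize ContinuousLinearMap.adjoint (dmap (𝓡∂ n) U x v) = dg' at h3
    generalize dmap (𝓡∂ n) U x v = dg at h3
    generalize ContinuousLinearMap.adjoint (U x) = g' at h3 h4 h5
    generalize U x = g at h3 h4 h5
    have e2 : dg * g' = - (g * dg') := eq_neg_of_add_eq_zero_right h3
    calc dg' + (g' * (a * g) + g' * dg) * g'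
        = dg' + (g' * a * (g * g') + g' * (dg * g')) := by noncomm_ring
      _ = dg' + (g' * a + - ((g' * g) * dg')) := by rw [h4, e2, mul_one]; noncomm_ring
      _ = g' * a := by rw [h5, one_mul]; abel

theorem Geo.bd' {U : M₂ → EndF N} (h : Geo P Q G F U) :
    ∀ x ∈ G.Γ₂, F x = G.ψ x ∧ (fun x => ContinuousLinearMap.adjoint (U x)) x = 1 := fun x hx => by
  refine ⟨(h.bd x hx).1, ?_⟩
  show ContinuousLinearMap.adjoint (U x) = 1
  rw [(h.bd x hx).2]
  exact star_one (EndF N)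

/-- solutions are intertwined -/
theorem Geo.sol {U : M₂ → EndF N} (h : Geo P Q G F U) (hG : G.Ok n N)
    {u : (M₁ → Fib N) × (M₂ → Fib N)} (hu : u ∈ PP P Q G) (x : M₂) :
    u.1 (F x) = U x (u.2 x) := by
  have h1 := natSol h.rel hG h.bd' hu x
  have h2 : U x * ContinuousLinearMap.adjoint (U x) = 1 := uni_right h.uni x
  rw [h1]
  exact (congrArg (fun T : EndF N => T (u.1 (F x))) h2).symm

/-- gauge equivalent pairs have the same data -/
theorem Geo.same {U : M₂ → EndF N} (h : Geo P Q G F U) (hG : G.Ok n N) (hP : P.HasSol G.Γ₁) :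
    SameD P Q G := natSame h.rel hG h.bd' hP

/-- uniqueness -/
theorem Geo.uniq (hn : 2 ≤ n) (hN : 0 < N) (hG : G.Ok n N) (hP : P.HasSol G.Γ₁)
    {F' : Diffeomorph (𝓡∂ n) (𝓡∂ n) M₂ M₁ ∞} {U U' : M₂ → EndF N}
    (h : Geo P Q G F U) (h' : Geo P Q G F' U') : F = F' ∧ U = U' := by
  have h1 := natUniq hn hN hG hP h.rel h.bd' h'.rel h'.bd'
  constructor
  · exact Diffeomorph.ext fun x => (h1 x).1
  · funext x
    have h2 : ContinuousLinearMap.adjoint (U x) = ContinuousLinearMap.adjoint (U' x) := (h1 x).2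
    exact ContinuousLinearMap.adjoint.injective h2

end Rel

end Vale.Agent.P088.TM
end
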