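import Vale.Agent.P088.H820.Defs

/-!
# P088: the equations on a set are `Vale.Agent.P088.B.CoupledOn`
-/
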